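import Vale.Agent.P218N.Defs
import Vale.Agent.P218N.B.Stmt
import Vale.Agent.P218N.CM.Defs
import Vale.Agent.P218N.H.Dil

/-! Block C (the ends of a shrinker of finite genus): definitions and the statements of the
sub-results. -/

open MeasureTheory Set Filter Topology Metric Real
open scoped ENNReal NNReal RealInnerProductSpace ContDiff

namespace Vale.Agent.P218N.C

open Vale.Agent.P218.H313 Vale.Agent.P218N.H Vale.Agent.P218N.B Vale.Agent.P218N.GB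
open Vale.Agent.P218GA (cH)

/-! ### definitions -/

/-- the zero set -/
def zs (w : E3 → ℝ) : Set E3 := {x | w x = 0}

/-- the translate `S - c` -/
def shf (S : Set E3) (c : E3) : Set E3 := {v | c + v ∈ S}

/-- the direction of a point -/
noncomputable def dir (x : E3) : E3 := ‖x‖⁻¹ • x

/-- the plane with normal `e` -/
def plane (e : E3) : Set E3 := {x | ⟪e, x⟫ = 0}

/-- the cylinder of radius `√2` with axis `y` -/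
def cylS (y : E3) : Set E3 := {x | ‖perp y x‖ ^ 2 = 2}

/-- bounded area ratios at all scales -/
def ARm (Λ : ℝ) (κ : Measure E3) : Prop :=
  ∀ (x : E3) (r : ℝ), 0 < r → κ (ball x r) ≤ ENNReal.ofReal (Λ * r ^ 2)

/-- a shrinker with bounded area ratios -/
structure Shk (Λ : ℝ) (w : E3 → ℝ) : Prop where
  shr : Shr w
  pos : 0 < Λ
  ratio : ARm Λ (mu (zs w))

/-- a shrinker with bounded area ratios and finite genus -/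
structure TopS (Λ : ℝ) (b : ℕ) (w : E3 → ℝ) : Prop where
  shk : Shk Λ w
  rank : RankC (zs w) b

/-- the Gaussian ratio with centre `c` and scale `s`; it is `1` for a plane through `c` -/
noncomputable def Gm (κ : Measure E3) (c : E3) (s : ℝ) : ℝ :=
  (4 * π * s * cH 2)⁻¹ * ∫ x, exp (-‖x - c‖ ^ 2 / (4 * s)) ∂κ

/-- the dissipation along the path `σ ↦ (σ y, 1 + a σ²)` -/
noncomputable def Dis (w : E3 → ℝ) (y : E3) (a σ : ℝ) : ℝ :=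
  (4 * π * (1 + a * σ ^ 2) * cH 2)⁻¹ * ∫ x, ⟪(a * σ) • x + y, nuW w x⟫ ^ 2 *
    exp (-‖x - σ • y‖ ^ 2 / (4 * (1 + a * σ ^ 2))) ∂(mu (zs w))

/-- weak convergence of Radon measures -/
def WLim {ι : Type} (l : Filter ι) (μ : ι → Measure E3) (κ : Measure E3) : Prop :=
  ∀ φ : E3 → ℝ, Continuous φ → HasCompactSupport φ →
    Tendsto (fun i => ∫ x, φ x ∂(μ i)) l (𝓝 (∫ x, φ x ∂κ))

/-- the area measure of `S - R y` -/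
noncomputable def tm (w : E3 → ℝ) (y : E3) (R : ℝ) : Measure E3 := mu (shf (zs w) (R • y))

/-- `S - R y` tends to zero -/
def NoLim (w : E3 → ℝ) (y : E3) : Prop := WLim atTop (tm w y) 0

/-- `S - R y` tends to `k` times the cylinder -/
def CylLim (w : E3 → ℝ) (y : E3) (k : ℕ) : Prop :=
  WLim atTop (tm w y) ((k : ℝ≥0∞) • mu (cylS y))

/-- every limit of `S - R y` is `k` times a plane containing `y`, slowly varying with `R` -/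
def PlLim (w : E3 → ℝ) (y : E3) (k : ℕ) : Prop :=
  ∀ (ι : Type) (U : Ultrafilter ι) (R : ι → ℝ), Tendsto R U atTop →
    ∃ e : E3, ‖e‖ = 1 ∧ ⟪e, y⟫ = 0 ∧ ∀ ρ : ι → ℝ,
      (∀ᶠ i in (U : Filter ι), R i / 8 ≤ ρ i ∧ ρ i ≤ 8 * R i) →
        WLim U (fun i => tm w y (ρ i)) ((k : ℝ≥0∞) • mu (plane e))

/-- far out there are no points of `S` in a cone around `y` -/
def Emp (w : E3 → ℝ) (y : E3) : Prop :=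
  ∃ δ R : ℝ, 0 < δ ∧ ∀ x, w x = 0 → R ≤ ‖x‖ → δ < ‖dir x - y‖

/-- in a cone around `y` the surface is asymptotically close to the cylinder -/
def Near (w : E3 → ℝ) (y : E3) : Prop :=
  ∃ δ : ℝ, 0 < δ ∧ ∀ η : ℝ, 0 < η → ∃ R : ℝ, ∀ x, w x = 0 → R ≤ ‖x‖ → ‖dir x - y‖ ≤ δ →
    |‖perp y x‖ - √2| ≤ η

/-- small Gaussian ratios in a cone, at scales proportional to the distance -/
def RatCone (w : E3 → ℝ) (y : E3) (ε : ℝ) : Prop :=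
  ∃ δ R : ℝ, 0 < δ ∧ ∀ (c : E3) (s : ℝ), R ≤ ‖c‖ → ‖dir c - y‖ ≤ δ → 0 < s → s ≤ δ * ‖c‖ ^ 2 →
    Gm (mu (zs w)) c s ≤ 1 + ε

/-- small Gaussian ratios in a tube, at small scales -/
def RatTube (w : E3 → ℝ) (y : E3) (ε : ℝ) : Prop :=
  ∃ s₀ z₀ : ℝ, 0 < s₀ ∧ ∀ (c : E3) (s : ℝ), z₀ ≤ ⟪y, c⟫ → ‖perp y c‖ ≤ 4 → 0 < s → s ≤ s₀ →
    Gm (mu (zs w)) c s ≤ 1 + ε

/-- in a fixed cylinder around `y` the surfaces `l S` are graphs with bounded derivatives which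
converge as `l → 0` -/
def ConeCh (w : E3 → ℝ) (y : E3) : Prop :=
  ∃ (f : Frame 2 E3) (p : E3) (ρ h l₀ : ℝ) (u : ℝ → E2 → ℝ), 0 < l₀ ∧ y ∈ f.cyl p ρ h ∧
    (∀ l ∈ Ioo 0 l₀, ContDiffOn ℝ ∞ (u l) (ball 0 ρ) ∧
      ∀ x ∈ f.cyl p ρ h, w (l⁻¹ • x) = 0 ↔ f.gw p (u l) x = 0) ∧
    (∀ k : ℕ, ∃ C : ℝ, ∀ l ∈ Ioo 0 l₀, ∀ z ∈ ball (0 : E2) ρ, ‖iteratedFDeriv ℝ k (u l) z‖ ≤ C) ∧
    ∃ C : ℝ, ∀ l ∈ Ioo 0 l₀, ∀ l' ∈ Ioo 0 l₀, ∀ z ∈ ball (0 : E2) ρ,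
      |u l z - u l' z| ≤ C * (l + l')

/-- graph charts of uniform size with uniform bounds along the tube -/
def CylCh (w : E3 → ℝ) (y : E3) : Prop :=
  ∃ (ρ h z₀ : ℝ) (C : ℕ → ℝ), 0 < ρ ∧ 0 < h ∧ ∀ x₁, w x₁ = 0 → z₀ ≤ ⟪y, x₁⟫ → ‖perp y x₁‖ ≤ 3 →
    ∃ (f : Frame 2 E3) (u : E2 → ℝ), ContDiffOn ℝ ∞ u (ball 0 ρ) ∧ u 0 = 0 ∧ fderiv ℝ u 0 = 0 ∧
      (∀ z ∈ ball (0 : E2) ρ, |u z| < h) ∧ (∀ x ∈ f.cyl x₁ ρ h, w x = 0 ↔ f.gw x₁ u x = 0) ∧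
      ∀ (k : ℕ), ∀ z ∈ ball (0 : E2) ρ, ‖iteratedFDeriv ℝ k u z‖ ≤ C k

/-- a cylindrical end in the direction `y` -/
def CylEnd (w : E3 → ℝ) (y : E3) : Prop :=
  ∃ (Q : E3 ≃ₗᵢ[ℝ] E3) (v : ℝ × ℝ → ℝ) (δ s₀ : ℝ), axis Q = y ∧ Decays v ∧ 0 < δ ∧
    (∀ p : ℝ × ℝ, s₀ < p.1 → w (cylPt Q v p) = 0) ∧
    ∀ s₁ : ℝ, ∃ R : ℝ, ∀ x, w x = 0 → R < ‖x‖ → ‖dir x - y‖ < δ →
      ∃ p : ℝ × ℝ, s₁ < p.1 ∧ x = cylPt Q v p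

/-- the conical ends with directions in `A` -/
def ConeEnds (w : E3 → ℝ) (A : Set E3) : Prop :=
  ∃ (a : ℕ) (γ n : Fin a → ℝ → E3) (l : Fin a → ℝ) (h : Fin a → ℝ × ℝ → ℝ) (s₀ : ℝ),
    (∀ i, Link (γ i) (n i) (l i)) ∧ (∀ i, Decays (h i)) ∧
    (∀ i i', i ≠ i' → ∀ θ θ', γ i θ ≠ γ i' θ') ∧ (∀ i θ, γ i θ ∈ A) ∧
    (∀ i (p : ℝ × ℝ), s₀ < p.1 → w (conePt (γ i) (n i) (h i) p) = 0) ∧
    ∀ s₁ : ℝ, ∃ R : ℝ, ∀ x, w x = 0 → R < ‖x‖ → dir x ∈ A →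
      ∃ (i : Fin a) (p : ℝ × ℝ), s₁ < p.1 ∧ x = conePt (γ i) (n i) (h i) p

/-- for every size `L ≥ 3`, the levels `a` with `P L a` are asymptotically dense on a logarithmic
scale -/
def Often3 (P : ℝ → ℝ → Prop) : Prop :=
  ∀ L η : ℝ, 3 ≤ L → 0 < η → ∃ a₀, ∀ a, a₀ ≤ a → ∃ a', a ≤ a' ∧ a' ≤ (1 + η) * a ∧ P L a'

/-- planar limits have multiplicity at most one -/
def MultP3 : Prop :=
  ∀ (w : E3 → ℝ) (b k : ℕ) (e : E3) (σ : ℝ), Shr w → RankC (zs w) b → 0 < σ →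
    Often3 (fun L a => ∃ y n, Orthonormal ℝ ![e, y, n] ∧ CM.SecP w e y n k σ (1 / 10) L a) → k ≤ 1

/-- cylindrical limits have multiplicity at most one -/
def MultC3 : Prop :=
  ∀ (w : E3 → ℝ) (b k : ℕ) (e y n : E3) (σ : ℝ), Shr w → RankC (zs w) b → 0 < σ →
    Orthonormal ℝ ![e, y, n] → Often3 (CM.SecC w e y n k σ) → k ≤ 1

/-! ### C0: Gaussian ratios -/

/-- uniform bounds for Gaussian integrals -/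
def GBdStmt : Prop := ∃ C : ℝ, 0 < C ∧ ∀ (Λ : ℝ) (κ : Measure E3) (c : E3) (s : ℝ), 0 < Λ →
  ARm Λ κ → 0 < s → (∀ n : ℕ, Integrable (fun x => (1 + ‖x‖) ^ n * exp (-‖x - c‖ ^ 2 / (4 * s))) κ) ∧
    Gm κ c s ≤ C * Λ ∧
    ∀ d : ℝ, 0 ≤ d → (4 * π * s * cH 2)⁻¹ * ∫ x in (ball c d)ᶜ, exp (-‖x - c‖ ^ 2 / (4 * s)) ∂κ
      ≤ C * Λ * exp (-d ^ 2 / (8 * s))

/-- Gaussian ratios are continuous under weak convergence; area ratios pass to the limit -/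
def GLimStmt : Prop := ∀ (ι : Type) (l : Filter ι) (μ : ι → Measure E3) (κ : Measure E3) (Λ : ℝ),
  l.NeBot → 0 < Λ → (∀ i, ARm Λ (μ i)) → IsLocallyFiniteMeasure κ → WLim l μ κ → ARm Λ κ ∧
    ∀ (c : E3) (s : ℝ) (c' : ι → E3) (s' : ι → ℝ), 0 < s → Tendsto c' l (𝓝 c) →
      Tendsto s' l (𝓝 s) → Tendsto (fun i => Gm (μ i) (c' i) (s' i)) l (𝓝 (Gm κ c s))

/-- existence of weak limits along ultrafilters -/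
def ExLimStmt : Prop := ∀ (ι : Type) (U : Ultrafilter ι) (μ : ι → Measure E3) (Λ : ℝ),
  (∀ i, ARm Λ (μ i)) → ∃ κ : Measure E3, IsLocallyFiniteMeasure κ ∧ WLim U μ κ

/-- the ratio of a plane, and the ratios of a surface at small scales -/
def GDensStmt : Prop :=
  (∀ (e c : E3) (s : ℝ), ‖e‖ = 1 → 0 < s → Gm (mu (plane e)) c s = exp (-⟪e, c⟫ ^ 2 / (4 * s))) ∧
  ∀ (M : Set E3) (Λ : ℝ), Surf M → 0 < Λ → IsClosed M → ARm Λ (mu M) → ∀ (p : E3) (ε : ℝ), 0 < ε →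
    ∃ δ : ℝ, 0 < δ ∧ ∀ (c : E3) (s : ℝ), 0 < s → s < δ →
      (‖c - p‖ < δ → Gm (mu M) c s ≤ 1 + ε) ∧
      (p ∈ M → ‖c - p‖ ^ 2 ≤ δ * s → 1 - ε ≤ Gm (mu M) c s)

/-- the monotonicity formula -/
def HuiStmt : Prop := ∀ (Λ : ℝ) (w : E3 → ℝ), Shk Λ w → ∀ (y : E3) (a σ : ℝ), 0 < 1 + a * σ ^ 2 →
  HasDerivAt (fun σ => Gm (mu (zs w)) (σ • y) (1 + a * σ ^ 2))
    (-(σ / (2 * (1 + a * σ ^ 2) ^ 2) * Dis w y a σ)) σ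

/-- consequences: monotonicity and the lower density bound -/
def MonoStmt : Prop := ∀ (Λ : ℝ) (w : E3 → ℝ), Shk Λ w →
  (∀ (y : E3) (a σ σ' : ℝ), 0 ≤ σ → σ ≤ σ' → 0 < 1 + a * σ' ^ 2 →
    Gm (mu (zs w)) (σ' • y) (1 + a * σ' ^ 2) ≤ Gm (mu (zs w)) (σ • y) (1 + a * σ ^ 2)) ∧
  ∀ (p : E3) (σ : ℝ), w p = 0 → 0 ≤ σ → σ < 1 → 1 ≤ Gm (mu (zs w)) (σ • p) (1 - σ ^ 2)

/-- good scales are dense on a logarithmic scale -/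
def GoodStmt : Prop := ∀ (Λ : ℝ) (w : E3 → ℝ), Shk Λ w → ∀ (y : E3) (α β : ℝ), 0 < α → α < β →
  ∃ ρ : ℝ → ℝ, (∀ R, 0 < R → α * R ≤ ρ R ∧ ρ R ≤ β * R) ∧
    Tendsto (fun R => ρ R ^ 2 * Dis w y 0 (ρ R)) atTop (𝓝 0)

/-- slow variation of `S - R y` -/
def SlowStmt : Prop := ∀ (Λ : ℝ) (w : E3 → ℝ), Shk Λ w → ∀ y : E3, ‖y‖ = 1 → ∀ φ : E3 → ℝ,
  Continuous φ → HasCompactSupport φ → ∀ N ε : ℝ, 0 < ε → ∃ R₀ : ℝ, ∀ ρ ρ' : ℝ, R₀ ≤ ρ → ρ ≤ ρ' →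
    ρ' ≤ N * ρ → |∫ x, φ x ∂(tm w y ρ) - ∫ x, φ x ∂(tm w y ρ')| ≤ ε

/-! ### C1: the limits of `S - R y` -/

/-- closed shrinkers are connected -/
def FrankelStmt : Prop := ∀ w : E3 → ℝ, Shr w → IsPreconnected (zs w)

/-- translation invariant shrinkers -/
def InvStmt : Prop := ∀ (w : E3 → ℝ) (y : E3), Shr w → ‖y‖ = 1 →
  (∀ (x : E3) (t : ℝ), w x = 0 → w (x + t • y) = 0) →
    zs w = ∅ ∨ (∃ e : E3, ‖e‖ = 1 ∧ ⟪e, y⟫ = 0 ∧ zs w = plane e) ∨ zs w = cylS y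

/-- at good scales the translates satisfy the hypotheses of block B -/
def SeqStmt : Prop := ∀ (Λ : ℝ) (b : ℕ) (w : E3 → ℝ), TopS Λ b w → ∀ (y : E3) (ι : Type)
  (U : Ultrafilter ι) (ρ : ι → ℝ) (κ : Measure E3), IsLocallyFiniteMeasure κ →
    Tendsto (fun i => ρ i ^ 2 * Dis w y 0 (ρ i)) U (𝓝 0) → WLim U (fun i => tm w y (ρ i)) κ →
      Seq U (fun i => shf (zs w) (ρ i • y)) κ (4 * Λ)

/-- the three types of directions -/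
def ClassStmt : Prop := ∀ (Λ : ℝ) (b : ℕ) (w : E3 → ℝ), TopS Λ b w → ∀ y : E3, ‖y‖ = 1 →
  NoLim w y ∨ (∃ k, 1 ≤ k ∧ CylLim w y k) ∨ ∃ k, 1 ≤ k ∧ PlLim w y k

/-! ### C3, C4: cross sections for the multiplicity one theorems -/

/-- good cross sections, planar case -/
def SecPStmt : Prop := ∀ (Λ : ℝ) (b : ℕ) (w : E3 → ℝ), TopS Λ b w → ∀ (y : E3) (k : ℕ), ‖y‖ = 1 →
  PlLim w y k → Often3 fun L a => ∃ y' n, Orthonormal ℝ ![y, y', n] ∧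
    CM.SecP w y y' n k (1 / 2) (1 / 10) L a

/-- good cross sections, cylindrical case -/
def SecCStmt : Prop := ∀ (Λ : ℝ) (b : ℕ) (w : E3 → ℝ), TopS Λ b w → ∀ (y y' n : E3) (k : ℕ),
  Orthonormal ℝ ![y, y', n] → CylLim w y k → Often3 (CM.SecC w y y' n k (1 / 2))

/-! ### C2: clearing out and small ratios -/

def ClearStmt : Prop := ∀ (Λ : ℝ) (w : E3 → ℝ), Shk Λ w → ∀ y : E3, ‖y‖ = 1 →
  (NoLim w y → Emp w y) ∧ ∀ k, CylLim w y k → Near w y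

def RatStmt : Prop := ∀ (Λ : ℝ) (w : E3 → ℝ), Shk Λ w → ∀ y : E3, ‖y‖ = 1 → ∀ ε : ℝ, 0 < ε →
  (PlLim w y 1 → RatCone w y ε) ∧ (CylLim w y 1 → RatTube w y ε)

/-! ### C5: charts from the local regularity theorem -/

def ChartStmt : Prop := ∃ ε : ℝ, 0 < ε ∧ ∀ (Λ : ℝ) (w : E3 → ℝ), Shk Λ w → ∀ y : E3, ‖y‖ = 1 →
  (RatCone w y ε → Emp w y ∨ ConeCh w y) ∧ (RatTube w y ε → CylCh w y)

/-! ### C6: the ends -/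

/-- bounds for the derivatives of an implicit function -/
def ImplStmt : Prop := ∀ (k : ℕ) (c B : ℝ), 0 < c → ∃ C : ℝ,
  ∀ (F : (ℝ × ℝ) × ℝ → ℝ) (H : ℝ × ℝ → ℝ) (p : ℝ × ℝ),
    (∀ᶠ q in 𝓝 (p, H p), ContDiffAt ℝ ∞ F q) →
    (∀ᶠ p' in 𝓝 p, ContDiffAt ℝ ∞ H p' ∧ F (p', H p') = 0) →
    c ≤ |fderiv ℝ F (p, H p) (0, 1)| →
    (∀ j, 1 ≤ j → j ≤ k → ‖iteratedFDeriv ℝ j F (p, H p)‖ ≤ B) →
    ∀ j, 1 ≤ j → j ≤ k → ‖iteratedFDeriv ℝ j H p‖ ≤ C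

/-- smoothness of an implicit function which is unique -/
def ImplSmStmt : Prop := ∀ (F : (ℝ × ℝ) × ℝ → ℝ) (H : ℝ × ℝ → ℝ) (p : ℝ × ℝ) (a b : ℝ),
  ContDiff ℝ ∞ F → H p ∈ Ioo a b → fderiv ℝ F (p, H p) (0, 1) ≠ 0 →
    (∀ᶠ p' in 𝓝 p, ∀ t ∈ Ioo a b, F (p', t) = 0 ↔ t = H p') → ContDiffAt ℝ ∞ H p

/-- interpolation and cut-off -/
def InterpStmt : Prop := ∀ (h : ℝ × ℝ → ℝ) (s₀ : ℝ), (∀ p : ℝ × ℝ, s₀ < p.1 → ContDiffAt ℝ ∞ h p) →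
  (∀ s θ, s₀ < s → h (s, θ + 2 * π) = h (s, θ)) →
  (∀ k : ℕ, ∃ C : ℝ, ∀ p : ℝ × ℝ, s₀ < p.1 → ‖iteratedFDeriv ℝ k h p‖ ≤ C) →
  (∀ ε : ℝ, 0 < ε → ∃ s₁ : ℝ, ∀ p : ℝ × ℝ, s₁ ≤ p.1 → |h p| ≤ ε) →
  ∃ h' : ℝ × ℝ → ℝ, Decays h' ∧ ∀ p : ℝ × ℝ, s₀ + 1 ≤ p.1 → h' p = h p

/-- smooth limits of functions with bounded derivatives -/
def SmLimStmt : Prop := ∀ (u : ℝ → E2 → ℝ) (ρ l₀ C : ℝ), 0 < l₀ →
  (∀ l ∈ Ioo 0 l₀, ContDiffOn ℝ ∞ (u l) (ball 0 ρ)) →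
  (∀ k : ℕ, ∃ C : ℝ, ∀ l ∈ Ioo 0 l₀, ∀ z ∈ ball (0 : E2) ρ, ‖iteratedFDeriv ℝ k (u l) z‖ ≤ C) →
  (∀ l ∈ Ioo 0 l₀, ∀ l' ∈ Ioo 0 l₀, ∀ z ∈ ball (0 : E2) ρ, |u l z - u l' z| ≤ C * (l + l')) →
  ∃ v : E2 → ℝ, ContDiffOn ℝ ∞ v (ball 0 ρ) ∧
    (∀ l ∈ Ioo 0 l₀, ∀ z ∈ ball (0 : E2) ρ, |u l z - v z| ≤ C * l) ∧
    ∀ ρ' ε : ℝ, ρ' < ρ → 0 < ε → ∃ l₁ : ℝ, 0 < l₁ ∧ ∀ l ∈ Ioo 0 l₁, ∀ z ∈ ball (0 : E2) ρ',
      ‖fderiv ℝ (u l) z - fderiv ℝ v z‖ ≤ ε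

/-- compact one-dimensional submanifolds are finite unions of embedded closed curves -/
def OneManStmt : Prop := ∀ Z : Set E3, IsCompact Z →
  (∀ x ∈ Z, ∃ (U : Set E3) (F : E3 → ℝ × ℝ), IsOpen U ∧ x ∈ U ∧ ContDiffOn ℝ ∞ F U ∧
    (∀ z ∈ U, Function.Surjective (fderiv ℝ F z)) ∧ ∀ z ∈ U, z ∈ Z ↔ F z = 0) →
  ∃ (a : ℕ) (γ : Fin a → ℝ → E3) (l : Fin a → ℝ), (∀ i, ContDiff ℝ ∞ (γ i) ∧
    (∀ θ, γ i (θ + 2 * π) = γ i θ) ∧ 0 < l i ∧ (∀ θ, ‖deriv (γ i) θ‖ = l i) ∧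
    InjOn (γ i) (Ico 0 (2 * π))) ∧ (∀ i i', i ≠ i' → ∀ θ θ', γ i θ ≠ γ i' θ') ∧
    ∀ x, x ∈ Z ↔ ∃ i θ, x = γ i θ

def CylEndStmt : Prop := ∀ (w : E3 → ℝ) (y : E3), Shr w → ‖y‖ = 1 → CylCh w y → Near w y →
  Emp w y ∨ CylEnd w y

/-- near a direction with a cone chart there is no cylindrical direction -/
def IsoStmt : Prop := ∀ (w : E3 → ℝ) (y : E3), ConeCh w y →
  ∀ᶠ y' in 𝓝 y, ‖y'‖ = 1 → Near w y' → Emp w y'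

def ConeEndStmt : Prop := ∀ (w : E3 → ℝ) (A : Set E3), Shr w → IsCompact A → A ⊆ sphere 0 1 →
  (∀ y ∈ A, Emp w y ∨ (ConeCh w y ∧ A ∈ 𝓝[sphere 0 1] y)) → ConeEnds w A

/-- **block C** -/
def EndsStmt : Prop := ∀ (Λ : ℝ) (b : ℕ) (w : E3 → ℝ), TopS Λ b w → Ends w

end Vale.Agent.P218N.C
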