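import Vale.Agent.P218N.C.All1
import Vale.Agent.P218N.CM.Mult
import Vale.Agent.P218N.B.All

/-! **Block C**: the ends of a shrinker of finite genus with bounded area ratios are conical or
cylindrical. -/

namespace Vale.Agent.P218N.C

theorem endsStmt : EndsStmt := ends_of_mult B.structStmt' CM.multP3 CM.multC3

end Vale.Agent.P218N.C
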