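import Vale.Agent.P218N.C.Stmt
import Vale.Agent.P218N.Curve.Plane

/-! Block C: translation invariant shrinkers are planes or cylinders. -/

open Set Filter Topology Metric Real
open scoped NNReal RealInnerProductSpace ContDiff

namespace Vale.Agent.P218N.C

open Vale.Agent.P218.H313 Vale.Agent.P218N.H

namespace Inv

/-- bounded smooth vector fields are complete -/
theorem exists_flow {Y : E3 → E3} (hY : ContDiff ℝ 1 Y) (hC : ∀ x, ‖Y x‖ ≤ 1) (x₀ : E3) :
    ∃ α : ℝ → E3, α 0 = x₀ ∧ ∀ t, HasDerivAt α (Y (α t)) t := by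
  have lip : ∀ n : ℕ, ∃ K, LipschitzOnWith K Y (closedBall x₀ n) := fun n =>
    (hY.locallyLipschitz.locallyLipschitzOn (s := closedBall x₀ n)).exists_lipschitzOnWith_of_compact
      (isCompact_closedBall _ _)
  have key : ∀ n : ℕ, ∃ α : ℝ → E3, α 0 = x₀ ∧
      ∀ t ∈ Ioo (-(n : ℝ)) n, HasDerivAt α (Y (α t)) t := by
    intro n
    obtain ⟨K, hK⟩ := lip n
    have hPL : IsPicardLindelof (fun _ => Y) (tmin := -(n : ℝ)) (tmax := n)
        ⟨0, by constructor <;> simp⟩ x₀ n 0 1 K :=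
      ⟨fun t ht => by simpa using hK, fun y _ => continuousOn_const, fun t ht y _ => hC y, by simp⟩
    obtain ⟨α, h1, h2⟩ := hPL.exists_eq_forall_mem_Icc_hasDerivWithinAt₀
    exact ⟨α, h1, fun t ht => (h2 t (Ioo_subset_Icc_self ht)).hasDerivAt (Icc_mem_nhds ht.1 ht.2)⟩
  choose α h0 h1 using key
  have inb : ∀ n : ℕ, ∀ t ∈ Ioo (-(n : ℝ)) n, ‖α n t - x₀‖ ≤ |t| := fun n t ht => by
    have := (convex_Ioo (-(n : ℝ)) n).norm_image_sub_le_of_norm_hasDerivWithin_le (C := 1)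
      (fun s hs => (h1 n s hs).hasDerivWithinAt) (fun s _ => hC _)
      (show (0 : ℝ) ∈ Ioo (-(n : ℝ)) n from ⟨by linarith [ht.1, ht.2], by linarith [ht.1, ht.2]⟩) ht
    simpa [h0] using this
  have hag : ∀ m n : ℕ, m ≤ n → EqOn (α m) (α n) (Ioo (-(m : ℝ)) m) := fun m n hmn t ht => by
    have hmn' : (m : ℝ) ≤ n := by exact_mod_cast hmn
    obtain ⟨K, hK⟩ := lip m
    have sub : ∀ t ∈ Ioo (-(m : ℝ)) m, t ∈ Ioo (-(n : ℝ)) n := fun t ht =>
      ⟨by linarith [ht.1], by linarith [ht.2]⟩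
    exact ODE_solution_unique_of_mem_Ioo (v := fun _ => Y) (s := fun _ => closedBall x₀ m) (K := K)
      (t₀ := 0) (fun _ _ => hK) ⟨by linarith [ht.1, ht.2], by linarith [ht.1, ht.2]⟩
      (fun t ht => ⟨h1 m t ht, mem_closedBall_iff_norm.2 ((inb m t ht).trans (abs_lt.2 ht).le)⟩)
      (fun t ht => ⟨h1 n t (sub t ht),
        mem_closedBall_iff_norm.2 ((inb n t (sub t ht)).trans (abs_lt.2 ht).le)⟩)
      ((h0 m).trans (h0 n).symm) ht
  have hm : ∀ s : ℝ, s ∈ Ioo (-((⌈|s|⌉₊ + 1 : ℕ) : ℝ)) (⌈|s|⌉₊ + 1 : ℕ) := fun s => by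
    rw [mem_Ioo, ← abs_lt]
    push_cast
    linarith [Nat.le_ceil |s|]
  refine ⟨fun t => α (⌈|t|⌉₊ + 1) t, h0 _, fun t => ?_⟩
  have he : (fun s => α (⌈|s|⌉₊ + 1) s) =ᶠ[𝓝 t] α (⌈|t|⌉₊ + 2) := by
    filter_upwards [continuous_abs.continuousAt.eventually_lt_const (lt_add_one |t|)] with s hs
    refine hag _ _ (Nat.succ_le_succ (Nat.ceil_le.2 ?_)) (hm s)
    push_cast
    linarith [Nat.le_ceil |t|]
  show HasDerivAt _ (Y (α (⌈|t|⌉₊ + 1) t)) t
  rw [show α (⌈|t|⌉₊ + 1) t = α (⌈|t|⌉₊ + 2) t from he.self_of_nhds]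
  exact (h1 _ t ⟨by push_cast; linarith [(hm t).1, Nat.le_ceil |t|, neg_abs_le t],
    by push_cast; linarith [Nat.le_ceil |t|, le_abs_self t]⟩).congr_of_eventuallyEq he

/-! ### the cross product with a fixed vector -/

/-- `v ↦ v × y` -/
noncomputable def J (y : E3) : E3 →L[ℝ] E3 := LinearMap.toContinuousLinearMap
  { toFun := fun v => !₂[v 1 * y 2 - v 2 * y 1, v 2 * y 0 - v 0 * y 2, v 0 * y 1 - v 1 * y 0]
    map_add' := fun a b => by
      ext i
      fin_cases i <;> simp <;> ring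
    map_smul' := fun c a => by
      ext i
      fin_cases i <;> simp <;> ring }

theorem J_apply (y v : E3) :
    J y v = !₂[v 1 * y 2 - v 2 * y 1, v 2 * y 0 - v 0 * y 2, v 0 * y 1 - v 1 * y 0] := rfl

theorem inner3 (a b : E3) : ⟪a, b⟫ = a 0 * b 0 + a 1 * b 1 + a 2 * b 2 := by
  simp [PiLp.inner_apply, Fin.sum_univ_three, mul_comm]

theorem inner_y_J (y v : E3) : ⟪y, J y v⟫ = 0 := by
  rw [inner3, J_apply]; simp; ring

theorem inner_self_J (y v : E3) : ⟪v, J y v⟫ = 0 := by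
  rw [inner3, J_apply]; simp; ring

theorem J_self (y : E3) : J y y = 0 := by
  ext i
  rw [J_apply]
  fin_cases i <;> simp <;> ring

theorem norm_J_sq (y v : E3) : ‖J y v‖ ^ 2 = ‖v‖ ^ 2 * ‖y‖ ^ 2 - ⟪y, v⟫ ^ 2 := by
  simp only [← real_inner_self_eq_norm_sq, inner3, J_apply]
  simp
  ring

theorem J_J (y v : E3) : J y (J y v) = ⟪y, v⟫ • y - ‖y‖ ^ 2 • v := by
  ext i
  simp only [← real_inner_self_eq_norm_sq, inner3, J_apply]
  fin_cases i <;> simp <;> ring

variable {y n : E3}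

theorem norm_J_le (hy : ‖y‖ = 1) (v : E3) : ‖J y v‖ ≤ ‖v‖ := by
  refine (abs_le_of_sq_le_sq' ?_ (norm_nonneg _)).2
  rw [norm_J_sq, hy]
  linarith [sq_nonneg ⟪y, v⟫]

theorem norm_J (hy : ‖y‖ = 1) (hn : ‖n‖ = 1) (h : ⟪y, n⟫ = 0) : ‖J y n‖ = 1 := by
  refine (pow_eq_one_iff_of_nonneg (norm_nonneg _) two_ne_zero).1 ?_
  rw [norm_J_sq, hy, hn, h]; norm_num

theorem exists_frame (hy : ‖y‖ = 1) (hn : ‖n‖ = 1) (h : ⟪y, n⟫ = 0) :
    ∃ b : OrthonormalBasis (Fin 3) ℝ E3, b 0 = n ∧ b 1 = J y n ∧ b 2 = y := by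
  have o : Orthonormal ℝ ![n, J y n, y] := by
    have a1 := inner_self_J y n
    have a2 := inner_y_J y n
    have a3 := norm_J hy hn h
    have a4 : ⟪n, y⟫ = 0 := by rwa [real_inner_comm]
    have a5 : ⟪J y n, n⟫ = 0 := by rwa [real_inner_comm]
    have a6 : ⟪J y n, y⟫ = 0 := by rwa [real_inner_comm]
    refine ⟨fun i => ?_, fun i j hij => ?_⟩
    · fin_cases i <;> simpa
    · fin_cases i <;> fin_cases j <;> first | exact absurd rfl hij | simpa
  refine ⟨(basisOfOrthonormalOfCardEqFinrank o (by simp)).toOrthonormalBasis (by simpa using o),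
    ?_, ?_, ?_⟩ <;> simp

theorem decomp (hy : ‖y‖ = 1) (hn : ‖n‖ = 1) (h : ⟪y, n⟫ = 0) (v : E3) :
    v = ⟪n, v⟫ • n + ⟪J y n, v⟫ • J y n + ⟪y, v⟫ • y := by
  obtain ⟨b, b0, b1, b2⟩ := exists_frame hy hn h
  simpa [Fin.sum_univ_three, b0, b1, b2] using (b.sum_repr' v).symm

theorem norm_sq_frame (hy : ‖y‖ = 1) (hn : ‖n‖ = 1) (h : ⟪y, n⟫ = 0) (v : E3) :
    ‖v‖ ^ 2 = ⟪n, v⟫ ^ 2 + ⟪J y n, v⟫ ^ 2 + ⟪y, v⟫ ^ 2 := by
  rw [← real_inner_self_eq_norm_sq]
  conv_lhs => enter [2]; rw [decomp hy hn h v]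
  simp only [inner_add_left, real_inner_smul_left]
  ring

theorem tr_frame (hy : ‖y‖ = 1) (hn : ‖n‖ = 1) (h : ⟪y, n⟫ = 0) (A : E3 →L[ℝ] E3) :
    tr A = ⟪n, A n⟫ + ⟪J y n, A (J y n)⟫ + ⟪y, A y⟫ := by
  obtain ⟨b, b0, b1, b2⟩ := exists_frame hy hn h
  unfold tr
  rw [LinearMap.trace_eq_sum_inner _ b, Fin.sum_univ_three, b0, b1, b2]
  rfl

/-! ### the shrinker -/

variable {w : E3 → ℝ}

theorem tang (H : Shr w) {c : ℝ → E3} {v : E3} {t : ℝ} (hc : HasDerivAt c v t)
    (h0 : ∀ s, w (c s) = 0) : ⟪nuW w (c t), v⟫ = 0 := by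
  have d := (H.smooth.differentiable (by simp) (c t)).hasFDerivAt.comp_hasDerivAt t hc
  rw [show w ∘ c = fun _ => 0 from funext h0] at d
  rw [nuW, real_inner_smul_left, inner_grad, d.unique (hasDerivAt_const t 0), mul_zero]

theorem hasDerivAt_line (x v : E3) (t : ℝ) : HasDerivAt (fun s : ℝ => x + s • v) v t := by
  simpa using ((hasDerivAt_id t).smul_const v).const_add x

theorem tang_line (H : Shr w) {x v : E3} (h0 : ∀ s : ℝ, w (x + s • v) = 0) :
    ⟪nuW w x, v⟫ = 0 := by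
  simpa using tang H (hasDerivAt_line x v 0) h0

theorem hasDerivAt_nu (H : Shr w) {c : ℝ → E3} {v : E3} {t : ℝ} (hc : HasDerivAt c v t)
    (h0 : ∀ s, w (c s) = 0) : HasDerivAt (fun s => nuW w (c s)) (AW w (c t) v) t := by
  have hn := H.ne _ (h0 t)
  refine (((contDiffAt_nuW H.smooth hn).differentiableAt
    (by simp)).hasFDerivAt.comp_hasDerivAt t hc).congr_deriv ?_
  rw [AW_eq H.smooth hn, ContinuousLinearMap.comp_apply, PW, perp_of_inner (tang H hc h0)]

/-- the hypotheses -/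
structure Hyp (w : E3 → ℝ) (y : E3) : Prop where
  shr : Shr w
  unit : ‖y‖ = 1
  inv : ∀ (x : E3) (t : ℝ), w x = 0 → w (x + t • y) = 0

namespace Hyp

theorem orth (H : Hyp w y) {x : E3} (hx : w x = 0) : ⟪y, nuW w x⟫ = 0 := by
  rw [real_inner_comm]; exact tang_line H.shr fun s => H.inv x s hx

theorem nu1 (H : Hyp w y) {x : E3} (hx : w x = 0) : ‖nuW w x‖ = 1 := norm_nuW (H.shr.ne x hx)

theorem inner_AW (H : Hyp w y) {c : ℝ → E3} {v : E3} {t : ℝ} (hc : HasDerivAt c v t)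
    (h0 : ∀ s, w (c s) = 0) : ⟪y, AW w (c t) v⟫ = 0 := by
  have d := (innerSL ℝ y).hasFDerivAt.comp_hasDerivAt t (hasDerivAt_nu H.shr hc h0)
  rw [show (innerSL ℝ y) ∘ (fun s => nuW w (c s)) = fun _ => 0 from
    funext fun s => H.orth (h0 s)] at d
  exact d.unique (hasDerivAt_const t 0)

/-- the cross section through a point -/
theorem exists_curve (H : Hyp w y) {x : E3} (hx : w x = 0) (hy : ⟪y, x⟫ = 0) :
    ∃ γ : ℝ → E3, γ 0 = x ∧ (∀ s, w (γ s) = 0) ∧ (∀ s, ⟪y, γ s⟫ = 0) ∧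
      Curve.Shr γ fun s => J y (nuW w (γ s)) := by
  have sm := H.shr.smooth
  have pos : ∀ z, 0 < ‖grad w z‖ ^ 2 + w z ^ 2 := fun z => by
    by_cases h : w z = 0
    · have := norm_pos_iff.2 (H.shr.ne z h)
      positivity
    · positivity
  have cg := contDiff_one' (contDiff_grad_top sm)
  obtain ⟨γ, γ0, dγ⟩ := exists_flow
    (Y := fun z => (√(‖grad w z‖ ^ 2 + w z ^ 2))⁻¹ • J y (grad w z))
    (((((cg.norm_sq ℝ).add ((contDiff_one' sm).pow 2)).sqrt fun z => (pos z).ne').inv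
      fun z => (sqrt_pos.2 (pos z)).ne').smul ((J y).contDiff.comp cg))
    (fun z => by
      rw [norm_smul, norm_inv, Real.norm_of_nonneg (sqrt_nonneg _),
        inv_mul_le_iff₀ (sqrt_pos.2 (pos z)), mul_one]
      exact (norm_J_le H.unit _).trans (le_sqrt_of_sq_le (by linarith [sq_nonneg (w z)]))) x
  have cons : ∀ g : E3 → ℝ, Differentiable ℝ g → (∀ z, fderiv ℝ g z (J y (grad w z)) = 0) →
      ∀ t, g (γ t) = g x := fun g hg h t => by
    have d : ∀ t, HasDerivAt (fun t => g (γ t)) 0 t := fun t =>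
      ((hg _).hasFDerivAt.comp_hasDerivAt t (dγ t)).congr_deriv (by rw [map_smul, h, smul_zero])
    rw [is_const_of_deriv_eq_zero (fun t => (d t).differentiableAt) (fun t => (d t).deriv) t 0, γ0]
  have w0 : ∀ s, w (γ s) = 0 := fun s =>
    (cons w (sm.differentiable (by simp)) (fun z => by rw [← inner_grad, inner_self_J]) s).trans hx
  have y0 : ∀ s, ⟪y, γ s⟫ = 0 := fun s =>
    (cons (innerSL ℝ y) (innerSL ℝ y).differentiable
      (fun z => by rw [ContinuousLinearMap.fderiv]; exact inner_y_J _ _) s).trans hy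
  have d1 : ∀ s, HasDerivAt γ (J y (nuW w (γ s))) s := fun s => (dγ s).congr_deriv (by
    rw [w0, nuW, map_smul, zero_pow two_ne_zero, add_zero, sqrt_sq (norm_nonneg _)])
  refine ⟨γ, γ0, w0, y0, d1, fun s => norm_J H.unit (H.nu1 (w0 s)) (H.orth (w0 s)), fun s => ?_⟩
  refine ((J y).hasFDerivAt.comp_hasDerivAt s (hasDerivAt_nu H.shr (d1 s) w0)).congr_deriv ?_
  have n1 := H.nu1 (w0 s)
  have n2 := H.orth (w0 s)
  have ne := H.shr.ne _ (w0 s)
  have a0 : ∀ v, ⟪nuW w (γ s), AW w (γ s) v⟫ = 0 := fun v => by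
    rw [← PW_AW ne]; exact inner_perp n1 _
  have a1 := H.inner_AW (d1 s) w0
  have a2 : ⟪y, AW w (γ s) y⟫ = 0 := by
    simpa using H.inner_AW (hasDerivAt_line (γ s) y 0) fun t => H.inv _ t (w0 s)
  have a3 := (tr_frame H.unit n1 n2 (AW w (γ s))).symm.trans (H.shr.eq _ (w0 s))
  rw [a0, a2, zero_add, add_zero] at a3
  have a4 := decomp H.unit n1 n2 (γ s)
  rw [y0, zero_smul, add_zero, ← sub_eq_iff_eq_add, real_inner_comm (γ s) (J y _)] at a4
  rw [decomp H.unit n1 n2 (AW w (γ s) _), a0, a1, a3, zero_smul, zero_smul, zero_add, add_zero,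
    map_smul, J_J, n2, H.unit, a4, real_inner_comm (γ s), smul_smul]
  simp only [zero_smul, one_pow, one_smul, zero_sub, smul_neg, ← neg_smul]
  congr 1
  ring

theorem perp_mem (H : Hyp w y) {x : E3} (hx : w x = 0) : w (perp y x) = 0 := by
  rw [perp_apply, sub_eq_add_neg, ← neg_smul]; exact H.inv x _ hx

theorem of_perp (H : Hyp w y) {x : E3} (hx : w (perp y x) = 0) : w x = 0 := by
  have := H.inv _ ⟪y, x⟫ hx
  rwa [perp_apply, sub_add_cancel] at this

/-- every point lies on a plane or on the cylinder contained in the surface -/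
theorem dicho (H : Hyp w y) {x : E3} (hx : w x = 0) :
    (∃ e : E3, ‖e‖ = 1 ∧ ⟪y, e⟫ = 0 ∧ x ∈ plane e ∧ plane e ⊆ zs w) ∨
      (x ∈ cylS y ∧ cylS y ⊆ zs w) := by
  obtain ⟨γ, γ0, w0, y0, S⟩ := H.exists_curve (H.perp_mem hx) (inner_perp H.unit x)
  have mem : ∀ v : E3, ⟪y, v⟫ = 0 → v ∈ (ℝ ∙ y)ᗮ := fun v hv =>
    Submodule.mem_orthogonal_singleton_iff_inner_right.2 hv
  have yT := fun s => inner_y_J y (nuW w (γ s))
  have lift : ∀ {f : ℝ → E3} (hf : ∀ s, ⟪y, f s⟫ = 0) {v : (ℝ ∙ y)ᗮ} {s : ℝ},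
      HasDerivAt f (v : E3) s →
      HasDerivAt (fun s => (⟨f s, mem _ (hf s)⟩ : (ℝ ∙ y)ᗮ)) v s := fun {f} hf {v s} d => by
    have := (ℝ ∙ y)ᗮ.orthogonalProjectionOnto.hasFDerivAt.comp_hasDerivAt s d
    rw [Submodule.orthogonalProjectionOnto_mem_subspace_eq_self] at this
    refine this.congr_of_eventuallyEq (Eventually.of_forall fun t => ?_)
    exact (Submodule.orthogonalProjectionOnto_mem_subspace_eq_self ⟨f t, mem _ (hf t)⟩).symm
  have hV : Module.finrank ℝ (ℝ ∙ y)ᗮ = 2 := by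
    have : Fact (Module.finrank ℝ E3 = 2 + 1) := ⟨B.finrank_E3⟩
    exact Submodule.finrank_orthogonal_span_singleton (norm_pos_iff.1 (by rw [H.unit]; norm_num))
  have C := Curve.classify hV (γ := fun s => ⟨γ s, mem _ (y0 s)⟩)
    (T := fun s => ⟨J y (nuW w (γ s)), mem _ (yT s)⟩)
    ⟨fun s => lift y0 (S.dγ s), S.unit, fun s => lift yT (S.dT s)⟩
    fun s t h => .inl (Subtype.ext (by
      have h' : γ s = γ t := congrArg Subtype.val h
      simp only [h']))
  have n1 := H.nu1 (w0 0)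
  have n2 := H.orth (w0 0)
  have nT := inner_self_J y (nuW w (γ 0))
  generalize hn : nuW w (γ 0) = n at n1 n2 nT
  have ny : ⟪n, y⟫ = 0 := by rwa [real_inner_comm]
  rcases C with C | C
  · have e : ∀ s, γ s = (⟪γ 0, J y n⟫ + s) • J y n := fun s => by
      have := congrArg Subtype.val (C s).2
      simpa [hn] using this
    refine .inl ⟨n, n1, n2, ?_, fun z hz => H.of_perp ?_⟩
    · have := congrArg (fun v => ⟪n, v⟫) (e 0)
      simp only [real_inner_smul_right, nT, mul_zero] at this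
      rwa [γ0, perp_apply, inner_sub_right, real_inner_smul_right, ny, mul_zero, sub_zero] at this
    · have h1 : perp y z = γ (⟪J y n, z⟫ - ⟪γ 0, J y n⟫) := by
        rw [e, add_sub_cancel, perp_apply, sub_eq_iff_eq_add]
        have := decomp H.unit n1 n2 z
        rwa [show ⟪n, z⟫ = 0 from hz, zero_smul, zero_add] at this
      rw [h1, w0]
  · have c1 : ∀ s, ‖γ s‖ ^ 2 = 2 := fun s => (C s).1
    have c2 : ∀ s, ⟪γ s, J y (nuW w (γ s))⟫ = 0 := fun s => (C s).2
    refine .inr ⟨show ‖perp y x‖ ^ 2 = 2 from γ0 ▸ c1 0, fun z hz => H.of_perp ?_⟩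
    have r2 : √2 * √2 = 2 := mul_self_sqrt (by norm_num)
    have r0 : √2 ≠ 0 := by positivity
    have dT : ∀ s, HasDerivAt (fun s => J y (nuW w (γ s))) (-(1 / 2 : ℝ) • γ s) s := fun s => by
      simpa [c2] using S.dT s
    have sc : ∀ s : ℝ, HasDerivAt (fun s : ℝ => √2 * s) √2 s := fun s => by
      simpa using (hasDerivAt_id s).const_mul √2
    have d1 := fun s => (S.dγ (√2 * s)).scomp s (sc s)
    have d2 := fun s => (dT (√2 * s)).scomp s (sc s)
    have cst : ∀ {f : ℝ → E3}, (∀ s, HasDerivAt f 0 s) → ∀ s, f s = f 0 := fun d s =>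
      is_const_of_deriv_eq_zero (fun t => (d t).differentiableAt) (fun t => (d t).deriv) s 0
    have f1 := cst fun s => (((hasDerivAt_cos s).smul (d1 s)).sub
      (((hasDerivAt_sin s).const_mul √2).smul (d2 s))).congr_deriv (by
        simp only [Function.comp_apply]
        match_scalars
        · ring
        · linear_combination (sin s / 2) * r2)
    have f2 := cst fun s => (((hasDerivAt_sin s).smul (d1 s)).add
      (((hasDerivAt_cos s).const_mul √2).smul (d2 s))).congr_deriv (by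
        simp only [Function.comp_apply]
        match_scalars
        · ring
        · linear_combination (-cos s / 2) * r2)
    have f3 : ∀ θ, γ (√2 * θ) = cos θ • γ 0 + (sin θ * √2) • J y n := fun θ => by
      have g1 := f1 θ
      have g2 := f2 θ
      simp only [Pi.sub_apply, Pi.add_apply, Pi.smul_apply', Function.comp_apply, mul_zero,
        cos_zero, sin_zero, zero_smul, one_smul, sub_zero, mul_one, zero_add, hn] at g1 g2
      rw [mul_smul, ← g1, ← g2]
      match_scalars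
      · linear_combination -cos_sq_add_sin_sq θ
      · ring
    have k1 := decomp H.unit n1 n2 (γ 0)
    have k2 := norm_sq_frame H.unit n1 n2 (γ 0)
    have k0 : ⟪J y n, γ 0⟫ = 0 := by rw [real_inner_comm, ← hn]; exact c2 0
    rw [k0, y0, zero_smul, zero_smul, add_zero, add_zero] at k1
    rw [k0, y0, c1] at k2
    have k3 := decomp H.unit n1 n2 (perp y z)
    have k4 := norm_sq_frame H.unit n1 n2 (perp y z)
    rw [inner_perp H.unit, zero_smul, add_zero] at k3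
    rw [inner_perp H.unit, show ‖perp y z‖ ^ 2 = 2 from hz] at k4
    generalize ⟪n, γ 0⟫ = c at k1 k2
    generalize ⟪n, perp y z⟫ = a at k3 k4
    generalize ⟪J y n, perp y z⟫ = b at k3 k4
    obtain ⟨u, hu⟩ : ∃ u : ℂ, u = ⟨a * c / 2, b * √2 / 2⟩ := ⟨_, rfl⟩
    have u1 : ‖u‖ = 1 := by
      refine (pow_eq_one_iff_of_nonneg (norm_nonneg _) two_ne_zero).1 ?_
      rw [Complex.sq_norm, Complex.normSq_apply, hu]
      linear_combination (-a ^ 2 / 4) * k2 + (b ^ 2 / 4) * r2 - (1 / 2) * k4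
    have u2 := Complex.cos_arg (norm_pos_iff.1 (by rw [u1]; norm_num) : u ≠ 0)
    have u3 := Complex.sin_arg u
    rw [u1, div_one] at u2 u3
    have h1 : perp y z = γ (√2 * u.arg) := by
      rw [f3, u2, u3, k1, k3, hu]
      match_scalars
      · linear_combination (a / 2) * k2
      · linear_combination (-b / 2) * r2
    rw [h1, w0]

/-- the normal at a point of a plane contained in the surface -/
theorem nu_plane (H : Hyp w y) {e p v : E3} (hS : plane e ⊆ zs w) (hp : ⟪e, p⟫ = 0)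
    (hv : ⟪e, v⟫ = 0) : ⟪nuW w p, v⟫ = 0 :=
  tang_line H.shr fun s => hS (show ⟪e, p + s • v⟫ = 0 by
    rw [inner_add_right, real_inner_smul_right, hp, hv, mul_zero, add_zero])

theorem not_both (H : Hyp w y) {e : E3} (e1 : ‖e‖ = 1) (e2 : ⟪y, e⟫ = 0) (hS : plane e ⊆ zs w)
    (hC : cylS y ⊆ zs w) : False := by
  have r2 : √2 * √2 = 2 := mul_self_sqrt (by norm_num)
  have r0 : √2 ≠ 0 := by positivity
  have eT := inner_self_J y e
  have hp : ⟪e, √2 • J y e⟫ = 0 := by rw [real_inner_smul_right, eT, mul_zero]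
  have a1 := H.nu_plane hS hp eT
  have a2 := H.orth (hS hp)
  have a3 := tang H.shr (t := 0) ((((hasDerivAt_cos 0).const_mul √2).smul_const (J y e)).add
    (((hasDerivAt_sin 0).const_mul √2).smul_const e)) fun s => hC (by
      have h1 : ⟪y, (√2 * cos s) • J y e + (√2 * sin s) • e⟫ = 0 := by
        simp only [inner_add_right, real_inner_smul_right, inner_y_J, e2, mul_zero, add_zero]
      show ‖perp y ((√2 * cos s) • J y e + (√2 * sin s) • e)‖ ^ 2 = 2
      rw [perp_of_inner h1, norm_add_sq_real, real_inner_smul_left, real_inner_smul_right,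
        real_inner_comm, eT, norm_smul, norm_smul, norm_J H.unit e1 e2, e1, mul_one, mul_one,
        Real.norm_eq_abs, Real.norm_eq_abs, sq_abs, sq_abs]
      linear_combination (cos s ^ 2 + sin s ^ 2) * r2 + 2 * cos_sq_add_sin_sq s)
  simp only [Pi.add_apply, cos_zero, sin_zero, mul_one, mul_zero, zero_smul, add_zero, neg_zero,
    zero_add, real_inner_smul_right, mul_eq_zero, r0, false_or] at a3
  have a4 := norm_sq_frame H.unit e1 e2 (nuW w (√2 • J y e))
  rw [H.nu1 (hS hp), a2, real_inner_comm, a3, real_inner_comm, a1] at a4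
  norm_num at a4

theorem plane_eq (H : Hyp w y) {e e' : E3} (e1 : ‖e‖ = 1) (e2 : ⟪y, e⟫ = 0)
    (hS : plane e ⊆ zs w) (hS' : plane e' ⊆ zs w) : plane e' ⊆ plane e := by
  intro z hz
  have w0 : w 0 = 0 := hS (inner_zero_right e)
  have a1 := H.nu_plane hS (inner_zero_right e) (inner_self_J y e)
  have a2 := H.nu_plane hS' (inner_zero_right e') hz
  have a3 := decomp H.unit e1 e2 (nuW w 0)
  have a4 := norm_sq_frame H.unit e1 e2 (nuW w 0)
  rw [real_inner_comm] at a1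
  rw [a1, H.orth w0, zero_smul, zero_smul, add_zero, add_zero] at a3
  rw [a1, H.orth w0, H.nu1 w0] at a4
  rw [a3, real_inner_smul_left] at a2
  refine (mul_eq_zero.1 a2).resolve_left fun h => ?_
  rw [h] at a4
  norm_num at a4

end Hyp

end Inv

/-- translation invariant shrinkers -/
theorem inv' : InvStmt := by
  intro w y hw hy hi
  have H : Inv.Hyp w y := ⟨hw, hy, hi⟩
  by_cases h : ∃ e : E3, ‖e‖ = 1 ∧ ⟪y, e⟫ = 0 ∧ plane e ⊆ zs w
  · obtain ⟨e, e1, e2, e3⟩ := h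
    refine .inr (.inl ⟨e, e1, by rwa [real_inner_comm], Subset.antisymm (fun x hx => ?_) e3⟩)
    rcases H.dicho hx with ⟨e', -, -, f3, f4⟩ | ⟨-, f⟩
    · exact H.plane_eq e1 e2 e3 f4 f3
    · exact (H.not_both e1 e2 e3 f).elim
  · have k : ∀ x ∈ zs w, x ∈ cylS y ∧ cylS y ⊆ zs w := fun x hx =>
      (H.dicho hx).resolve_left fun ⟨e, f1, f2, _, f4⟩ => h ⟨e, f1, f2, f4⟩
    rcases (zs w).eq_empty_or_nonempty with h0 | ⟨x, hx⟩
    · exact .inl h0
    · exact .inr (.inr (Subset.antisymm (fun z hz => (k z hz).1) (k x hx).2))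

theorem inv (_ : FrankelStmt) : InvStmt := inv'

end Vale.Agent.P218N.C
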