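import Vale.Agent.P218N.C.Stmt

/-! A two-point maximum principle for shrinkers, without curvature bounds. Closed shrinkers are
connected. -/

open MeasureTheory Set Filter Topology Metric Real
open scoped ENNReal NNReal RealInnerProductSpace ContDiff

namespace Vale.Agent.P218N.C

open Vale.Agent.P218.H313 Vale.Agent.P218N.H Vale.Agent.P218N.B

variable {w : E3 → ℝ}

lemma Shr.locDef' (hw : Shr w) : LocDef (zs w) {x | grad w x ≠ 0} w :=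
  ⟨isOpen_ne_fun (contDiff_grad_top hw.smooth).continuous continuous_const, hw.smooth,
    fun _ h => h, fun _ _ => Iff.rfl⟩

/-- the second order condition at a local minimum -/
lemma sec_nonneg {φ φ' : ℝ → ℝ} {c : ℝ} (h1 : ∀ᶠ t in 𝓝 (0 : ℝ), HasDerivAt φ (φ' t) t)
    (h2 : HasDerivAt φ' c 0) (hm : IsLocalMin φ 0) : φ' 0 = 0 ∧ 0 ≤ c := by
  have e : deriv φ =ᶠ[𝓝 0] φ' := h1.mono fun t h => h.deriv
  have h0 : φ' 0 = 0 := hm.hasDerivAt_eq_zero h1.self_of_nhds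
  refine ⟨h0, not_lt.1 fun hc => ?_⟩
  have h3 : deriv (deriv φ) 0 = c := by rw [e.deriv_eq, h2.deriv]
  have h4 := isLocalMax_of_deriv_deriv_neg (h3 ▸ hc) (e.self_of_nhds.trans h0)
    h1.self_of_nhds.continuousAt
  have h5 : φ =ᶠ[𝓝 0] fun _ => φ 0 := by
    filter_upwards [hm, h4] with t a b using le_antisymm b a
  have h6 : deriv φ =ᶠ[𝓝 0] fun _ => 0 := h5.deriv.trans (by simp)
  rw [h6.deriv_eq] at h3
  simp at h3
  linarith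

/-- curves in the surface with their acceleration -/
lemma exists_curve2 (hw : Shr w) {x a : E3} (hx : w x = 0) (ha : ⟪nuW w x, a⟫ = 0) :
    ∃ (γ γ' : ℝ → E3) (c : E3), γ 0 = x ∧ γ' 0 = a ∧
      (∀ᶠ t in 𝓝 (0 : ℝ), HasDerivAt γ (γ' t) t ∧ w (γ t) = 0) ∧ HasDerivAt γ' c 0 ∧
      ⟪nuW w x, c⟫ = -⟪AW w x a, a⟫ := by
  have hg := hw.ne x hx
  have ha' : ⟪grad w x, a⟫ = 0 := by rw [grad_eq_smul_nuW, real_inner_smul_left, ha, mul_zero]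
  obtain ⟨γ, h0, h1, h2, h3⟩ := (Shr.locDef' hw).exists_curve hg hx ha'
  have h4 : ∀ᶠ t in 𝓝 (0 : ℝ), HasDerivAt γ (deriv γ t) t :=
    ((h2.of_le (m := 1) (by exact_mod_cast le_top)).eventually
      (by simp)).mono fun t h => (h.differentiableAt (by simp)).hasDerivAt
  have h5 : HasDerivAt (deriv γ) (deriv (deriv γ) 0) 0 :=
    ((h2.derivWithin (m := ((1 : ℕ∞) : WithTop ℕ∞)) (by exact_mod_cast le_top)).differentiableAt
      (by simp) |>.congr_of_eventuallyEq (by simp)).hasDerivAt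
  refine ⟨γ, deriv γ, deriv (deriv γ) 0, h0, h1.deriv, h4.and h3, h5, ?_⟩
  have h6 : (fun t => ⟪grad w (γ t), deriv γ t⟫) =ᶠ[𝓝 0] fun _ => 0 := by
    filter_upwards [h4, h3.eventually_nhds] with t a1 a2
    have a3 := (hw.smooth.differentiable (by simp) (γ t)).hasFDerivAt.comp_hasDerivAt t a1
    have a4 : (w ∘ γ) =ᶠ[𝓝 t] fun _ => 0 := a2
    rw [inner_grad]
    exact (a3.congr_of_eventuallyEq a4.symm).unique (hasDerivAt_const t (0 : ℝ))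
  have h7 := (((contDiff_grad_top hw.smooth).differentiable (by simp) (γ 0)).hasFDerivAt.comp_hasDerivAt
    0 h1).inner ℝ h5
  have h8 := (h7.congr_of_eventuallyEq h6.symm).unique (hasDerivAt_const (0 : ℝ) (0 : ℝ))
  simp only [Function.comp_apply, h0, h1.deriv] at h8
  rw [AW, smul_apply, ContinuousLinearMap.comp_apply,
    ContinuousLinearMap.comp_apply, real_inner_smul_left, PW, inner_perp_left, perp_of_inner ha,
    nuW, real_inner_smul_left, ← mul_neg]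
  congr 1
  linarith

/-- trace and norm in an orthonormal triple -/
lemma on3 {a b n : E3} (ha : ⟪a, a⟫ = 1) (hb : ⟪b, b⟫ = 1) (hn : ⟪n, n⟫ = 1) (hab : ⟪a, b⟫ = 0)
    (han : ⟪a, n⟫ = 0) (hbn : ⟪b, n⟫ = 0) :
    (∀ A : E3 →L[ℝ] E3, tr A = ⟪A a, a⟫ + ⟪A b, b⟫ + ⟪A n, n⟫) ∧
      ∀ u : E3, ‖u‖ ^ 2 = ⟪u, a⟫ ^ 2 + ⟪u, b⟫ ^ 2 + ⟪u, n⟫ ^ 2 := by
  have ho : Orthonormal ℝ ![a, b, n] := by
    rw [orthonormal_iff_ite]
    intro i j
    fin_cases i <;> fin_cases j <;>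
      simp only [Fin.zero_eta, Fin.mk_one, Fin.reduceFinMk, Matrix.cons_val, Fin.isValue,
        Fin.reduceEq, ↓reduceIte] <;> first | assumption | (rw [real_inner_comm]; assumption)
  let B : OrthonormalBasis (Fin 3) ℝ E3 := OrthonormalBasis.mk ho
    (ho.linearIndependent.span_eq_top_of_card_eq_finrank (by simp)).ge
  have hB : ∀ i, B i = ![a, b, n] i := fun i => by simp [B]
  refine ⟨fun A => ?_, fun u => ?_⟩
  · unfold tr
    rw [LinearMap.trace_eq_sum_inner _ B, Fin.sum_univ_three, hB, hB, hB]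
    simp [real_inner_comm]
  · rw [← B.sum_sq_norm_inner_right u, Fin.sum_univ_three, hB, hB, hB]
    simp [real_inner_comm]

/-- the first and second variation of the two-point function -/
lemma two_var (hw : Shr w) {x p c₀ a b : E3} {μ L : ℝ} (hx : w x = 0) (hp : w p = 0)
    (hm : IsLocalMinOn (fun q : E3 × E3 => ‖q.1 - q.2‖ ^ 2 - μ * (1 - ‖q.1 - c₀‖ ^ 2 / L ^ 2) ^ 4)
      (zs w ×ˢ zs w) (x, p)) (ha : ⟪nuW w x, a⟫ = 0) (hb : ⟪nuW w p, b⟫ = 0) :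
    ∃ c₁ c₂ : E3, ⟪nuW w x, c₁⟫ = -⟪AW w x a, a⟫ ∧ ⟪nuW w p, c₂⟫ = -⟪AW w p b, b⟫ ∧
      ⟪x - p, a - b⟫ + 4 * μ * (1 - ‖x - c₀‖ ^ 2 / L ^ 2) ^ 3 / L ^ 2 * ⟪x - c₀, a⟫ = 0 ∧
      0 ≤ ‖a - b‖ ^ 2 + ⟪x - p, c₁ - c₂⟫
        + 4 * μ * (1 - ‖x - c₀‖ ^ 2 / L ^ 2) ^ 3 / L ^ 2 * (‖a‖ ^ 2 + ⟪x - c₀, c₁⟫)
        - 24 * μ * (1 - ‖x - c₀‖ ^ 2 / L ^ 2) ^ 2 / L ^ 4 * ⟪x - c₀, a⟫ ^ 2 := by
  obtain ⟨γ, γ', c₁, a0, a1, a2, a3, a4⟩ := exists_curve2 hw hx ha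
  obtain ⟨η, η', c₂, b0, b1, b2, b3, b4⟩ := exists_curve2 hw hp hb
  have cγ : ContinuousAt (fun t => (γ t, η t)) 0 :=
    a2.self_of_nhds.1.continuousAt.prodMk b2.self_of_nhds.1.continuousAt
  have tn : Tendsto (fun t => (γ t, η t)) (𝓝 0) (𝓝[zs w ×ˢ zs w] (x, p)) :=
    tendsto_nhdsWithin_iff.2 ⟨by simpa [a0, b0] using cγ.tendsto,
      (a2.and b2).mono fun t h => ⟨h.1.2, h.2.2⟩⟩
  have hmin : IsLocalMin (fun t => ‖γ t - η t‖ ^ 2 - μ * (1 - ‖γ t - c₀‖ ^ 2 / L ^ 2) ^ 4) 0 := by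
    have := tn.eventually hm
    simpa only [IsLocalMin, IsMinFilter, a0, b0] using this
  have d1 : ∀ᶠ t in 𝓝 (0 : ℝ), HasDerivAt
      (fun t => ‖γ t - η t‖ ^ 2 - μ * (1 - ‖γ t - c₀‖ ^ 2 / L ^ 2) ^ 4)
      (2 * (⟪γ t - η t, γ' t - η' t⟫
        + 4 * μ * (1 - ‖γ t - c₀‖ ^ 2 / L ^ 2) ^ 3 / L ^ 2 * ⟪γ t - c₀, γ' t⟫)) t := by
    filter_upwards [a2, b2] with t h1 h2
    refine ((h1.1.sub h2.1).norm_sq.fun_sub ((((h1.1.sub_const c₀).norm_sq.div_const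
      (L ^ 2)).const_sub 1).fun_pow 4 |>.const_mul μ)).congr_deriv ?_
    simp only [Pi.sub_apply]
    push_cast
    ring
  have g0 := a2.self_of_nhds.1
  have e0 := b2.self_of_nhds.1
  have d2 := (((g0.sub e0).inner ℝ (a3.sub b3)).fun_add
    ((((((g0.sub_const c₀).norm_sq.div_const (L ^ 2)).const_sub 1).fun_pow 3 |>.const_mul
      (4 * μ)).div_const (L ^ 2)).fun_mul ((g0.sub_const c₀).inner ℝ a3))).const_mul 2
  obtain ⟨k1, k2⟩ := sec_nonneg d1 d2 hmin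
  simp only [Pi.sub_apply, a0, a1, b0, b1, real_inner_self_eq_norm_sq] at k1 k2
  refine ⟨c₁, c₂, a4, b4, by linarith, ?_⟩
  refine le_of_mul_le_mul_left (a := 2) ?_ two_pos
  rw [mul_zero]
  refine k2.trans_eq ?_
  push_cast
  ring

lemma two_alg {μ g L c X t₀ t₁ s : ℝ} (hμ : 0 < μ) (hL : 0 < L) (g0 : 0 < g) (g1 : g ≤ 1)
    (hμL : 18 * μ ≤ L ^ 2) (c0 : 0 ≤ c) (X1 : X ≤ L ^ 2) (nb : 1 = t₀ ^ 2 + t₁ ^ 2 + c ^ 2)
    (a2 : μ * g ^ 4 * (1 - c ^ 2) = (4 * μ * g ^ 3 / L ^ 2) ^ 2 * X)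
    (h : 0 ≤ 2 * t₀ ^ 2 / (1 + c) + 2 * t₁ ^ 2 / (1 + c)
      - (μ * g ^ 4 + 4 * μ * g ^ 3 / L ^ 2 * (L ^ 2 * (1 - g) + s)) / 2
      + 2 * (4 * μ * g ^ 3 / L ^ 2) - 24 * μ * g ^ 2 / L ^ 4 * X) : L ^ 2 - 16 + 4 * s ≤ 0 := by
  have L2 : 0 < L ^ 2 := by positivity
  have ti : 1 - c ^ 2 = 16 * μ * g ^ 2 / L ^ 4 * X := by
    have a4 : 0 < μ * g ^ 4 := by positivity
    refine mul_left_cancel₀ a4.ne' (a2.trans ?_)
    field_simp
    ring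
  have c3 : 1 / 3 ≤ c := by
    have a1 : 16 * μ * g ^ 2 / L ^ 4 * X ≤ 8 / 9 := by
      have a2 : g ^ 2 ≤ 1 := by nlinarith
      calc 16 * μ * g ^ 2 / L ^ 4 * X ≤ 16 * μ * g ^ 2 / L ^ 4 * L ^ 2 := by gcongr
        _ ≤ 16 * μ * 1 / L ^ 4 * L ^ 2 := by gcongr
        _ = 16 * μ / L ^ 2 := by field_simp
        _ ≤ 8 / 9 := by rw [div_le_iff₀ L2]; linarith
    by_contra! a3
    nlinarith
  have cl : c ≤ 1 := by nlinarith [sq_nonneg t₀, sq_nonneg t₁]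
  have a5 : 2 * t₀ ^ 2 / (1 + c) + 2 * t₁ ^ 2 / (1 + c) = 2 * (1 - c) := by
    have : 0 < 1 + c := by linarith
    field_simp
    linarith
  have a6 : 2 * (1 - c) ≤ 24 * μ * g ^ 2 / L ^ 4 * X := by
    have : 24 * μ * g ^ 2 / L ^ 4 * X = 3 / 2 * (1 - c ^ 2) := by rw [ti]; ring
    rw [this]
    nlinarith
  have a10 : μ * g ^ 4 + 4 * μ * g ^ 3 / L ^ 2 * (L ^ 2 * (1 - g) + s) - 4 * (4 * μ * g ^ 3 / L ^ 2)
      = μ * g ^ 3 / L ^ 2 * (L ^ 2 * (4 - 3 * g) - 16 + 4 * s) := by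
    field_simp; ring
  have a11 : L ^ 2 * (4 - 3 * g) - 16 + 4 * s ≤ 0 := by
    by_contra! hcon
    have := mul_pos (show 0 < μ * g ^ 3 / L ^ 2 by positivity) hcon
    linarith
  nlinarith

/-- **the two-point maximum principle** -/
theorem two_point (hw : Shr w) {x p c₀ : E3} {μ L : ℝ} (hx : w x = 0) (hp : w p = 0) (hL : 0 < L)
    (hμ : 0 < μ) (hμL : 18 * μ ≤ L ^ 2) (hq : ‖x - c₀‖ < L)
    (hm : IsLocalMinOn (fun q : E3 × E3 => ‖q.1 - q.2‖ ^ 2 - μ * (1 - ‖q.1 - c₀‖ ^ 2 / L ^ 2) ^ 4)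
      (zs w ×ˢ zs w) (x, p))
    (h0 : ‖x - p‖ ^ 2 = μ * (1 - ‖x - c₀‖ ^ 2 / L ^ 2) ^ 4) :
    L ^ 2 - 16 + 4 * ⟪c₀, x - c₀⟫ ≤ 0 := by
  have L2 : 0 < L ^ 2 := by positivity
  have q2 : ‖x - c₀‖ ^ 2 < L ^ 2 := by gcongr
  have key := fun a b => two_var hw hx hp (a := a) (b := b) hm
  set g := 1 - ‖x - c₀‖ ^ 2 / L ^ 2 with hg
  have g0 : 0 < g := by rw [hg, sub_pos, div_lt_one L2]; exact q2
  have g1 : g ≤ 1 := by rw [hg]; exact sub_le_self _ (by positivity)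
  set κ := 4 * μ * g ^ 3 / L ^ 2 with hκ
  set v := x - p with hv
  set q := x - c₀ with hqq
  have n1 := norm_nuW (hw.ne x hx)
  have n2 := norm_nuW (hw.ne p hp)
  set e := nuW w p with he
  -- the normal at `x` with the right sign
  obtain ⟨σ, hσ, hc0⟩ : ∃ σ : ℝ, σ * σ = 1 ∧ 0 ≤ ⟪e, σ • nuW w x⟫ := by
    rcases le_total 0 ⟪e, nuW w x⟫ with h | h
    · exact ⟨1, by norm_num, by simpa using h⟩
    · exact ⟨-1, by norm_num, by simpa using h⟩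
  set n := σ • nuW w x with hn
  have nn : ⟪n, n⟫ = 1 := by
    rw [hn, real_inner_smul_left, real_inner_smul_right, real_inner_self_eq_norm_sq, n1]
    linarith
  have ee : ⟪e, e⟫ = 1 := by rw [real_inner_self_eq_norm_sq, n2]; norm_num
  have nν : ∀ u, ⟪nuW w x, u⟫ = σ * ⟪n, u⟫ := fun u => by
    rw [hn, real_inner_smul_left, ← mul_assoc, hσ, one_mul]
  set c := ⟪e, n⟫ with hc
  have c1 : 0 < 1 + c := by linarith
  obtain ⟨f, hf⟩ := exists_frame (m := 2) finrank_E3 n2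
  set b₀ := f.ι (EuclideanSpace.single 0 1) with hb₀
  set b₁ := f.ι (EuclideanSpace.single 1 1) with hb₁
  have b00 : ⟪b₀, b₀⟫ = 1 := by rw [hb₀, f.inner_ι]; simp
  have b11 : ⟪b₁, b₁⟫ = 1 := by rw [hb₁, f.inner_ι]; simp
  have b01 : ⟪b₀, b₁⟫ = 0 := by rw [hb₀, hb₁, f.inner_ι]; simp [EuclideanSpace.inner_single_left]
  have b0e : ⟪b₀, e⟫ = 0 := by rw [← hf]; exact f.inner_ι_n _
  have b1e : ⟪b₁, e⟫ = 0 := by rw [← hf]; exact f.inner_ι_n _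
  obtain ⟨trb, nb⟩ := on3 b00 b11 ee b01 b0e b1e
  let r : E3 → E3 := fun b => b - (⟪b, n⟫ / (1 + c)) • (e + n)
  have ne' : ⟪n, e⟫ = c := real_inner_comm _ _
  have rr : ∀ b b', ⟪b, e⟫ = 0 → ⟪b', e⟫ = 0 → ⟪r b, r b'⟫ = ⟪b, b'⟫ := fun b b' h h' => by
    simp only [r, inner_sub_left, inner_sub_right, real_inner_smul_left, real_inner_smul_right,
      inner_add_left, inner_add_right, h, ee, nn, ne', ← hc, real_inner_comm b' e,
      real_inner_comm b' n, h']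
    field_simp
    ring
  have rn : ∀ b, ⟪r b, n⟫ = 0 := fun b => by
    simp only [r, inner_sub_left, real_inner_smul_left, inner_add_left, nn, ← hc]
    field_simp
    ring
  have rb : ∀ b, ‖r b - b‖ ^ 2 = 2 * ⟪n, b⟫ ^ 2 / (1 + c) := fun b => by
    rw [← real_inner_self_eq_norm_sq]
    simp only [r, sub_sub_cancel_left, inner_neg_neg, real_inner_smul_left, real_inner_smul_right,
      inner_add_left, inner_add_right, ee, nn, ne', ← hc, real_inner_comm b n]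
    field_simp
    ring
  obtain ⟨tra, na⟩ := on3 ((rr _ _ b0e b0e).trans b00) ((rr _ _ b1e b1e).trans b11) nn
    ((rr _ _ b0e b1e).trans b01) (rn _) (rn _)
  have tan : ∀ b, ⟪nuW w x, r b⟫ = 0 := fun b => by rw [nν, real_inner_comm, rn, mul_zero]
  -- first order conditions
  have f1 : ∀ a, ⟪nuW w x, a⟫ = 0 → ⟪v + κ • q, a⟫ = 0 := fun a ha => by
    obtain ⟨-, -, -, -, h, -⟩ := key a 0 ha (inner_zero_right _)
    rw [inner_add_left, real_inner_smul_left]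
    simpa using h
  have f2 : ∀ b, ⟪e, b⟫ = 0 → ⟪v, b⟫ = 0 := fun b hb => by
    obtain ⟨-, -, -, -, h, -⟩ := key 0 b (inner_zero_right _) hb
    simpa using h
  have par : ∀ (m u : E3), ‖m‖ = 1 → (∀ a, ⟪m, a⟫ = 0 → ⟪u, a⟫ = 0) → u = ⟪m, u⟫ • m :=
    fun m u hm1 h => by
      have h1 := h (perp m u) (inner_perp hm1 u)
      have h2 : ‖perp m u‖ ^ 2 = 0 := by
        rw [← real_inner_self_eq_norm_sq, inner_perp_left, perp_perp hm1, h1]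
      rw [← sub_eq_zero, ← perp_apply]
      simpa using h2
  have p1 := par _ _ n1 f1
  have p2 := par _ _ n2 f2
  set α := ⟪nuW w x, v + κ • q⟫ with hα
  set β := ⟪e, v⟫ with hβ
  have s2 : ∀ b, ⟪b, e⟫ = 0 → ⟪b, b⟫ = 1 → 0 ≤ 2 * ⟪n, b⟫ ^ 2 / (1 + c)
      - α * ⟪AW w x (r b), r b⟫ + β * ⟪AW w p b, b⟫ + κ
      - 24 * μ * g ^ 2 / L ^ 4 * ⟪q, r b⟫ ^ 2 := fun b hb hb1 => by
    obtain ⟨c₁, c₂, h1, h2, -, h3⟩ := key (r b) b (tan b) (by rw [real_inner_comm]; exact hb)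
    have h4 : ⟪v + κ • q, c₁⟫ = -(α * ⟪AW w x (r b), r b⟫) := by
      rw [p1, real_inner_smul_left, h1]; simp
    have h5 : ⟪v, c₂⟫ = -(β * ⟪AW w p b, b⟫) := by rw [p2, real_inner_smul_left, h2]; simp
    rw [inner_add_left, real_inner_smul_left] at h4
    rw [rb, inner_sub_right, ← real_inner_self_eq_norm_sq (r b), rr b b hb hb, hb1] at h3
    linarith
  have u0 := s2 b₀ b0e b00
  have u1 := s2 b₁ b1e b11
  -- traces
  have t1 : ⟪AW w x (r b₀), r b₀⟫ + ⟪AW w x (r b₁), r b₁⟫ = ⟪x, nuW w x⟫ / 2 := by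
    have := tra (AW w x)
    rw [hw.eq x hx, ← AW_PW (hw.ne x hx) n, hn, map_smul, PW, perp_self n1] at this
    simp only [smul_zero, map_zero, inner_zero_left, add_zero] at this
    exact this.symm
  have t2 : ⟪AW w p b₀, b₀⟫ + ⟪AW w p b₁, b₁⟫ = ⟪p, e⟫ / 2 := by
    have := trb (AW w p)
    rw [hw.eq p hp, ← AW_PW (hw.ne p hp) e, PW, ← he, perp_self n2] at this
    simp only [map_zero, inner_zero_left, add_zero] at this
    exact this.symm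
  have t3 : α * ⟪x, nuW w x⟫ = ⟪x, v⟫ + κ * ⟪x, q⟫ := by
    rw [← real_inner_smul_right, ← p1, inner_add_right, real_inner_smul_right]
  have t4 : β * ⟪p, e⟫ = ⟪p, v⟫ := by rw [← real_inner_smul_right, ← p2]
  have t5 : ⟪x, v⟫ - ⟪p, v⟫ = μ * g ^ 4 := by
    rw [← inner_sub_left, ← hv, real_inner_self_eq_norm_sq, h0]
  have t6 : ⟪x, q⟫ = ‖q‖ ^ 2 + ⟪c₀, q⟫ := by
    rw [← real_inner_self_eq_norm_sq, ← inner_add_left, hqq, sub_add_cancel]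
  have t7 : ‖q‖ ^ 2 = L ^ 2 * (1 - g) := by rw [hg]; field_simp; ring
  -- the tilt
  have nb' := nb n
  rw [← real_inner_self_eq_norm_sq, nn, ne'] at nb'
  set X := ⟪q, r b₀⟫ ^ 2 + ⟪q, r b₁⟫ ^ 2 with hX
  have X1 : X ≤ L ^ 2 := by
    have a1 := na q
    have a2 := sq_nonneg ⟪q, n⟫
    rw [hX]
    linarith only [a1, a2, q2]
  have β2 : β ^ 2 = μ * g ^ 4 := by
    rw [← h0, p2, norm_smul, n2, mul_one, Real.norm_eq_abs, sq_abs]
  have ve : ∀ b, β * ⟪e, r b⟫ = -(κ * ⟪q, r b⟫) := fun b => by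
    have := f1 _ (tan b)
    rw [inner_add_left, real_inner_smul_left, p2, real_inner_smul_left] at this
    linarith only [this]
  have ti : μ * g ^ 4 * (1 - c ^ 2) = κ ^ 2 * X := by
    have a1 := na e
    rw [n2, ← hc] at a1
    have a3 : (β * ⟪e, r b₀⟫) ^ 2 + (β * ⟪e, r b₁⟫) ^ 2 = κ ^ 2 * X := by rw [ve, ve, hX]; ring
    rw [← a3, ← β2]; linear_combination β ^ 2 * a1
  have a8 : α * ⟪AW w x (r b₀), r b₀⟫ + α * ⟪AW w x (r b₁), r b₁⟫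
      = (⟪x, v⟫ + κ * ⟪x, q⟫) / 2 := by rw [← mul_add, t1, ← t3]; ring
  have a9 : β * ⟪AW w p b₀, b₀⟫ + β * ⟪AW w p b₁, b₁⟫ = ⟪p, v⟫ / 2 := by
    rw [← mul_add, t2, ← t4]; ring
  refine two_alg hμ hL g0 g1 hμL hc0 X1 nb' ti ?_
  rw [← hκ, ← t7, ← t6, ← t5, hX]
  linarith only [u0, u1, a8, a9]

lemma pos_of_mul_pos_of_nonneg {a b : ℝ} (h : 0 < a * b) (ha : 0 ≤ a) : 0 < b := by
  by_contra! hb
  nlinarith

/-- **closed shrinkers are connected** -/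
theorem frankel : FrankelStmt := fun w hw => by
  have hc : IsClosed (zs w) := isClosed_eq hw.smooth.continuous continuous_const
  rw [isPreconnected_iff_subset_of_fully_disjoint_closed hc]
  intro K₁ K₂ c1 c2 hcov hdis
  by_contra! hcon
  obtain ⟨p₀, hp₀, hp₀'⟩ := not_subset.1 hcon.1
  obtain ⟨x₀, hx₀, hx₀'⟩ := not_subset.1 hcon.2
  have m1 : x₀ ∈ K₁ := (hcov hx₀).resolve_right hx₀'
  have m2 : p₀ ∈ K₂ := (hcov hp₀).resolve_left hp₀'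
  set μ₀ := 16 * ‖x₀ - p₀‖ ^ 2 with hμ₀
  have μ0 : 0 ≤ μ₀ := by positivity
  set L := 5 + 2 * ‖x₀‖ + 18 * μ₀ with hL
  have L5 : 5 ≤ L := by rw [hL]; linarith [norm_nonneg x₀]
  have L0 : 0 < L := by linarith
  have L2 : 0 < L ^ 2 := by positivity
  let G : E3 → ℝ := fun x => (1 - ‖x - 0‖ ^ 2 / L ^ 2) ^ 4
  have cG : Continuous G := by fun_prop
  set C : Set (ℝ × E3 × E3) := (Icc 0 μ₀ ×ˢ (zs w ∩ K₁ ∩ closedBall 0 L) ×ˢ
    (zs w ∩ K₂ ∩ closedBall 0 (L + μ₀ + 2))) ∩ {z | ‖z.2.1 - z.2.2‖ ^ 2 ≤ z.1 * G z.2.1} with hC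
  have cC : IsCompact C := (isCompact_Icc.prod (((isCompact_closedBall _ _).inter_left
    (hc.inter c1)).prod ((isCompact_closedBall _ _).inter_left (hc.inter c2)))).inter_right
    (isClosed_le (by fun_prop) (by fun_prop))
  have bd : ∀ μ x p, μ ∈ Icc 0 μ₀ → ‖x‖ ≤ L → ‖x - p‖ ^ 2 ≤ μ * G x → ‖p‖ < L + μ₀ + 2 :=
    fun μ x p h1 h2 h3 => by
      have a1 : ‖x - 0‖ ^ 2 / L ^ 2 ≤ 1 := by rw [div_le_one L2, sub_zero]; gcongr
      have a2 : G x ≤ 1 := pow_le_one₀ (by linarith) (sub_le_self _ (by positivity))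
      have a3 : ‖x - p‖ ^ 2 ≤ μ₀ := h3.trans ((mul_le_of_le_one_right h1.1 a2).trans h1.2)
      have a4 : ‖x - p‖ ≤ μ₀ + 1 := by nlinarith [norm_nonneg (x - p)]
      have a5 := norm_sub_norm_le p x
      rw [norm_sub_rev] at a5
      linarith
  have ne : C.Nonempty := by
    have a0 : ‖x₀‖ ≤ L / 2 := by rw [hL]; linarith
    have a1 : ‖x₀ - 0‖ ^ 2 / L ^ 2 ≤ 1 / 2 := by
      rw [div_le_iff₀ L2, sub_zero]; nlinarith [norm_nonneg x₀]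
    have a2 : ‖x₀ - p₀‖ ^ 2 ≤ μ₀ * G x₀ := by
      have : (1 / 2 : ℝ) ^ 4 ≤ G x₀ := pow_le_pow_left₀ (by norm_num) (by linarith) 4
      nlinarith [sq_nonneg ‖x₀ - p₀‖]
    have a3 : ‖x₀‖ ≤ L := by linarith
    exact ⟨(μ₀, x₀, p₀), ⟨⟨μ0, le_rfl⟩, ⟨⟨hx₀, m1⟩, mem_closedBall_zero_iff.2 a3⟩, ⟨hp₀, m2⟩,
      mem_closedBall_zero_iff.2 (bd μ₀ x₀ p₀ ⟨μ0, le_rfl⟩ a3 a2).le⟩, a2⟩
  obtain ⟨⟨μ, x, p⟩, ⟨⟨h1, ⟨⟨h2, h3⟩, h4⟩, ⟨h5, h6⟩, -⟩, h8⟩, hmin⟩ :=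
    cC.exists_isMinOn ne continuous_fst.continuousOn
  simp only [mem_closedBall_zero_iff] at h1 h2 h3 h4 h5 h6
  have h8' : ‖x - p‖ ^ 2 ≤ μ * G x := h8
  have xp : 0 < ‖x - p‖ ^ 2 := pow_pos (norm_pos_iff.2 (sub_ne_zero.2 fun e : x = p =>
    disjoint_left.1 hdis h3 (e ▸ h6))) 2
  have G0 : ∀ x, 0 ≤ G x := fun x => by positivity
  have Gx : 0 < G x := pos_of_mul_pos_of_nonneg (xp.trans_le h8') h1.1
  have hμ : 0 < μ := pos_of_mul_pos_of_nonneg (mul_comm μ _ ▸ xp.trans_le h8') (G0 x)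
  have xL : ‖x‖ < L := lt_of_le_of_ne h4 fun e => Gx.ne' (by
    simp only [G, sub_zero, e, div_self L2.ne', sub_self]; norm_num)
  have low : ∀ x' p', x' ∈ zs w ∩ K₁ → p' ∈ zs w ∩ K₂ → ‖x'‖ ≤ L → ‖p'‖ ≤ L + μ₀ + 2 →
      μ * G x' ≤ ‖x' - p'‖ ^ 2 := fun x' p' a1 a2 a3 a4 => by
    by_contra! a5
    have a6 : 0 < G x' := pos_of_mul_pos_of_nonneg ((sq_nonneg _).trans_lt a5) hμ.le
    have a7 : ‖x' - p'‖ ^ 2 / G x' < μ := by rwa [div_lt_iff₀ a6]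
    have a8 : (‖x' - p'‖ ^ 2 / G x', x', p') ∈ C :=
      ⟨⟨⟨by positivity, a7.le.trans h1.2⟩, ⟨a1, mem_closedBall_zero_iff.2 a3⟩, a2,
        mem_closedBall_zero_iff.2 a4⟩, (div_mul_cancel₀ _ a6.ne').ge⟩
    exact absurd (hmin a8) (not_le.2 a7)
  have pL := bd μ x p h1 h4 h8'
  have e0 : ‖x - p‖ ^ 2 = μ * G x := le_antisymm h8' (low x p ⟨h2, h3⟩ ⟨h5, h6⟩ h4 pL.le)
  have hm : IsLocalMinOn (fun q : E3 × E3 => ‖q.1 - q.2‖ ^ 2 - μ * G q.1) (zs w ×ˢ zs w) (x, p) := by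
    have o1 : ∀ᶠ q : E3 × E3 in 𝓝 (x, p), q.1 ∉ K₂ ∧ ‖q.1‖ < L :=
      Filter.Eventually.and (p := fun q : E3 × E3 => q.1 ∉ K₂)
        ((c2.isOpen_compl.preimage continuous_fst).mem_nhds (disjoint_left.1 hdis h3))
        (continuous_fst.norm.continuousAt.eventually_lt_const xL)
    have o2 : ∀ᶠ q : E3 × E3 in 𝓝 (x, p), q.2 ∉ K₁ ∧ ‖q.2‖ < L + μ₀ + 2 :=
      Filter.Eventually.and (p := fun q : E3 × E3 => q.2 ∉ K₁)
        ((c1.isOpen_compl.preimage continuous_snd).mem_nhds (disjoint_right.1 hdis h6))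
        (continuous_snd.norm.continuousAt.eventually_lt_const pL)
    filter_upwards [self_mem_nhdsWithin, nhdsWithin_le_nhds o1, nhdsWithin_le_nhds o2]
      with q a1 a2 a3
    have := low q.1 q.2 ⟨a1.1, (hcov a1.1).resolve_right a2.1⟩
      ⟨a1.2, (hcov a1.2).resolve_left a3.1⟩ a2.2.le a3.2.le
    simp only [e0]
    linarith
  have := two_point hw (c₀ := 0) h2 h5 L0 hμ (by nlinarith [h1.2, norm_nonneg x₀])
    (by rwa [sub_zero]) hm e0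
  rw [inner_zero_left] at this
  nlinarith

end Vale.Agent.P218N.C
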