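import Vale.Agent.P218N.C.Hui
import Vale.Agent.P218N.Top.Seq
import Vale.Agent.P218N.B.Struct
import Vale.Agent.P218N.C.Inv
import Vale.Agent.P218N.C.TwoPt

/-! The three types of directions. -/

open MeasureTheory Set Filter Topology Metric Real
open scoped ENNReal NNReal RealInnerProductSpace ContDiff

namespace Vale.Agent.P218N.C

open Vale.Agent.P218 Vale.Agent.P218.H313 Vale.Agent.P218N.H Vale.Agent.P218N.B
open Vale.Agent.P218N.C0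
open Vale.Agent.P218GA (cH cH_pos')

variable {Λ : ℝ} {κ : Measure E3} {w : E3 → ℝ} {y : E3} {b : ℕ}

/-- the Gaussian ratio at a point off the support -/
theorem exists_far : ∃ C : ℝ, 0 < C ∧ ∀ (Λ : ℝ) (κ : Measure E3) (c : E3) (s d : ℝ), 0 < Λ →
    ARm Λ κ → 0 < s → 0 ≤ d → κ (ball c d) = 0 → Gm κ c s ≤ C * Λ * exp (-d ^ 2 / (8 * s)) := by
  obtain ⟨C, hC, h⟩ := gBd
  refine ⟨C, hC, fun Λ κ c s d hΛ hκ hs hd h0 => le_trans (le_of_eq ?_)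
    ((h Λ κ c s hΛ hκ hs).2.2 d hd)⟩
  rw [Gm, Measure.restrict_eq_self_of_ae_mem]
  exact compl_mem_ae_iff.2 h0

lemma mu_ball {S : Set E3} {c : E3} {d : ℝ} (h : ∀ x ∈ S, d ≤ ‖x - c‖) : mu S (ball c d) = 0 := by
  rw [mu, Measure.restrict_apply measurableSet_ball]
  convert measure_empty (μ := (μH[((2 : ℕ) : ℝ)] : Measure E3))
  exact eq_empty_of_forall_notMem fun x hx => (h x hx.2).not_gt (mem_ball_iff_norm.1 hx.1)

lemma ARm.eq_zero (h : ARm Λ κ) {c : E3} {s : ℝ} (hs : 0 < s) (h0 : Gm κ c s = 0) : κ = 0 := by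
  have hc := cH_pos' 2
  rw [Gm_def, mul_eq_zero, or_iff_right (by positivity),
    integral_eq_zero_iff_of_nonneg (fun x => (gk_pos c s x).le) (h.bb.integrable_gk c hs)] at h0
  rw [← ae_eq_bot, ← eventually_false_iff_eq_bot]
  exact h0.mono fun x hx => (gk_pos c s x).ne' hx

lemma ARm.of_smul {k : ℕ} (hk : 1 ≤ k) (h : ARm Λ ((k : ℝ≥0∞) • κ)) : ARm Λ κ := fun x r hr => by
  refine le_trans ?_ (h x r hr)
  rw [Measure.smul_apply, smul_eq_mul]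
  exact le_mul_of_one_le_left' (by exact_mod_cast hk)

/-- a surface is determined by its Gaussian ratios -/
lemma mem_of_Gm {S : Set E3} (h1 : Surf S) (h2 : IsClosed S) (hΛ : 0 < Λ) (h3 : ARm Λ (mu S))
    {p q : E3} (hp : p ∈ S) (h : ∀ s, 0 < s → Gm (mu S) q s = Gm (mu S) p s) : q ∈ S := by
  by_contra hq
  obtain ⟨d, hd, hb⟩ := Metric.mem_nhds_iff.1 (h2.isOpen_compl.mem_nhds hq)
  obtain ⟨C, -, hC⟩ := exists_far
  obtain ⟨δ, hδ, k1⟩ := exists_exp_small (A := C * Λ) hd (τ := 1 / 4) (by norm_num)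
  obtain ⟨δ', hδ', k2⟩ := gDens.2 S Λ h1 hΛ h2 h3 p (1 / 2) (by norm_num)
  have hs : 0 < min δ δ' / 2 := by positivity
  have k3 := hC Λ _ q _ d hΛ h3 hs hd.le (mu_ball fun x hx => not_lt.1 fun h =>
    hb (mem_ball_iff_norm.2 h) hx)
  have k4 := k1 _ hs (by linarith [min_le_left δ δ'])
  have k5 := (k2 p _ hs (by linarith [min_le_right δ δ'])).2 hp (by simp; positivity)
  linarith [h _ hs]

variable {ι : Type} {l : Filter ι} {R : ι → ℝ}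

/-- the limit does not depend on the scale, up to bounded factors -/
theorem Shk.shift (h : Shk Λ w) (hy : ‖y‖ = 1) (hR : Tendsto R l atTop)
    (hκ : WLim l (fun i => tm w y (R i)) κ) {ρ : ι → ℝ}
    (hρ : ∀ᶠ i in l, R i / 8 ≤ ρ i ∧ ρ i ≤ 8 * R i) : WLim l (fun i => tm w y (ρ i)) κ := by
  intro φ h1 h2
  refine tendsto_of_approx fun ε hε => ?_
  obtain ⟨R₀, h3⟩ := slow Λ w h y hy φ h1 h2 8 ε hε
  refine ⟨_, _, hκ φ h1 h2, ?_, by simpa using hε.le⟩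
  filter_upwards [hρ, hR.eventually_ge_atTop (8 * max R₀ 0)] with i h4 h5
  have h6 := le_max_left R₀ 0
  have h7 := le_max_right R₀ 0
  rcases le_total (R i) (ρ i) with h8 | h8
  · rw [abs_sub_comm]; exact h3 _ _ (by linarith) h8 h4.2
  · exact h3 _ _ (by linarith [h4.1]) h8 (by linarith [h4.1])

lemma Shk.lim_Gm [l.NeBot] [hf : IsLocallyFiniteMeasure κ] (h : Shk Λ w)
    (hκ : WLim l (fun i => tm w y (R i)) κ) {c : E3} {s : ℝ} {c' : ι → E3} {s' : ι → ℝ}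
    (hs : 0 < s) (h1 : Tendsto c' l (𝓝 c)) (h2 : Tendsto s' l (𝓝 s)) :
    Tendsto (fun i => Gm (mu (zs w)) (R i • y + c' i) (s' i)) l (𝓝 (Gm κ c s)) := by
  simpa only [Gm_tm] using (gLim ι l _ κ Λ inferInstance h.pos (fun i => h.ratio.tm y (R i)) hf
    hκ).2 c s c' s' hs h1 h2

lemma Shk.lim_Gm0 [l.NeBot] [IsLocallyFiniteMeasure κ] (h : Shk Λ w)
    (hκ : WLim l (fun i => tm w y (R i)) κ) {s : ℝ} (hs : 0 < s) :
    Tendsto (fun i => Gm (mu (zs w)) (R i • y) s) l (𝓝 (Gm κ 0 s)) := by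
  simpa using h.lim_Gm hκ hs (tendsto_const_nhds (x := 0)) tendsto_const_nhds

lemma Shk.lim_ARm [l.NeBot] [hf : IsLocallyFiniteMeasure κ] (h : Shk Λ w)
    (hκ : WLim l (fun i => tm w y (R i)) κ) : ARm Λ κ :=
  (gLim ι l _ κ Λ inferInstance h.pos (fun i => h.ratio.tm y (R i)) hf hκ).1

/-- the limits are translation invariant -/
theorem Shk.lim_tl [l.NeBot] [IsLocallyFiniteMeasure κ] (h : Shk Λ w) (hy : ‖y‖ = 1)
    (hR : Tendsto R l atTop) (hκ : WLim l (fun i => tm w y (R i)) κ) (t : ℝ) :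
    tl κ (t • y) = κ := by
  have h1 := WT.tl hκ (t • y)
  simp only [tm_eq, tl_tl, ← add_smul] at h1
  simp only [← tm_eq] at h1
  have := ((h.lim_ARm hκ).tl (t • y)).locFin
  refine WT.unique h1 (h.shift hy hR hκ ?_)
  filter_upwards [hR.eventually_ge_atTop (2 * |t|)] with i hi
  constructor <;> linarith [le_abs_self t, neg_abs_le t]

lemma Shk.exists_theta (h : Shk Λ w) (y : E3) :
    ∃ Θ, Tendsto (fun R : ℝ => Gm (mu (zs w)) (R • y) 1) atTop (𝓝 Θ) := by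
  simp only [Gm_eq _ _ one_pos]
  exact ⟨_, (h.shrM.tendsto_ray y).const_mul _⟩

/-- the possible limits -/
theorem TopS.limit (hS : StructStmt) (hF : FrankelStmt) (hI : InvStmt) (h : TopS Λ b w)
    (hy : ‖y‖ = 1) (U : Ultrafilter ι) (hR : Tendsto R U atTop) :
    ∃ κ, IsLocallyFiniteMeasure κ ∧ WLim U (fun i => tm w y (R i)) κ ∧ (κ = 0 ∨ ∃ k : ℕ, 1 ≤ k ∧
      ((∃ e : E3, ‖e‖ = 1 ∧ ⟪e, y⟫ = 0 ∧ κ = (k : ℝ≥0∞) • mu (plane e)) ∨
        κ = (k : ℝ≥0∞) • mu (cylS y))) := by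
  obtain ⟨κ, hf, hκ⟩ := exLim ι U _ Λ fun i => h.shk.ratio.tm y (R i)
  refine ⟨κ, hf, hκ, ?_⟩
  obtain ⟨ρ, h1, h2⟩ := good Λ w h.shk y 1 2 one_pos one_lt_two
  obtain ⟨S, θ, s1, s2, s3, s4, s5, s6⟩ := hS ι U _ κ _ (seq Λ b w h y ι U (fun i => ρ (R i)) κ hf
    (h2.comp hR) (h.shk.shift hy hR hκ (by
      filter_upwards [hR.eventually_gt_atTop 0] with i hi
      constructor <;> linarith [(h1 _ hi).1, (h1 _ hi).2])))
  obtain ⟨w', hw', rfl⟩ := Top.exists_shr s1 s2 s3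
  obtain ⟨k, hk, e⟩ := exists_const_mult s2 (hF w' hw') s4 s5 s6
  have hA : ARm Λ (mu (zs w')) := ARm.of_smul hk (e ▸ h.shk.lim_ARm hκ)
  have inv : ∀ (x : E3) (t : ℝ), w' x = 0 → w' (x + t • y) = 0 := fun x t hx =>
    mem_of_Gm s1 s2 h.shk.pos hA hx fun s _ => by
      have h3 := Gm_tl κ (t • y) x s
      rw [h.shk.lim_tl hy hR hκ, e, Gm_smul, Gm_smul, add_comm] at h3
      exact (mul_left_cancel₀ (by positivity) h3).symm
  rcases hI w' y hw' hy inv with h3 | ⟨e', h3, h4, h5⟩ | h3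
  · exact Or.inl (by rw [e, h3]; simp [mu])
  · exact Or.inr ⟨k, hk, Or.inl ⟨e', h3, h4, h5 ▸ e⟩⟩
  · exact Or.inr ⟨k, hk, Or.inr (h3 ▸ e)⟩

lemma exists_ultra {p : ι → Prop} (h : ∃ᶠ i in l, p i) :
    ∃ U : Ultrafilter ι, (U : Filter ι) ≤ l ∧ ∀ᶠ i in (U : Filter ι), p i := by
  have : (l ⊓ 𝓟 {i | p i}).NeBot := frequently_iff_neBot.1 h
  obtain ⟨U, hU⟩ := (l ⊓ 𝓟 {i | p i}).exists_ultrafilter_le
  exact ⟨U, hU.trans inf_le_left, le_principal_iff.1 (hU.trans inf_le_right)⟩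

lemma ev_lt_or_gt {g : ℝ → ℝ} {a : ℝ} (hg : Continuous g) (h : ∀ᶠ R in atTop, g R ≠ a) :
    (∀ᶠ R in atTop, g R < a) ∨ ∀ᶠ R in atTop, a < g R := by
  obtain ⟨R₀, h⟩ := eventually_atTop.1 h
  rcases (h R₀ le_rfl).lt_or_gt with h1 | h1
  · refine Or.inl (eventually_atTop.2 ⟨R₀, fun R hR => not_le.1 fun h2 => ?_⟩)
    obtain ⟨t, ht, e⟩ := intermediate_value_Icc hR hg.continuousOn ⟨h1.le, h2⟩
    exact h t ht.1 e
  · refine Or.inr (eventually_atTop.2 ⟨R₀, fun R hR => not_le.1 fun h2 => ?_⟩)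
    obtain ⟨t, ht, e⟩ := intermediate_value_Icc' hR hg.continuousOn ⟨h2, h1.le⟩
    exact h t ht.1 e

lemma sqrt_two_le {x : E3} (hy : ‖y‖ = 1) (hx : x ∈ cylS y) : √2 ≤ ‖x‖ := by
  rw [← show ‖perp y x‖ ^ 2 = 2 from hx, sqrt_sq (norm_nonneg _)]
  exact norm_perp_apply_le hy x

lemma Gm_plane0 {e : E3} (he : ‖e‖ = 1) (k : ℕ) {s : ℝ} (hs : 0 < s) :
    Gm ((k : ℝ≥0∞) • mu (plane e)) 0 s = k := by
  rw [Gm_smul, Gm_plane he 0 hs]; simp

theorem classStmt (hS : StructStmt) (hF : FrankelStmt) (hI : InvStmt) : ClassStmt := by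
  intro Λ b w h y hy
  obtain ⟨Θ, hΘ⟩ := h.shk.exists_theta y
  have hΘ0 : 0 ≤ Θ := ge_of_tendsto' hΘ fun R => Gm_nonneg _ _ one_pos
  have th : ∀ (ι : Type) (U : Ultrafilter ι) (R : ι → ℝ) (κ : Measure E3), Tendsto R U atTop →
      IsLocallyFiniteMeasure κ → WLim U (fun i => tm w y (R i)) κ → Gm κ 0 1 = Θ :=
    fun ι U R κ hR _ hκ => tendsto_nhds_unique (h.shk.lim_Gm0 hκ one_pos) (hΘ.comp hR)
  rcases hΘ0.eq_or_lt with rfl | hΘ0
  · refine Or.inl fun φ h1 h2 => (tendsto_iff_ultrafilter _ _ _).2 fun U hU => ?_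
    obtain ⟨κ, hf, hκ, -⟩ := h.limit hS hF hI hy U (R := id) hU
    obtain rfl := (h.shk.lim_ARm hκ).eq_zero one_pos (th _ U id κ hU hf hκ)
    exact hκ φ h1 h2
  obtain ⟨C, -, hC⟩ := exists_far
  obtain ⟨δ, hδ, k1⟩ := exists_exp_small (A := C * Λ) one_pos (τ := Θ / 3) (by positivity)
  have hs : 0 < δ / 2 := half_pos hδ
  have lim : ∀ (ι : Type) (U : Ultrafilter ι) (R : ι → ℝ), Tendsto R U atTop →
      ∃ (κ : Measure E3) (k : ℕ), 1 ≤ k ∧ WLim U (fun i => tm w y (R i)) κ ∧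
        Tendsto (fun i => Gm (mu (zs w)) (R i • y) (δ / 2)) U (𝓝 (Gm κ 0 (δ / 2))) ∧
        ((Gm κ 0 (δ / 2) = Θ ∧ k = Θ ∧ ∃ e : E3, ‖e‖ = 1 ∧ ⟪e, y⟫ = 0 ∧
          κ = (k : ℝ≥0∞) • mu (plane e)) ∨ (Gm κ 0 (δ / 2) ≤ Θ / 3 ∧
          k * Gm (mu (cylS y)) 0 1 = Θ ∧ κ = (k : ℝ≥0∞) • mu (cylS y))) := by
    intro ι U R hR
    obtain ⟨κ, hf, hκ, h1⟩ := h.limit hS hF hI hy U hR
    have h2 := th ι U R κ hR hf hκ
    rcases h1 with rfl | ⟨k, hk, h1⟩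
    · exact absurd (Gm_zero 0 1 ▸ h2) hΘ0.ne
    refine ⟨κ, k, hk, hκ, h.shk.lim_Gm0 hκ hs, h1.imp ?_ fun e => ⟨?_, ?_, e⟩⟩
    · rintro ⟨e, h3, h4, rfl⟩
      rw [Gm_plane0 h3 k one_pos] at h2
      exact ⟨by rw [Gm_plane0 h3 k hs, h2], h2, e, h3, h4, rfl⟩
    · refine (hC Λ κ 0 _ 1 h.shk.pos (h.shk.lim_ARm hκ) hs zero_le_one ?_).trans
        (k1 _ hs (half_lt_self hδ))
      rw [e, Measure.smul_apply, mu_ball, smul_zero]
      intro x hx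
      rw [sub_zero]
      exact (one_le_sqrt.2 one_le_two).trans (sqrt_two_le hy hx)
    · rw [← h2, e, Gm_smul]
  have ne : ∀ᶠ R : ℝ in atTop, Gm (mu (zs w)) (R • y) (δ / 2) ≠ Θ / 2 := by
    by_contra hc
    obtain ⟨U, hU, h1⟩ := exists_ultra (not_eventually.1 hc)
    obtain ⟨κ, k, -, -, h2, h3⟩ := lim _ U id hU
    have h4 : Gm κ 0 (δ / 2) = Θ / 2 := tendsto_nhds_unique h2
      (tendsto_const_nhds.congr' (h1.mono fun R hR => (not_not.1 hR).symm))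
    rcases h3 with h3 | h3 <;> linarith [h3.1]
  obtain ⟨U₀, hU₀⟩ := (atTop : Filter ℝ).exists_ultrafilter_le
  obtain ⟨κ₀, k₀, hk₀, -, a1, a2⟩ := lim _ U₀ id hU₀
  rcases ev_lt_or_gt (continuous_iff_continuousAt.2 fun R => h.shk.ratio.tendsto_Gm hs
    (by fun_prop : ContinuousAt (fun R : ℝ => R • y) R) tendsto_const_nhds) ne with h1 | h1
  · refine Or.inr (Or.inl ⟨k₀, hk₀, fun φ h2 h3 => (tendsto_iff_ultrafilter _ _ _).2 fun U hU => ?_⟩)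
    obtain ⟨κ, k, -, b0, b1, b2⟩ := lim _ U id hU
    have c1 := le_of_tendsto a1 ((h1.filter_mono hU₀).mono fun _ h => h.le)
    have c2 := le_of_tendsto b1 ((h1.filter_mono hU).mono fun _ h => h.le)
    obtain ⟨-, c3, -⟩ := a2.resolve_left fun h => by linarith [h.1]
    obtain ⟨-, c4, rfl⟩ := b2.resolve_left fun h => by linarith [h.1]
    have c5 : Gm (mu (cylS y)) 0 1 ≠ 0 := fun h => by rw [h, mul_zero] at c3; exact hΘ0.ne c3
    obtain rfl : k = k₀ := by exact_mod_cast mul_right_cancel₀ c5 (c4.trans c3.symm)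
    exact b0 φ h2 h3
  · refine Or.inr (Or.inr ⟨k₀, hk₀, fun ι U R hR => ?_⟩)
    obtain ⟨κ, k, -, b0, b1, b2⟩ := lim ι U R hR
    have c1 := ge_of_tendsto a1 ((h1.filter_mono hU₀).mono fun _ h => h.le)
    have c2 := ge_of_tendsto b1 ((hR.eventually h1).mono fun _ h => h.le)
    obtain ⟨-, c3, -⟩ := a2.resolve_right fun h => by linarith [h.1]
    obtain ⟨-, c4, e, c5, c6, rfl⟩ := b2.resolve_right fun h => by linarith [h.1]
    obtain rfl : k = k₀ := by exact_mod_cast c4.trans c3.symm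
    exact ⟨e, c5, c6, fun ρ hρ => h.shk.shift hy hR b0 hρ⟩

theorem classStmt' (hS : StructStmt) : ClassStmt := classStmt hS frankel inv'

end Vale.Agent.P218N.C
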