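import Vale.Agent.P218N.C.CylA

/-! Block C: the cylindrical ends. -/

open MeasureTheory Set Filter Topology Metric Real
open scoped ENNReal NNReal RealInnerProductSpace ContDiff

namespace Vale.Agent.P218N.C

open Vale.Agent.P218.H313 Vale.Agent.P218N.H

namespace Cyl

variable {Q : E3 ≃ₗᵢ[ℝ] E3} {w : E3 → ℝ}

lemma sqrt_two_bd : 1 ≤ √2 ∧ √2 ≤ 2 :=
  ⟨by rw [Real.one_le_sqrt]; norm_num, by rw [Real.sqrt_le_iff]; norm_num⟩

/-- far out each radius meets the surface at most once, transversally -/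
lemma exists_good (hC : CylCh w (axis Q)) (hN : Near w (axis Q)) :
    ∃ (ρ h z₁ : ℝ) (C : ℕ → ℝ), ∀ (p : ℝ × ℝ) (t : ℝ), z₁ ≤ p.1 → |t| ≤ 1 / 4 →
      w (PP Q (p, t)) = 0 → |t| ≤ 1 / 8 ∧
        (∃ f u, TC w (PP Q (p, t)) ρ h C f u ∧ 1 / 2 ≤ |⟪f.n, er Q p.2⟫|) ∧
        ∀ t', |t'| ≤ 1 / 4 → w (PP Q (p, t')) = 0 → t' = t := by
  obtain ⟨ρ, h, z₀, C, hρ, hh, hC⟩ := hC
  obtain ⟨s1, s2⟩ := sqrt_two_bd
  obtain ⟨σ, hσ, hσ1, hσ2⟩ : ∃ σ : ℝ, 0 < σ ∧ σ < ρ ∧ |C 2| * σ ≤ 1 / 4 := by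
    refine ⟨min (ρ / 2) (1 / (4 * (|C 2| + 1))), lt_min (half_pos hρ) (by positivity),
      (min_le_left _ _).trans_lt (half_lt_self hρ), ?_⟩
    refine (mul_le_mul_of_nonneg_left (min_le_right _ _) (abs_nonneg _)).trans ?_
    rw [mul_one_div, div_le_div_iff₀ (by positivity) (by norm_num)]
    linarith
  obtain ⟨η, hη, hη1, hη2, hη3⟩ : ∃ η : ℝ, 0 < η ∧ η ≤ σ / 4 ∧ η ≤ h / 4 ∧ η ≤ 1 / 8 :=
    ⟨min (σ / 4) (min (h / 4) (1 / 8)), lt_min (by linarith) (lt_min (by linarith) (by norm_num)),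
      min_le_left _ _, (min_le_right _ _).trans (min_le_left _ _),
      (min_le_right _ _).trans (min_le_right _ _)⟩
  obtain ⟨z, hz⟩ := near_tube (norm_axis Q) hN hη (3 + (ρ + h))
  refine ⟨ρ, h, max z₀ (z + (ρ + h)), C, fun p t hp ht h0 => ?_⟩
  have hp1 : z₀ ≤ p.1 := (le_max_left _ _).trans hp
  have hp2 : z + (ρ + h) ≤ p.1 := (le_max_right _ _).trans hp
  have h1 : ∀ t : ℝ, |t| ≤ 1 / 4 → ‖perp (axis Q) (PP Q (p, t))‖ = √2 * (1 + t) := fun t ht =>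
    norm_perp_PP Q (by have := (abs_le.1 ht).1; simp only; linarith)
  have h2 : ∀ t : ℝ, |t| ≤ 1 / 4 → ‖perp (axis Q) (PP Q (p, t))‖ ≤ 3 := fun t ht => by
    rw [h1 t ht]; have := (abs_le.1 ht).2; nlinarith
  have h3 : ∀ t : ℝ, |t| ≤ 1 / 4 → w (PP Q (p, t)) = 0 → |√2 * t| ≤ η := fun t ht h0 => by
    have := hz _ h0 (by rw [inner_PP]; simp only; linarith) ((h2 t ht).trans (by linarith))
    rwa [h1 t ht, mul_add, mul_one, add_sub_cancel_left] at this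
  obtain ⟨f, u, c1, c2, c3, c4, c5, c6⟩ := hC _ h0 (by rw [inner_PP]; exact hp1) (h2 t ht)
  have c : TC w (PP Q (p, t)) ρ h C f u := ⟨hρ, hh, c1, c2, c3, c4, c5, c6⟩
  have hC2 := le_abs_self (C 2)
  have htr : 1 / 2 ≤ |⟪f.n, er Q p.2⟫| := by
    refine c.trans (norm_er Q _) (inner_axis_er Q _) hσ hσ1 (by nlinarith) hη1 (fun x hx hx' => ?_) ?_
    · have e : x = PP Q (p, t) + (x - PP Q (p, t)) := by abel
      have h4 := abs_real_inner_le_norm (axis Q) (x - PP Q (p, t))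
      rw [norm_axis, one_mul] at h4
      have h5 := norm_perp_apply_le (norm_axis Q) (x - PP Q (p, t))
      have h6 := hz x hx (by
        rw [e, inner_add_right, inner_PP]
        have := (abs_le.1 h4).1
        simp only; linarith) (by
        rw [e, map_add]
        have := h2 t ht
        exact (norm_add_le _ _).trans (by linarith))
      linarith [(abs_le.1 h6).2]
    · have := inner_er_PP Q (p, t)
      simp only at this
      rw [this]
      linarith [(abs_le.1 (h3 t ht h0)).1]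
  refine ⟨?_, ⟨f, u, c, htr⟩, fun t' ht' h0' => ?_⟩
  · have := h3 t ht h0
    rw [abs_mul, abs_of_nonneg (Real.sqrt_nonneg _)] at this
    nlinarith [abs_nonneg t]
  · have h4 : |√2 * (t' - t)| ≤ 2 * η := by
      rw [mul_sub]
      have := h3 t ht h0
      have := h3 t' ht' h0'
      exact (abs_sub _ _).trans (by linarith)
    rw [PP_add Q p t t'] at h0'
    have h5 := c.uniq (norm_er Q _) htr (by linarith) (by linarith)
      (by nlinarith [abs_nonneg (√2 * (t' - t)), abs_nonneg (C 2)]) h0'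
    have := (mul_eq_zero.1 h5).resolve_left (by linarith)
    linarith

/-- far points in the cone in cylinder coordinates -/
lemma cover (hN : Near w (axis Q)) : ∃ δ : ℝ, 0 < δ ∧ ∀ s : ℝ, ∃ R : ℝ, ∀ x, w x = 0 → R ≤ ‖x‖ →
    ‖dir x - axis Q‖ ≤ δ → ∃ (p : ℝ × ℝ) (t : ℝ), s < p.1 ∧ |t| ≤ 1 / 8 ∧ x = PP Q (p, t) := by
  obtain ⟨δ, hδ, hN⟩ := hN
  obtain ⟨R, hR⟩ := hN (1 / 8) (by norm_num)
  obtain ⟨s1, s2⟩ := sqrt_two_bd
  refine ⟨min δ (1 / 2), lt_min hδ (by norm_num), fun s => ⟨max R (2 * |s| + 1), ?_⟩⟩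
  intro x hx h1 h2
  obtain ⟨⟨p, t⟩, h3, h4⟩ := polar Q x
  have h5 := hR x hx ((le_max_left _ _).trans h1) (h2.trans (min_le_left _ _))
  have h6 : 2 * |s| + 1 ≤ ‖x‖ := (le_max_right _ _).trans h1
  have h7 : 0 < ‖x‖ := lt_of_lt_of_le (by positivity) h6
  refine ⟨p, t, ?_, ?_, h4⟩
  · have h8 := abs_real_inner_le_norm (axis Q) (dir x - axis Q)
    rw [norm_axis, one_mul, inner_sub_right, real_inner_self_eq_norm_sq, norm_axis, dir,
      real_inner_smul_right] at h8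
    have h9 : ⟪axis Q, x⟫ = p.1 := by rw [h4, inner_PP]
    have h10 := (abs_le.1 (h8.trans (h2.trans (min_le_right _ _)))).1
    have h11 : 1 / 2 ≤ ‖x‖⁻¹ * p.1 := by rw [← h9]; linarith
    rw [le_inv_mul_iff₀ h7] at h11
    linarith [le_abs_self s]
  · rw [h4, norm_perp_PP Q h3, mul_add, mul_one, add_sub_cancel_left, abs_mul,
      abs_of_nonneg (Real.sqrt_nonneg _)] at h5
    nlinarith [abs_nonneg t]

end Cyl

open Cyl in
theorem cylEnd (hI : ImplStmt) (hSm : ImplSmStmt) (hInt : InterpStmt) : CylEndStmt := by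
  intro w y hS hy hC hN
  obtain ⟨Q, rfl⟩ : ∃ Q : E3 ≃ₗᵢ[ℝ] E3, axis Q = y :=
    ⟨_, Submodule.reflection_sub (v := (!₂[0, 0, 1] : E3)) (w := y) (by
      rw [hy, EuclideanSpace.norm_eq]; simp [Fin.sum_univ_three])⟩
  refine or_iff_not_imp_left.2 fun hE => ?_
  unfold Emp at hE
  push Not at hE
  obtain ⟨ρ, h, z₁, C, hg⟩ := exists_good hC hN
  obtain ⟨δ, hδ, hcov⟩ := cover hN
  obtain ⟨s1, s2⟩ := sqrt_two_bd
  set F : (ℝ × ℝ) × ℝ → ℝ := fun q => w (PP Q q) with hF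
  have hFs : ContDiff ℝ ∞ F := hS.smooth.comp (contDiff_PP Q)
  have hFd : ∀ (p : ℝ × ℝ) (t : ℝ), z₁ ≤ p.1 → |t| ≤ 1 / 4 → F (p, t) = 0 →
      fderiv ℝ F (p, t) (0, 1) ≠ 0 := fun p t hp ht h0 => by
    obtain ⟨-, ⟨f, u, c, htr⟩, -⟩ := hg p t hp ht h0
    rw [hF, fderiv_comp_PP (hS.smooth.differentiable (by simp) _)]
    refine mul_ne_zero (by linarith) (c.fderiv_ne hS h0 fun h1 => ?_)
    rw [h1, abs_zero] at htr
    linarith
  -- every far radius meets the surface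
  have hex : ∀ p : ℝ × ℝ, z₁ < p.1 → ∃ t, |t| ≤ 1 / 4 ∧ F (p, t) = 0 := by
    set A : Set (ℝ × ℝ) := {p | ∃ t, |t| ≤ 1 / 4 ∧ F (p, t) = 0} with hA
    have hO : IsOpen {p : ℝ × ℝ | z₁ < p.1} := isOpen_lt continuous_const continuous_fst
    have hAc : IsClosed A := by
      have h1 : IsClosed {q : (ℝ × ℝ) × Icc (-(1 / 4) : ℝ) (1 / 4) | F (q.1, q.2) = 0} :=
        isClosed_eq (hFs.continuous.comp (by fun_prop)) continuous_const
      convert isClosedMap_fst_of_compactSpace _ h1 using 1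
      ext p
      constructor
      · rintro ⟨t, ht, h0⟩
        exact ⟨(p, ⟨t, abs_le.1 ht⟩), h0, rfl⟩
      · rintro ⟨q, h0, rfl⟩
        exact ⟨q.2, abs_le.2 q.2.2, h0⟩
    have hAo : IsOpen ({p : ℝ × ℝ | z₁ < p.1} ∩ A) := by
      rw [isOpen_iff_mem_nhds]
      rintro p ⟨hp, t, ht, h0⟩
      have hp' : z₁ < p.1 := hp
      refine inter_mem (hO.mem_nhds hp) ?_
      filter_upwards [persist hFs.continuous h0
        (hasDerivAt_slice (hFs.differentiable (by simp) _)) (hFd p t hp'.le ht h0)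
        (show (0 : ℝ) < 1 / 8 by norm_num)] with p' ⟨t', h1, h2⟩
      refine ⟨t', ?_, h2⟩
      have := (hg p t hp'.le ht h0).1
      have := abs_sub_abs_le_abs_sub t' t
      linarith
    have hpc : IsPreconnected {p : ℝ × ℝ | z₁ < p.1} :=
      (convex_halfSpace_gt (IsLinearMap.mk (f := Prod.fst) (fun _ _ => rfl) fun _ _ => rfl)
        z₁).isPreconnected
    obtain ⟨R, hR⟩ := hcov z₁
    obtain ⟨x, hx, hx1, hx2⟩ := hE δ R hδ
    obtain ⟨p, t, h1, h2, rfl⟩ := hR x hx hx1 hx2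
    intro p' hp'
    exact (hpc.subset_of_closure_inter_subset hAo ⟨p, h1, h1, t, by linarith, hx⟩
      (fun a ha => ⟨ha.2, hAc.closure_subset (closure_mono inter_subset_right ha.1)⟩) hp').2
  choose! H hH1 hH2 using hex
  have hO : ∀ p : ℝ × ℝ, z₁ < p.1 → ∀ᶠ p' : ℝ × ℝ in 𝓝 p, z₁ < p'.1 := fun p hp =>
    (isOpen_lt continuous_const continuous_fst).mem_nhds hp
  have huq : ∀ (p : ℝ × ℝ) (t : ℝ), z₁ < p.1 → |t| ≤ 1 / 4 → F (p, t) = 0 → t = H p :=
    fun p t hp ht h0 => (hg p (H p) hp.le (hH1 p hp) (hH2 p hp)).2.2 t ht h0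
  have hHs : ∀ p : ℝ × ℝ, z₁ < p.1 → ContDiffAt ℝ ∞ H p := fun p hp => by
    refine hSm F H p (-(1 / 4)) (1 / 4) hFs ?_ (hFd p _ hp.le (hH1 p hp) (hH2 p hp)) ?_
    · have := abs_le.1 (hg p (H p) hp.le (hH1 p hp) (hH2 p hp)).1
      exact ⟨by linarith, by linarith⟩
    · filter_upwards [hO p hp] with p' hp' t ht
      exact ⟨huq p' t hp' (abs_le.2 ⟨ht.1.le, ht.2.le⟩), fun h => h ▸ hH2 p' hp'⟩
  suffices key : ∃ v : ℝ × ℝ → ℝ, Decays v ∧ ∀ p : ℝ × ℝ, z₁ + 1 ≤ p.1 → v p = H p by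
    obtain ⟨v, hv, hvH⟩ := key
    refine ⟨Q, v, δ, z₁ + 1, rfl, hv, hδ, fun p hp => ?_, fun s₁ => ?_⟩
    · rw [cylPt_eq, hvH p hp.le]
      exact hH2 p (by linarith)
    · obtain ⟨R, hR⟩ := hcov (max s₁ (z₁ + 1))
      refine ⟨R, fun x hx h1 h2 => ?_⟩
      obtain ⟨p, t, h3, h4, rfl⟩ := hR x hx h1.le h2.le
      have h5 : z₁ + 1 < p.1 := (le_max_right _ _).trans_lt h3
      refine ⟨p, (le_max_left _ _).trans_lt h3, ?_⟩
      rw [cylPt_eq, hvH p h5.le, ← huq p t (by linarith) (by linarith) hx]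
  refine hInt H z₁ hHs (fun s θ hs => ?_) (fun k => ?_) (fun ε hε => ?_)
  · refine huq (s, θ) _ hs (hH1 (s, θ + 2 * π) hs) ?_
    have := hH2 (s, θ + 2 * π) hs
    simpa only [hF, PP, er_per Q θ] using this
  · rcases Nat.eq_zero_or_pos k with rfl | hk
    · exact ⟨1 / 4, fun p hp => by rw [norm_iteratedFDeriv_zero]; exact hH1 p hp⟩
    obtain ⟨B, hB⟩ := jets_gw Q C k
    obtain ⟨D, hD⟩ := hI k (1 / 2) B (by norm_num)
    refine ⟨D, fun p hp => ?_⟩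
    obtain ⟨-, ⟨f, u, c, htr⟩, -⟩ := hg p (H p) hp.le (hH1 p hp) (hH2 p hp)
    have h1 : ∀ᶠ q in 𝓝 (p, H p), PP Q q ∈ f.cyl (PP Q (p, H p)) ρ h :=
      (contDiff_PP Q).continuous.continuousAt.eventually
        ((f.isOpen_cyl _ _ _).mem_nhds (f.self_mem_cyl _ c.rp c.hp))
    refine hD (fun a => f.gw (PP Q (p, H p)) u (PP Q a)) H p ?_ ?_ ?_
      (hB w ρ h f u (p, H p) ((hH1 p hp).trans (by norm_num)) c) k hk le_rfl
    · filter_upwards [h1] with q hq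
      exact (c.cda_gw hq).comp q (contDiff_PP Q).contDiffAt
    · filter_upwards [hO p hp, (continuousAt_id.prodMk (hHs p hp).continuousAt).eventually h1]
        with p' hp' hq
      exact ⟨hHs p' hp', (c.iff _ hq).1 (hH2 p' hp')⟩
    · rw [fderiv_comp_PP ((c.cda_gw h1.self_of_nhds).differentiableAt (by simp)), c.fderiv_gw,
        abs_mul, abs_of_nonneg (Real.sqrt_nonneg _)]
      nlinarith
  · obtain ⟨z, hz⟩ := near_tube (norm_axis Q) hN hε 3
    refine ⟨max z (z₁ + 1), fun p hp => ?_⟩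
    have h1 : z₁ < p.1 := by linarith [le_max_right z (z₁ + 1)]
    have h2 := abs_le.1 (hH1 p h1)
    have h3 := norm_perp_PP Q (q := (p, H p)) (by simp only; linarith)
    have h4 := hz _ (hH2 p h1) (by rw [inner_PP]; exact (le_max_left _ _).trans hp)
      (by rw [h3]; simp only; nlinarith)
    rw [h3, mul_add, mul_one, add_sub_cancel_left, abs_mul,
      abs_of_nonneg (Real.sqrt_nonneg _)] at h4
    simp only at h4
    nlinarith [abs_nonneg (H p)]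

end Vale.Agent.P218N.C
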