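import Vale.Agent.P218N.C.Stmt

/-! Block C: directions, and cylindrical directions do not accumulate at a conical one. -/

open MeasureTheory Set Filter Topology Metric Real
open scoped ENNReal NNReal RealInnerProductSpace ContDiff

namespace Vale.Agent.P218N.C

open Vale.Agent.P218.H313 Vale.Agent.P218N.H

lemma dir_smul' {c : ℝ} (hc : 0 < c) (x : E3) : dir (c • x) = dir x := by
  unfold dir
  rw [norm_smul, Real.norm_eq_abs, abs_of_pos hc, smul_smul, mul_inv, mul_right_comm,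
    inv_mul_cancel₀ hc.ne', one_mul]

lemma norm_dir_sub_le {y : E3} (hy : ‖y‖ = 1) (x : E3) : ‖dir x - y‖ ≤ 2 * ‖x - y‖ := by
  have h1 : ‖dir x - x‖ ≤ ‖x - y‖ := by
    by_cases h : x = 0
    · simp [dir, h]
    · have h0 : 0 < ‖x‖ := norm_pos_iff.2 h
      have h2 : dir x - x = (‖x‖⁻¹ - 1) • x := by rw [dir, sub_smul, one_smul]
      rw [h2, norm_smul, Real.norm_eq_abs, ← abs_of_pos h0, ← abs_mul, abs_of_pos h0, sub_mul,
        inv_mul_cancel₀ h0.ne', one_mul, abs_sub_comm, ← hy]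
      exact abs_norm_sub_norm_le x y
  calc ‖dir x - y‖ = ‖(dir x - x) + (x - y)‖ := by congr 1; abel
    _ ≤ ‖dir x - x‖ + ‖x - y‖ := norm_add_le _ _
    _ ≤ 2 * ‖x - y‖ := by linarith

/-- a function with bounded derivative on a ball is Lipschitz -/
lemma abs_sub_le_of_bd {u : E2 → ℝ} {ρ C : ℝ} (hu : ContDiffOn ℝ ∞ u (ball 0 ρ))
    (hC : ∀ z ∈ ball (0 : E2) ρ, ‖iteratedFDeriv ℝ 1 u z‖ ≤ C) {a b : E2} (ha : a ∈ ball (0 : E2) ρ)
    (hb : b ∈ ball (0 : E2) ρ) : |u b - u a| ≤ C * ‖b - a‖ := by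
  rw [← Real.norm_eq_abs]
  refine (convex_ball (0 : E2) ρ).norm_image_sub_le_of_norm_fderiv_le (𝕜 := ℝ) (f := u)
    (fun z hz => ?_) (fun z hz => ?_) ha hb
  · exact (hu.contDiffAt (isOpen_ball.mem_nhds hz)).differentiableAt (by simp)
  · rw [← norm_iteratedFDeriv_one]; exact hC z hz

lemma exists_orth (a : E2) : ∃ ξ : E2, ‖ξ‖ = 1 ∧ ⟪ξ, a⟫ = 0 := by
  by_cases h : a = 0
  · exact ⟨EuclideanSpace.single 0 1, by simp, by simp [h]⟩
  · have h0 : 0 < ‖a‖ := norm_pos_iff.2 h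
    have h1 : ‖(!₂[-a 1, a 0] : E2)‖ = ‖a‖ := by
      rw [EuclideanSpace.norm_eq, EuclideanSpace.norm_eq]
      simp [Fin.sum_univ_two, add_comm]
    refine ⟨‖a‖⁻¹ • !₂[-a 1, a 0], ?_, ?_⟩
    · rw [norm_smul, h1, norm_inv, norm_norm, inv_mul_cancel₀ h0.ne']
    · rw [real_inner_smul_left]
      simp [PiLp.inner_apply, Fin.sum_univ_two, mul_comm]

theorem iso : IsoStmt := by
  rintro w y ⟨f, p, ρ, h, l₀, u, hl₀, hy, hu, hb, -⟩
  obtain ⟨C, hC⟩ := hb 1
  filter_upwards [(f.isOpen_cyl p ρ h).mem_nhds hy] with y' hy' hn hN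
  obtain ⟨δ, hδ, hN⟩ := hN
  obtain ⟨R, hR⟩ := hN 1 one_pos
  by_contra hE
  unfold Emp at hE
  push Not at hE
  have hρ : ‖f.π (y' - p)‖ < ρ := hy'.1
  have hh : |⟪f.n, y' - p⟫| < h := hy'.2
  have hC0 : 0 ≤ C := (norm_nonneg _).trans (hC (l₀ / 2) ⟨by linarith, by linarith⟩ 0
    (mem_ball_self ((norm_nonneg _).trans_lt hρ)))
  -- the size `m` of the neighbourhood of `y'`
  obtain ⟨m, hm, hm1, hm2, hm3, hm4⟩ : ∃ m : ℝ, 0 < m ∧ ‖f.π (y' - p)‖ + 2 * m < ρ ∧
      |⟪f.n, y' - p⟫| + 2 * m < h ∧ 4 * m ≤ δ ∧ 4 * m ≤ 1 := by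
    refine ⟨min (min ((ρ - ‖f.π (y' - p)‖) / 4) ((h - |⟪f.n, y' - p⟫|) / 4)) (min (δ / 4) (1 / 4)),
      lt_min (lt_min (by linarith) (by linarith)) (lt_min (by linarith) (by norm_num)), ?_, ?_, ?_, ?_⟩
    · have := (min_le_left _ (min (δ / 4) (1 / 4))).trans (min_le_left ((ρ - ‖f.π (y' - p)‖) / 4)
        ((h - |⟪f.n, y' - p⟫|) / 4))
      linarith
    · have := (min_le_left _ (min (δ / 4) (1 / 4))).trans (min_le_right ((ρ - ‖f.π (y' - p)‖) / 4)
        ((h - |⟪f.n, y' - p⟫|) / 4))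
      linarith
    · have := (min_le_right (min ((ρ - ‖f.π (y' - p)‖) / 4) ((h - |⟪f.n, y' - p⟫|) / 4)) _).trans
        (min_le_left (δ / 4) (1 / 4))
      linarith
    · have := (min_le_right (min ((ρ - ‖f.π (y' - p)‖) / 4) ((h - |⟪f.n, y' - p⟫|) / 4)) _).trans
        (min_le_right (δ / 4) (1 / 4))
      linarith
  set r : ℝ := m / (1 + C) with hr
  have hr0 : 0 < r := by positivity
  have hr1 : r * (1 + C) = m := by rw [hr]; field_simp
  obtain ⟨x, hx, hxR, hxd⟩ := hE m (max (max (2 * |R|) (2 / l₀)) (7 / r)) hm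
  have hx1 : 2 * |R| ≤ ‖x‖ := ((le_max_left _ _).trans (le_max_left _ _)).trans hxR
  have hx2 : 2 / l₀ ≤ ‖x‖ := ((le_max_right _ _).trans (le_max_left _ _)).trans hxR
  have hx3 : 7 / r ≤ ‖x‖ := (le_max_right _ _).trans hxR
  have hx0 : 0 < ‖x‖ := lt_of_lt_of_le (by positivity) hx3
  set l : ℝ := ‖x‖⁻¹ with hl
  have hl0 : 0 < l := by positivity
  have hll : l ∈ Ioo 0 l₀ := by
    refine ⟨hl0, ?_⟩
    rw [hl, inv_lt_comm₀ hx0 hl₀]
    have : l₀⁻¹ < 2 / l₀ := by rw [div_eq_mul_inv]; have := inv_pos.2 hl₀; linarith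
    linarith
  have hlr : 7 * l ≤ r := by
    rw [div_le_iff₀ hr0] at hx3
    rw [hl, ← div_eq_mul_inv, div_le_iff₀ hx0]
    linarith
  obtain ⟨hus, huw⟩ := hu l hll
  -- points close to `y'`
  have key : ∀ q : E3, ‖q - y'‖ ≤ 2 * m → ‖f.π (q - p)‖ < ρ ∧ |⟪f.n, q - p⟫| < h := by
    intro q hq
    have e : q - p = (y' - p) + (q - y') := by abel
    constructor
    · rw [e, map_add]
      have := f.norm_π_le (q - y')
      exact (norm_add_le _ _).trans_lt (by linarith)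
    · rw [e, inner_add_right]
      have := abs_real_inner_le_norm f.n (q - y')
      rw [f.norm_n, one_mul] at this
      exact (abs_add_le _ _).trans_lt (by linarith)
  have key2 : ∀ q : E3, ‖q - y'‖ ≤ 2 * m → f.gw p (u l) q = 0 → ‖perp y' q‖ ≤ 3 * l := by
    intro q hq hq0
    have h1 : w (l⁻¹ • q) = 0 := (huw q (key q hq)).2 hq0
    have h2 : 1 / 2 ≤ ‖q‖ := by
      have := norm_sub_norm_le y' q
      rw [norm_sub_rev] at this
      linarith
    have h3 : R ≤ ‖l⁻¹ • q‖ := by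
      rw [norm_smul, hl, inv_inv, norm_norm]
      have := le_abs_self R
      nlinarith
    have h4 : ‖dir (l⁻¹ • q) - y'‖ ≤ δ := by
      rw [dir_smul' (inv_pos.2 hl0)]
      have := norm_dir_sub_le hn q
      linarith
    have h5 := (abs_le.1 (hR _ h1 h3 h4)).2
    rw [map_smul, norm_smul, norm_inv, Real.norm_eq_abs, abs_of_pos hl0] at h5
    have h6 : √2 ≤ 2 := by
      rw [Real.sqrt_le_iff]; norm_num
    have h7 : l⁻¹ * ‖perp y' q‖ ≤ 3 := by linarith
    rwa [inv_mul_le_iff₀ hl0, mul_comm] at h7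
  set q : E3 := dir x with hq
  have hq1 : ‖q - y'‖ ≤ 2 * m := by linarith
  have hq0 : f.gw p (u l) q = 0 := by
    refine (huw q (key q hq1)).1 ?_
    rw [hq, dir, ← hl, smul_smul, inv_mul_cancel₀ hl0.ne', one_smul]
    exact hx
  obtain ⟨ξ, hξ, hξ'⟩ := exists_orth (f.π y')
  set a : E2 := f.π (q - p) with ha
  have hrm : r ≤ m := by nlinarith
  have ha1 : ‖a‖ + m < ρ := by
    have e : q - p = (y' - p) + (q - y') := by abel
    rw [ha, e, map_add]
    have := f.norm_π_le (q - y')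
    have := norm_add_le (f.π (y' - p)) (f.π (q - y'))
    linarith
  have hnr : ‖r • ξ‖ = r := by rw [norm_smul, hξ, mul_one, Real.norm_eq_abs, abs_of_pos hr0]
  have ha2 : a + r • ξ ∈ ball (0 : E2) ρ := by
    rw [mem_ball_zero_iff]
    exact (norm_add_le _ _).trans_lt (by linarith)
  have ha3 : a ∈ ball (0 : E2) ρ := by rw [mem_ball_zero_iff]; linarith
  have hlip := abs_sub_le_of_bd hus (hC l hll) ha3 ha2
  rw [add_sub_cancel_left, hnr] at hlip
  set q' : E3 := f.gr p (u l) (a + r • ξ) with hq'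
  have hd : q' - q = f.ι (r • ξ) + (u l (a + r • ξ) - u l a) • f.n := by
    rw [← f.gr_π hq0, ← ha, hq', Frame.gr, Frame.gr, map_add, sub_smul]
    abel
  have hd1 : ‖q' - q‖ ≤ m := by
    rw [hd]
    refine (norm_add_le _ _).trans ?_
    rw [f.norm_ι, hnr, norm_smul, f.norm_n, mul_one, Real.norm_eq_abs]
    linarith
  have hq2 : ‖q' - y'‖ ≤ 2 * m := by
    have e : q' - y' = (q' - q) + (q - y') := by abel
    rw [e]
    exact (norm_add_le _ _).trans (by linarith)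
  have h1 := key2 q hq1 hq0
  have h2 := key2 q' hq2 (f.gw_gr p _ _)
  have h3 : ‖perp y' (q' - q)‖ ≤ 6 * l := by
    rw [map_sub]
    exact (norm_sub_le _ _).trans (by linarith)
  have h4 : ⟪f.ι ξ, perp y' (q' - q)⟫ = r := by
    rw [← inner_perp_left, perp_of_inner (by rw [real_inner_comm, f.adj, hξ']), hd, inner_add_right,
      f.inner_ι, real_inner_smul_right, real_inner_smul_right, f.inner_ι_n,
      real_inner_self_eq_norm_sq, hξ]
    ring
  have h5 := real_inner_le_norm (f.ι ξ) (perp y' (q' - q))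
  rw [h4, f.norm_ι, hξ] at h5
  linarith

end Vale.Agent.P218N.C
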