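import Vale.Agent.P218N.C.OneA
import Vale.Agent.P218N.C.Stmt
import Mathlib.Analysis.Calculus.BumpFunction.FiniteDimension

/-! Compact one-dimensional submanifolds of space are finite unions of embedded closed curves. -/

open Filter Topology Set Metric Real
open scoped RealInnerProductSpace ContDiff

noncomputable section

namespace Vale.Agent.P218N.C

namespace OM

open Vale.Agent.P218N.GB

theorem contDiff_of_ode {E : Type*} [NormedAddCommGroup E] [NormedSpace ℝ E] {G : E → E}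
    (hG : ContDiff ℝ ∞ G) {a : ℝ → E} (ha : ∀ t, HasDerivAt a (G (a t)) t) : ContDiff ℝ ∞ a := by
  refine contDiff_infty.2 fun n => ?_
  induction n with
  | zero => exact contDiff_zero.2 (continuous_iff_continuousAt.2 fun t => (ha t).continuousAt)
  | succ n ih =>
    rw [Nat.cast_succ, contDiff_succ_iff_deriv]
    refine ⟨fun t => (ha t).differentiableAt, by simp, ?_⟩
    rw [show deriv a = fun t => G (a t) from funext fun t => (ha t).deriv]
    exact (contDiff_infty.1 hG n).comp ih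

/-- the geodesic flow on the unit tangent vectors -/
structure GF (Z : Set V3) (α : V3 × V3 → ℝ → V3 × V3) : Prop where
  flw : Flw (UT Z) α
  sm : ∀ q, ContDiff ℝ ∞ (α q)
  der : ∀ q ∈ UT Z, ∀ t, HasDerivAt (fun t => (α q t).1) (α q t).2 t
  rev : ∀ q ∈ UT Z, ∀ t, α (q.1, -q.2) t = ((α q (-t)).1, -(α q (-t)).2)
  cov : ∀ q ∈ UT Z, ∀ δ > 0, (fun t => (α q t).1) '' Ioo (-δ) δ ∈ 𝓝[Z] q.1
  two : ∀ q ∈ UT Z, ∀ p ∈ UT Z, p.1 = q.1 → p = q ∨ p = (q.1, -q.2)

variable {Z : Set V3} {α : V3 × V3 → ℝ → V3 × V3} {p q : V3 × V3}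

theorem exists_GF (hZ : IsCompact Z) (hc : ∀ x ∈ Z, ∃ U F V, OC Z U F V ∧ x ∈ U) :
    ∃ α, GF Z α := by
  obtain ⟨k, k1, k2⟩ := exists_curv hZ.isClosed hc
  have hX := isCompact_ut hZ
  obtain ⟨R, R0, hR⟩ := hX.isBounded.subset_ball_lt 0 0
  let χ : ContDiffBump (0 : V3 × V3) := ⟨R, R + 1, R0, lt_add_one R⟩
  let G : V3 × V3 → V3 × V3 := fun p => χ p • (p.2, k p.1)
  have c1 : ContDiff ℝ ∞ G := χ.contDiff.smul (contDiff_snd.prodMk (k1.comp contDiff_fst))
  have c2 : HasCompactSupport G := χ.hasCompactSupport.smul_right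
  have eG : ∀ p ∈ UT Z, G p = (p.2, k p.1) := fun p hp => by
    simp only [G, χ.one_of_mem_closedBall (ball_subset_closedBall (hR hp)), one_smul]
  obtain ⟨K, hK⟩ := c1.lipschitzWith_of_hasCompactSupport c2 (by simp)
  obtain ⟨C, hC⟩ := c1.continuous.bounded_above_of_compact_support c2
  choose α a0 a1 using exists_curve (C := ⟨C, (norm_nonneg _).trans (hC 0)⟩) hC hK
  have ch : ∀ q ∈ UT Z, ∃ U F V, OC Z U F V ∧ q.1 ∈ U ∧ V q.1 = q.2 := fun q hq => by
    obtain ⟨U, F, V, h, hx⟩ := hc q.1 hq.1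
    rcases h.sign hx hq.2.2 hq.2.1 with e | e
    exacts [⟨U, F, V, h, hx, e⟩, ⟨U, F, _, h.neg, hx, e⟩]
  have cα : ∀ q, Continuous (α q) := fun q =>
    continuous_iff_continuousAt.2 fun t => (a1 q t).continuousAt
  have add : ∀ q t u, α (α q t) u = α q (t + u) := fun q t u =>
    congrFun (curve_unique hK (a1 _) (fun u => (a1 q (t + u)).comp_const_add t u) (t₀ := 0)
      (by simp [a0])) u
  have l0 : ∀ q ∈ UT Z, ∀ᶠ s in 𝓝 (0 : ℝ), α q s ∈ UT Z := fun q hq => by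
    obtain ⟨U, F, V, h, hx, e⟩ := ch q hq
    obtain ⟨c, c0, hs⟩ := h.arc hx hq.1
    have := ODE_solution_unique_of_eventually (v := fun _ => G) (s := fun _ => univ) (K := K)
      (f := α q) (g := fun s => (c s, V (c s))) (t₀ := 0) (.of_forall fun _ => hK.lipschitzOnWith)
      (.of_forall fun t => ⟨a1 q t, mem_univ _⟩) (hs.mono fun s hs => ⟨by
        rw [eG _ (h.ut hs.2.1 hs.2.2), k2 U F V h _ hs.2.1 hs.2.2]
        exact hs.1.prodMk (((h.atV hs.2.1).differentiableAt (by simp)).hasFDerivAt.comp_hasDerivAt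
          s hs.1), mem_univ _⟩) (by rw [a0, c0, e])
    filter_upwards [this, hs] with s h1 h2
    rw [h1]
    exact h.ut h2.2.1 h2.2.2
  have mem : ∀ q ∈ UT Z, ∀ t, α q t ∈ UT Z := fun q hq t => by
    have : IsClopen (α q ⁻¹' UT Z) := ⟨hX.isClosed.preimage (cα q),
      isOpen_iff_mem_nhds.2 fun u hu => by
        have c : Tendsto (fun s => s - u) (𝓝 u) (𝓝 0) :=
          (continuous_sub_right u).tendsto' u 0 (sub_self u)
        filter_upwards [c.eventually (l0 _ hu)] with s hs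
        rwa [add, add_sub_cancel] at hs⟩
    exact (this.eq_univ ⟨0, by rw [mem_preimage, a0]; exact hq⟩).ge (mem_univ t)
  have der : ∀ q ∈ UT Z, ∀ t, HasDerivAt (α q) ((α q t).2, k (α q t).1) t := fun q hq t =>
    eG _ (mem q hq t) ▸ a1 q t
  have d1 : ∀ q ∈ UT Z, ∀ t, HasDerivAt (fun t => (α q t).1) (α q t).2 t := fun q hq t =>
    (ContinuousLinearMap.fst ℝ V3 V3).hasFDerivAt.comp_hasDerivAt t (der q hq t)
  have d2 : ∀ q ∈ UT Z, ∀ t, HasDerivAt (fun t => (α q t).2) (k (α q t).1) t := fun q hq t =>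
    (ContinuousLinearMap.snd ℝ V3 V3).hasFDerivAt.comp_hasDerivAt t (der q hq t)
  have cov : ∀ q ∈ UT Z, ∀ δ > 0, (fun t => (α q t).1) '' Ioo (-δ) δ ∈ 𝓝[Z] q.1 :=
    fun q hq δ hδ => by
      obtain ⟨U, F, V, h, hx, e⟩ := ch q hq
      have := h.cover (c := fun t => (α q t).1) (by rwa [a0]) (cα q).fst
        (fun s => (mem q hq s).1) (by simpa only [a0, e] using d1 q hq 0) hδ
      simpa only [a0] using this
  refine ⟨α, ⟨mem, fun q _ => cα q, fun q _ => a0 q, fun q _ => add q, fun q hq δ hδ => ?_⟩,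
    fun q => contDiff_of_ode c1 (a1 q), d1, fun q hq t => ?_, cov, fun q hq p hp e => ?_⟩
  · obtain ⟨U, F, V, h, hx, e⟩ := ch q hq
    obtain ⟨ε, ε0, hε⟩ := Metric.eventually_nhds_iff_ball.1
      (((cα q).tendsto' 0 q (a0 q)).eventually (h.near hx e))
    have c : Tendsto Prod.fst (𝓝[UT Z] q) (𝓝[Z] q.1) :=
      continuous_fst.continuousWithinAt.tendsto_nhdsWithin fun p hp => hp.1
    filter_upwards [c (cov q hq _ (lt_min hδ ε0)), self_mem_nhdsWithin,
      nhdsWithin_le_nhds (h.near hx e)] with p ⟨s, hs, es⟩ h2 h3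
    have s1 := abs_lt.2 hs
    refine ⟨s, abs_lt.1 (s1.trans_le (min_le_left _ _)), Prod.ext es ?_⟩
    rw [← (h3 h2).2, ← (hε s (by simpa using s1.trans_le (min_le_right _ _)) (mem q hq s)).2]
    exact congrArg V es
  · refine congrFun (curve_unique hK (a1 _)
      (g := fun t => ((α q (-t)).1, -(α q (-t)).2)) (fun t => ?_) (t₀ := 0) (by simp [a0])) t
    rw [eG _ (ut_neg (mem q hq (-t)))]
    refine HasDerivAt.prodMk ?_ ?_
    · exact ((d1 q hq (-t)).scomp t (hasDerivAt_neg t)).congr_deriv (by simp)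
    · exact ((d2 q hq (-t)).scomp t (hasDerivAt_neg t)).neg.congr_deriv (by simp)
  · obtain ⟨U, F, V, h, hx, e'⟩ := ch q hq
    rcases h.sign (e ▸ hx) hp.2.2 hp.2.1 with k | k <;> rw [e, e'] at k
    exacts [.inl (Prod.ext e k.symm), .inr (Prod.ext e k.symm)]

/-- the minimal period -/
theorem GF.period (h : GF Z α) (hZ : IsCompact Z) (hq : q ∈ UT Z) :
    ∃ P : ℝ, 0 < P ∧ (∀ t, α q (t + P) = α q t) ∧ InjOn (fun t => (α q t).1) (Ico 0 P) := by
  have F := h.flw
  obtain ⟨T, T0, hT⟩ := F.periodic hq (isCompact_ut hZ) subset_rfl fun t _ => F.mem q hq t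
  have n0 : ∀ t, (α q t).2 ≠ 0 := fun t e => by simpa [e] using (F.mem q hq t).2.1
  obtain ⟨ε, ε0, hε⟩ := Metric.eventually_nhds_iff.1 (eventually_nhdsWithin_iff.1
    ((h.der q hq 0).eventually_ne (c := q.1) (n0 0)))
  have lb : ∀ s, 0 < s → α q s = q → ε ≤ s := fun s s0 e => not_lt.1 fun k =>
    hε (y := s) (by simpa [abs_of_pos s0] using k) s0.ne' (congrArg Prod.fst e)
  have eT : α q T = q := by
    have := F.add q hq (-T) T
    rwa [hT, neg_add_cancel, F.zero q hq] at this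
  have cl : IsClosed {s | ε ≤ s ∧ α q s = q} :=
    isClosed_Ici.inter (isClosed_eq (F.cont q hq) continuous_const)
  obtain ⟨⟨P1, P2⟩, P3⟩ := cl.isLeast_csInf ⟨T, lb T T0 eT, eT⟩ ⟨ε, fun s hs => hs.1⟩
  set P := sInf {s | ε ≤ s ∧ α q s = q}
  have key : ∀ s t, s < t → t - s < P → (α q t).1 ≠ (α q s).1 := fun s t st tP e => by
    rcases h.two _ (F.mem q hq s) _ (F.mem q hq t) e with k | k
    · have k1 := congrArg (fun y => α y (-s)) k
      simp only [F.add q hq, add_neg_cancel, F.zero q hq] at k1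
      exact (P3 ⟨lb _ (by linarith) k1, k1⟩).not_gt (by linarith)
    · have k1 := congrArg (fun y => (α y ((s - t) / 2)).2) k
      simp only [h.rev _ (F.mem q hq s), F.add q hq] at k1
      rw [show s + -((s - t) / 2) = t + (s - t) / 2 by ring, eq_neg_iff_add_eq_zero,
        ← two_smul ℝ, smul_eq_zero] at k1
      exact n0 _ (k1.resolve_left two_ne_zero)
  refine ⟨P, ε0.trans_le P1, fun t => by rw [add_comm, ← F.add q hq, P2], fun s hs t ht e => ?_⟩
  by_contra ne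
  rcases lt_or_gt_of_ne ne with k | k
  · exact key s t k (by linarith [hs.1, ht.2]) e.symm
  · exact key t s k (by linarith [hs.2, ht.1]) e

/-- the image of an orbit -/
def im (α : V3 × V3 → ℝ → V3 × V3) (q : V3 × V3) : Set V3 := range fun t => (α q t).1

theorem GF.im_eq (h : GF Z α) (hq : q ∈ UT Z) (hp : p ∈ UT Z) (e : p.1 ∈ im α q) :
    im α p = im α q := by
  obtain ⟨t, e⟩ := e
  have F := h.flw
  ext y
  rcases h.two _ (F.mem q hq t) p hp e.symm with rfl | rfl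
  · simp only [im, F.add q hq]
    exact ⟨fun ⟨u, k⟩ => ⟨_, k⟩, fun ⟨u, k⟩ => ⟨u - t, by simpa using k⟩⟩
  · simp only [im, h.rev _ (F.mem q hq t), F.add q hq]
    exact ⟨fun ⟨u, k⟩ => ⟨_, k⟩, fun ⟨u, k⟩ => ⟨t - u, by simpa using k⟩⟩

end OM

open OM in
theorem oneMan : OneManStmt := by
  classical
  intro Z hZ hc
  have hc' : ∀ x ∈ Z, ∃ U F V, OC Z U F V ∧ x ∈ U := fun x hx => by
    obtain ⟨U, F, h1, h2, h3, h4, h5⟩ := hc x hx
    obtain ⟨V, h⟩ := exists_OC h1 h3 h4 h5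
    exact ⟨U, F, V, h, h2⟩
  obtain ⟨α, h⟩ := exists_GF hZ hc'
  have F := h.flw
  have lift : ∀ x ∈ Z, ∃ T, (x, T) ∈ UT Z := fun x hx => by
    obtain ⟨U, F, V, k, h1⟩ := hc' x hx
    exact ⟨_, k.ut h1 hx⟩
  choose! T hT using lift
  obtain ⟨t, t1, t2⟩ := hZ.elim_nhdsWithin_subcover (fun x => im α (x, T x)) fun x hx =>
    mem_of_superset (h.cov _ (hT x hx) 1 one_pos) (image_subset_range _ _)
  set S := t.image fun x => im α (x, T x) with hS
  have ex : ∀ i : Fin S.card, ∃ q ∈ UT Z, im α q = S.equivFin.symm i := fun i => by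
    obtain ⟨x, hx, e⟩ := Finset.mem_image.1 (S.equivFin.symm i).2
    exact ⟨_, hT x (t1 x hx), e⟩
  choose q q1 q2 using ex
  choose P P0 P1 P2 using fun i => h.period hZ (q1 i)
  have l0 : ∀ i, 0 < P i / (2 * π) := fun i => div_pos (P0 i) two_pi_pos
  have eP : ∀ i, P i / (2 * π) * (2 * π) = P i := fun i => div_mul_cancel₀ _ two_pi_pos.ne'
  refine ⟨S.card, fun i θ => (α (q i) (P i / (2 * π) * θ)).1, fun i => P i / (2 * π),
    fun i => ⟨?_, fun θ => ?_, l0 i, fun θ => ?_, fun a ha b hb e => ?_⟩, fun i j ij a b e => ?_,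
    fun x => ⟨fun hx => ?_, ?_⟩⟩
  · exact ((h.sm (q i)).comp (contDiff_const.mul contDiff_id)).fst
  · simp only [mul_add, eP, P1]
  · have d := (h.der _ (q1 i) (P i / (2 * π) * θ)).scomp θ
      ((hasDerivAt_id θ).const_mul (P i / (2 * π)))
    rw [show deriv (fun θ => (α (q i) (P i / (2 * π) * θ)).1) θ = _ from d.deriv, norm_smul,
      (F.mem _ (q1 i) _).2.1, mul_one, mul_one, Real.norm_of_nonneg (l0 i).le]
  · have m : ∀ a ∈ Ico 0 (2 * π), P i / (2 * π) * a ∈ Ico 0 (P i) := fun a ha =>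
      ⟨mul_nonneg (l0 i).le ha.1, (mul_lt_mul_of_pos_left ha.2 (l0 i)).trans_eq (eP i)⟩
    exact mul_left_cancel₀ (l0 i).ne' (P2 i (m a ha) (m b hb) e)
  · have k1 := h.im_eq (q1 i) (F.mem _ (q1 i) (P i / (2 * π) * a)) ⟨_, rfl⟩
    have k2 := h.im_eq (q1 j) (F.mem _ (q1 i) (P i / (2 * π) * a)) ⟨_, e.symm⟩
    exact ij (S.equivFin.symm.injective (Subtype.ext ((q2 i).symm.trans
      ((k1.symm.trans k2).trans (q2 j)))))
  · obtain ⟨y, hy, k⟩ := mem_iUnion₂.1 (t2 hx)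
    have k' : x ∈ im α (q (S.equivFin ⟨_, Finset.mem_image_of_mem _ hy⟩)) := by
      rw [q2, Equiv.symm_apply_apply]
      exact k
    generalize S.equivFin ⟨_, Finset.mem_image_of_mem _ hy⟩ = i at k'
    obtain ⟨u, e⟩ := k'
    refine ⟨i, u / (P i / (2 * π)), ?_⟩
    simp only [mul_div_cancel₀ _ (l0 i).ne']
    exact e.symm
  · rintro ⟨i, θ, rfl⟩
    exact (F.mem _ (q1 i) _).1

end Vale.Agent.P218N.C
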