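import Vale.Agent.P218N.C.Sec1
import Vale.Agent.P218N.CM.Jet

/-! Good cross sections for the multiplicity one theorems. -/

open MeasureTheory Set Filter Topology Metric Real
open scoped ENNReal NNReal RealInnerProductSpace ContDiff

namespace Vale.Agent.P218N.C

open Vale.Agent.P218.H313 Vale.Agent.P218N.H Vale.Agent.P218N.B Vale.Agent.P218N.B.Lim
open Vale.Agent.P218GA (cH cH_pos')

namespace Sec

lemma small (A : ℝ) {B : ℝ} (hB : 0 < B) : ∀ᶠ ε in 𝓝 (0 : ℝ), A * ε < B :=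
  (continuous_const.mul continuous_id).continuousAt.eventually_lt continuousAt_const
    (by simpa using hB)

lemma abs_grad {W : E3 → ℝ} (hW : ContDiff ℝ ∞ W) {x : E3} (hx : W x = 0) (h : grad W x ≠ 0) :
    |⟪nu (zs W) x, grad W x⟫| = ‖grad W x‖ := by
  obtain ⟨σ, h1, h2, -⟩ := (locDef_level hW).exists_sign h hx
  rw [show nu (zs W) x = _ from h2, real_inner_smul_left, inner_nuW_grad h, abs_mul, abs_norm,
    abs_eq_abs.2 (mul_self_eq_one_iff.1 h1 |>.imp id fun h => by rw [h]), abs_one, one_mul]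

lemma arith {k k' : ℕ} {u v x m I J : ℝ} (huv : u < v) (hv : 0 ≤ v) (d4 : u ≤ J) (d5 : J ≤ v)
    (g3 : |I - k * J| < ((k + 1) * u - k * v) / 2) (e4 : (k + 1) * x < ((k + 1) * u - k * v) / 2)
    (e5 : m < ((k + 1) * u - k * v) / 2) (b4 : k' * (u - x) ≤ I) (b5 : I ≤ k' * v + m) :
    k' = k := by
  obtain ⟨g1, g2⟩ := abs_lt.1 g3
  have k0 : (0 : ℝ) ≤ k := k.cast_nonneg
  have k1 := mul_le_mul_of_nonneg_left d4 k0
  have k2 := mul_le_mul_of_nonneg_left d5 k0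
  have k3 := mul_nonneg k0 hv
  refine le_antisymm (not_lt.1 fun a1 => ?_) (not_lt.1 fun a1 => ?_)
  · have a2 : (k : ℝ) + 1 ≤ k' := by exact_mod_cast a1
    have a3 : 0 < (k + 1) * (u - x) := by linarith
    have a4 := mul_le_mul_of_nonneg_right a2 (pos_of_mul_pos_right a3 (by positivity)).le
    linarith
  · have a2 : (k' : ℝ) + 1 ≤ k := by exact_mod_cast a1
    have a4 := mul_le_mul_of_nonneg_right a2 hv
    linarith

/-- **the number of sheets is the multiplicity** -/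
theorem count (hCov : CovStmt) (hSh : SheetStmt) (hH : HoleMassStmt) {ι : Type}
    {U : Ultrafilter ι} {M : ι → Set E3} {Λ : ℝ} {W : E3 → ℝ} {k : ℕ} (hW : ContDiff ℝ ∞ W)
    (hne : ∀ x, W x = 0 → grad W x ≠ 0) (hM : Seq U M ((k : ℝ≥0∞) • mu (zs W)) Λ) {p y n : E3}
    (hp : W p = 0) (hn : n = nuW W p) (hy : ‖y‖ = 1) (hyn : ⟪n, y⟫ = 0)
    (h1 : ∀ t : ℝ, |t| ≤ 1 → W (p + t • n) = 0 → t = 0) :
    ∃ h : ℝ, 0 < h ∧ h ≤ 1 ∧ ∀ R δ : ℝ, 0 < δ → ∀ᶠ i in (U : Filter ι), ∃ t₀ ∈ Icc (0 : ℝ) 1,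
      (∀ x ∈ M i, ‖x‖ ≤ R → ⟪y, x - p⟫ = t₀ →
        |W x| < δ ∧ (1 - δ) * ‖grad W x‖ < |⟪nu (M i) x, grad W x⟫|) ∧
      {t : ℝ | |t| ≤ h ∧ p + (t₀ • y + t • n) ∈ M i}.ncard = k := by
  obtain ⟨β, ⟨hβ, hβ0⟩, hβ1⟩ : ∃ β : ℝ, ((k : ℝ) < (k + 1) * β ^ 3 ∧ 0 < β) ∧ β < 1 := by
    have h2 : ∀ᶠ β in 𝓝 (1 : ℝ), (k : ℝ) < (k + 1) * β ^ 3 :=
      continuousAt_const.eventually_lt (by fun_prop) (by simp)
    exact (((h2.and (lt_mem_nhds one_pos)).filter_mono (nhdsWithin_le_nhds (s := Iio 1))).and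
      self_mem_nhdsWithin).exists
  obtain ⟨f, rfl⟩ := exists_frame (m := 2) finrank_E3 (n := n) (hn ▸ norm_nuW (hne p hp))
  obtain ⟨ρ, h, δ₀, hρ, hρ1, hh, hh1, hδ₀, hg⟩ := geom hW (hne p hp) hn h1 hβ1
  obtain ⟨c₀, C, L, hc₀, hC, hL, hS⟩ := hSh 1 1 β one_pos one_pos hβ0
  obtain ⟨C', r₀, hC', hr₀, hm⟩ := hH Λ 1 h hM.pos one_pos hh
  have hβρ : β * ρ < ρ := mul_lt_of_lt_one_left hρ hβ1
  have hh2 := half_lt_self hh
  obtain ⟨φ, hφ, hφc, hsw⟩ := sandwich (isCompact_tube (f := f) (p := p) (β * ρ) (h / 2))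
    (f.isOpen_cyl p ρ h) fun x hx =>
      ⟨(mem_closedBall_zero_iff.1 hx.1).trans_lt hβρ, hx.2.trans_lt hh2⟩
  have hc := cH_pos' 2
  have hπ := pi_pos
  have key : ∀ (N K : Set E3) (ε m : ℝ), Surf N → IsClosed N → ε ≤ c₀ → C * ε ≤ 1 → Cov K ε →
      0 ≤ m → (∀ s : Finset (E2 × ℝ), (∀ c ∈ s, 0 < c.2) → ∑ c ∈ s, c.2 ≤ C * ε →
        mu N (f.cyl p ρ h \ tube f p (GG ρ s) h) ≤ ENNReal.ofReal m) →
      (∀ x ∈ N, x ∈ tube f p (ball 0 (2 * ρ)) h → x ∉ K →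
        |W x| < δ₀ ∧ (1 - δ₀) * ‖grad W x‖ ≤ |⟪nu N x, grad W x⟫|) →
      ∃ (s : Finset (E2 × ℝ)) (k' : ℕ), (∀ c ∈ s, 0 < c.2) ∧ ∑ c ∈ s, c.2 ≤ C * ε ∧
        (∀ z ∈ GG ρ s, {t | |t| ≤ h ∧ Ph f p (z, t) ∈ N}.ncard = k') ∧
        k' * (cH 2 * ((β * ρ) ^ 2 * π - 9 * π * (C * ε))) ≤ ∫ x, φ x ∂(mu N) ∧
        ∫ x, φ x ∂(mu N) ≤ k' * (cH 2 / β * (ρ ^ 2 * π)) + m := by
    intro N K ε m a1 a2 a3 a4 a5 a6 a7 a8
    have a9 : ∀ z ∈ ball (0 : E2) (2 * ρ), ∀ t, |t| ≤ h → Ph f p (z, t) ∈ N → Ph f p (z, t) ∉ K →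
        |t| ≤ h / 2 ∧ β ≤ |⟪nu N (Ph f p (z, t)), f.n⟫| := fun z hz t ht b1 b2 => by
      obtain ⟨b3, b4⟩ := a8 _ b1 ⟨by rwa [π_Ph], by rwa [inner_Ph]⟩ b2
      exact hg z hz t ht _ (a1.norm_nu b1) b3 b4
    obtain ⟨s, k', τ, b1, S⟩ := hS ⊤ N K (Ph f p) ρ (h / 2) h ε le_top a1 a2 contDiff_Ph hρ
      (by positivity) hh2 a3 a5 (fun z _ z' _ t t' _ _ => norm_le_Ph z z' t t')
      (fun z _ t _ v => by rw [fderiv_Ph, zero_smul, add_zero, f.norm_ι, one_mul])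
      fun z hz t ht b1 b2 => by
        rw [fderiv_Ph, map_zero, zero_add, one_smul]
        exact a9 z hz t ht b1 b2
    obtain ⟨b2, b3⟩ := hsw (mu N) (a1.finiteOnCompacts finrank_E3 a2)
    exact ⟨s, k', S.pos, b1, fun z hz => sh_ncard S hh2 hz,
      b2 _ (mass_ge a1 S hh2 (by positivity) hβρ b1 a4),
      b3 _ (by positivity) (mass_le a1 S hh2 hρ.le hβ0 a6 (fun z hz t ht c1 c2 =>
        (a9 z (ball_subset_ball (by linarith) hz) t ht c1 c2).2) (a7 s S.pos b1))⟩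
  obtain ⟨s₀, k₀, d1, d2, d3, d4, d5⟩ := key (zs W) ∅ 0 0 (surf_level hW hne)
    (isClosed_eq hW.continuous continuous_const) hc₀.le (by simp) cov_empty le_rfl
    (fun s e1 e2 => by
      simpa using mass_holes (f := f) (p := p) (ρ := ρ) (h := h) (M := zs W) e1 one_pos e2
        fun z r e3 e4 => absurd e4 (by simpa using e3))
    fun x hx _ _ => by
      rw [abs_grad hW hx (hne x hx), show W x = 0 from hx, abs_zero]
      exact ⟨hδ₀, mul_le_of_le_one_left (norm_nonneg _) (by linarith)⟩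
  have hk₀ : k₀ = 1 := by
    rw [← d3 0 ⟨mem_ball_self hρ, fun e1 => ?_⟩, ← ncard_singleton (0 : ℝ)]
    · congr 1
      ext t
      have e2 : Ph f p (0, t) = p + t • f.n := by simp [Ph]
      rw [mem_ofPred_eq, e2, mem_singleton_iff]
      exact ⟨fun e3 => h1 t (e3.1.trans hh1) e3.2, fun e3 => by simpa [e3, hh.le, zs] using hp⟩
    · obtain ⟨c, e2, -⟩ := mem_iUnion₂.1 e1
      have := Finset.single_le_sum (fun c hc => (d1 c hc).le) e2
      linarith [d1 c e2]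
  obtain ⟨u, hu⟩ : ∃ u : ℝ, u = cH 2 * ((β * ρ) ^ 2 * π) := ⟨_, rfl⟩
  obtain ⟨v, hv⟩ : ∃ v : ℝ, v = cH 2 / β * (ρ ^ 2 * π) := ⟨_, rfl⟩
  have huv : u = β ^ 3 * v := by rw [hu, hv]; field_simp
  have hv0 : 0 < v := by rw [hv]; positivity
  have huv' : u < v := huv ▸ mul_lt_of_lt_one_left hv0 (pow_lt_one₀ hβ0.le hβ1 (by norm_num))
  have hgap : 0 < ((k + 1) * u - k * v) / 2 := by
    rw [huv, ← mul_assoc, ← sub_mul]
    exact half_pos (mul_pos (sub_pos.2 hβ) hv0)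
  simp only [hk₀, Nat.cast_one, one_mul, mul_zero, sub_zero, add_zero, ← hu, ← hv] at d4 d5
  have hlim := hM.lim φ hφ hφc
  rw [integral_smul_measure, ENNReal.toReal_natCast, smul_eq_mul] at hlim
  obtain ⟨ε, ⟨⟨e1, e2, e3⟩, e4, e5⟩, hε⟩ := ((((small 1 (lt_min hc₀ one_pos)).and
    ((small C (lt_min hr₀ one_pos)).and (small (2 + 2 * C) (half_pos hρ)))).and
    ((small ((k + 1) * (cH 2 * (9 * π * C))) hgap).and (small (C' * C) hgap))).filter_mono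
      (nhdsWithin_le_nhds (s := Ioi 0))).and self_mem_nhdsWithin |>.exists
  have hε0 : 0 < ε := hε
  rw [one_mul, lt_min_iff] at e1
  rw [lt_min_iff] at e2
  refine ⟨h, hh, hh1, fun R δ hδ => ?_⟩
  have hκ : ((k : ℝ≥0∞) • mu (zs W)) {x | W x ≠ 0} = 0 := by
    rw [Measure.smul_apply, Measure.restrict_apply' (s := zs W) (surf_level hW hne).measurableSet,
      show {x | W x ≠ 0} ∩ zs W = ∅ from eq_empty_of_forall_notMem fun x hx => hx.1 hx.2,
      measure_empty, smul_zero]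
  filter_upwards [hCov ι U M _ Λ hM W (contDiff_two hW) hne hκ (max R (‖p‖ + 2 * ρ + h))
    (min δ δ₀) ε (lt_min hδ hδ₀) hε0, hM.good, Metric.tendsto_nhds.1 hlim _ hgap]
    with i g1 g2 g3
  have g4 : ∀ x ∈ M i, ‖x‖ ≤ max R (‖p‖ + 2 * ρ + h) → x ∉ {x | x ∈ M i ∧
      ‖x‖ ≤ max R (‖p‖ + 2 * ρ + h) ∧ (min δ δ₀ ≤ |W x| ∨
        |⟪nu (M i) x, grad W x⟫| ≤ (1 - min δ δ₀) * ‖grad W x‖)} → ∀ d, min δ δ₀ ≤ d →
      |W x| < d ∧ (1 - d) * ‖grad W x‖ < |⟪nu (M i) x, grad W x⟫| := fun x a1 a2 a3 d a4 => by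
    have a5 := not_or.1 fun a5 => a3 ⟨a1, a2, a5⟩
    exact ⟨(not_le.1 a5.1).trans_le a4, lt_of_le_of_lt (by gcongr) (not_le.1 a5.2)⟩
  obtain ⟨s, k', b1, b2, b3, b4, b5⟩ := key (M i) _ ε (C' * (C * ε)) g2.surf g2.closed e1.1.le
    e2.2.le g1 (by positivity) (fun s a1 a2 => mass_holes a1 hC' a2 fun z r a3 a4 =>
      hm (M i) (Ph f p) univ z r g2 a3 (a4.trans e2.1.le) fun y _ y' _ t t' _ _ => Ph_lip y y' t t')
    fun x a1 a2 a3 => (g4 x a1 ((mem_ball_zero_iff.1 (tube_subset subset_rfl a2)).le.trans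
      (le_max_right _ _)) a3 _ (min_le_right _ _)).imp_right le_of_lt
  have hk : k' = k := arith (x := cH 2 * (9 * π * (C * ε))) huv' hv0.le d4 d5 g3
    (lt_of_eq_of_lt (by ring) e4) (lt_of_eq_of_lt (by ring) e5)
    (by rw [hu, ← mul_sub]; exact b4) (hv ▸ b5)
  obtain ⟨s₁, c1, c2, c3⟩ := g1
  have c4 : ∑ c ∈ s₁, c.2 ≤ ε := by
    refine (Finset.sum_le_sum fun c hc => ?_).trans c2
    have a1 := Finset.single_le_sum (f := fun c : E3 × ℝ => √c.2) (fun _ _ => sqrt_nonneg _) hc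
    exact (Real.mul_self_sqrt (c1 c hc).le).symm.le.trans
      (mul_le_of_le_one_right (sqrt_nonneg _) ((a1.trans c2).trans e1.2.le))
  obtain ⟨t₀, ht₀, c5, c6⟩ := avoid s₁ (fun c => ⟪y, c.1 - p⟫) (fun c => c.2) s
    (fun c => ⟪f.π y, c.1⟫) (fun c => c.2) (fun c hc => (c1 c hc).le) (fun c hc => (b1 c hc).le)
    c4 b2 (τ := ρ / 2) (by linarith)
  have hι : f.ι (f.π y) = y := by rw [f.ι_π, hyn, zero_smul, sub_zero]
  have hy2 : ‖f.π y‖ = 1 := by rw [← f.norm_ι, hι, hy]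
  refine ⟨t₀, ⟨ht₀.1, by linarith [ht₀.2]⟩, fun x a1 a2 a3 => g4 x a1 (a2.trans (le_max_left _ _))
    (fun a4 => ?_) _ (min_le_left _ _), ?_⟩
  · obtain ⟨c, a5, a6⟩ := mem_iUnion₂.1 (c3 a4)
    have a7 := c5 c a5
    have a8 := abs_real_inner_le_norm y (x - c.1)
    rw [← a3, ← inner_sub_right, sub_sub_sub_cancel_right] at a7
    rw [hy, one_mul, ← dist_eq_norm] at a8
    exact (a7.trans_le a8).not_gt a6
  · rw [← hk, ← b3 (t₀ • f.π y) ⟨?_, fun a1 => ?_⟩]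
    · simp only [Ph, map_smul, hι]
    · rw [mem_ball_zero_iff, norm_smul, hy2, mul_one, Real.norm_of_nonneg ht₀.1]
      linarith [ht₀.2]
    · obtain ⟨c, a5, a6⟩ := mem_iUnion₂.1 a1
      have a7 := c6 c a5
      have a8 := abs_real_inner_le_norm (f.π y) (t₀ • f.π y - c.1)
      rw [hy2, one_mul, ← dist_eq_norm, inner_sub_right, real_inner_smul_right,
        real_inner_self_eq_norm_sq, hy2, one_pow, mul_one] at a8
      exact (a7.trans_le a8).not_ge a6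

lemma often {P : ℝ → ℝ → Prop} (hG : GoodStmt) {Λ : ℝ} {w : E3 → ℝ} (hw : Shk Λ w) (y : E3)
    (h : ∀ L, 3 ≤ L → ∀ (U : Ultrafilter ℕ) (a ρ : ℕ → ℝ), Tendsto a U atTop →
      (∀ᶠ i in (U : Filter ℕ), a i ≤ ρ i ∧ ρ i ≤ 2 * a i) →
      Tendsto (fun i => ρ i ^ 2 * Dis w y 0 (ρ i)) U (𝓝 0) →
      ∀ᶠ i in (U : Filter ℕ), ∃ t ∈ Icc (0 : ℝ) 1, P L (ρ i + t)) : Often3 P := by
  intro L η hL hη
  by_contra hn
  push Not at hn
  choose a h1 h2 using fun n : ℕ => hn n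
  have h0 : 0 < min η 1 := lt_min hη one_pos
  obtain ⟨ρ, h3, h4⟩ := hG Λ w hw y 1 (1 + min η 1 / 2) one_pos (by linarith)
  have ha : Tendsto a (Ultrafilter.of (atTop : Filter ℕ)) atTop :=
    (tendsto_atTop_mono h1 tendsto_natCast_atTop_atTop).mono_left (Ultrafilter.of_le _)
  obtain ⟨i, ⟨t, ht, hP⟩, h5, h6⟩ := ((h L hL _ a (fun i => ρ (a i)) ha (by
    filter_upwards [ha.eventually_gt_atTop 0] with i hi
    obtain ⟨k1, k2⟩ := h3 _ hi
    exact ⟨by linarith, by nlinarith [min_le_right η 1]⟩) (h4.comp ha)).and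
      ((ha.eventually_gt_atTop 0).and (ha.eventually_ge_atTop (2 / η)))).exists
  obtain ⟨k1, k2⟩ := h3 _ h5
  rw [div_le_iff₀ hη] at h6
  exact h2 i _ (by linarith [ht.1]) (by nlinarith [min_le_left η 1, ht.2]) hP

lemma lf {W : E3 → ℝ} (hW : ContDiff ℝ ∞ W) (hne : ∀ x, W x = 0 → grad W x ≠ 0) (k : ℕ) :
    IsLocallyFiniteMeasure ((k : ℝ≥0∞) • mu (zs W)) := by
  have : IsFiniteMeasureOnCompacts (mu (zs W)) := (surf_level hW hne).finiteOnCompacts finrank_E3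
    (isClosed_eq hW.continuous continuous_const)
  have := IsFiniteMeasureOnCompacts.smul (mu (zs W)) (ENNReal.natCast_ne_top k)
  infer_instance

lemma abs_nu {w : E3 → ℝ} (hw : Shr w) {c v : E3} (hv : w (c + v) = 0) (u : E3) :
    |⟪nu (shf (zs w) c) v, u⟫| = |⟪nuW w (c + v), u⟫| := by
  have h1 : ContDiff ℝ ∞ fun v => w (c + v) := hw.smooth.comp (contDiff_const.add contDiff_id)
  have h2 : grad (fun v => w (c + v)) v = grad w (c + v) :=
    grad_unique fun u => by rw [fderiv_comp_add_left, inner_grad]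
  obtain ⟨σ, h3, h4, -⟩ := (locDef_level h1).exists_sign (x := v)
    (by rw [mem_ofPred_eq, h2]; exact hw.ne _ hv) hv
  rw [show nu (shf (zs w) c) v = _ from h4, real_inner_smul_left, abs_mul, nuW, h2, ← nuW,
    abs_eq_abs.2 (mul_self_eq_one_iff.1 h3 |>.imp id fun h => by rw [h]), abs_one, one_mul]

lemma exists_mid {y e : E3} (hy : ‖y‖ = 1) (he : ‖e‖ = 1) (h : ⟪e, y⟫ = 0) :
    ∃ y', CM.Fr y y' e := by
  obtain ⟨b, hb⟩ := Orthonormal.exists_orthonormalBasis_extension_of_card_eq (𝕜 := ℝ) (ι := Fin 3)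
    (E := E3) (by simp) (v := ![y, y, e]) (s := {0, 2}) (by
      rw [orthonormal_iff_ite]
      rintro ⟨i, rfl | rfl⟩ ⟨j, rfl | rfl⟩ <;>
        simp [hy, he, h, real_inner_comm e y ▸ h, Fin.ext_iff, Subtype.ext_iff])
  refine ⟨b 1, CM.Fr.of ?_⟩
  have : ![y, b 1, e] = b := by
    ext1 i
    fin_cases i
    · exact (hb 0 (Or.inl rfl)).symm
    · rfl
    · exact (hb 2 (Or.inr rfl)).symm
  rw [this]
  exact b.orthonormal

lemma pt_add (y y' n : E3) (r a b c : ℝ) : CM.pt y y' n (r + a) b c = r • y + CM.pt y y' n a b c := by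
  simp only [CM.pt, add_smul, add_assoc]

lemma norm_pt {y y' n : E3} (F : CM.Fr y y' n) {a b c L : ℝ} (ha : a ∈ Icc (0 : ℝ) 1)
    (hb : |b| ≤ L) (hc : |c| ≤ L) : ‖CM.pt y y' n a b c‖ ≤ 1 + 2 * L := by
  refine norm_add₃_le.trans ?_
  simp only [norm_smul, F.norm_e, F.norm_y, F.norm_n, mul_one, Real.norm_eq_abs, abs_of_nonneg ha.1]
  linarith [ha.2]

end Sec

open Sec

/-- **good cross sections, planar case** -/
theorem secP (hG : GoodStmt) (hS : SeqStmt) (hCov : CovStmt) (hSh : SheetStmt)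
    (hH : HoleMassStmt) : SecPStmt := by
  intro Λ b w hw y k hy hP
  refine often hG hw.shk y fun L hL U a ρ ha hρ hD => ?_
  obtain ⟨e, he, hey, hlim⟩ := hP ℕ U a ha
  have hl := hlim ρ (by
    filter_upwards [hρ, ha.eventually_ge_atTop 0] with i h1 h2
    exact ⟨by linarith [h1.1], by linarith [h1.2]⟩)
  have hW : ContDiff ℝ ∞ fun x : E3 => ⟪e, x⟫ := contDiff_const.inner ℝ contDiff_id
  have hg : ∀ x, grad (fun x : E3 => ⟪e, x⟫) x = e := fun x =>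
    grad_unique fun v => congrArg (fun L : E3 →L[ℝ] ℝ => L v) (innerSL ℝ e).fderiv
  have hne : ∀ x : E3, ⟪e, x⟫ = 0 → grad (fun x : E3 => ⟪e, x⟫) x ≠ 0 := fun x _ => by
    rw [hg, ← norm_ne_zero_iff, he]; exact one_ne_zero
  obtain ⟨y', F⟩ := exists_mid hy he hey
  obtain ⟨h, hh, hh1, hc⟩ := count hCov hSh hH hW hne
    (hS Λ b w hw y ℕ U ρ _ (lf hW hne k) hD hl) (p := 0) (n := e) (by simp)
    (by rw [nuW, hg, he, inv_one, one_smul]) hy hey
    fun t _ ht => by simpa [inner_smul_right, he] using ht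
  filter_upwards [hc (1 + 2 * L) (min h (1 / 10)) (by positivity)] with i ⟨t, ht, k1, k2⟩
  have k3 : ∀ b c, |b| ≤ L → |c| ≤ L → w (CM.pt y y' e (ρ i + t) b c) = 0 →
      |c| < min h (1 / 10) ∧ 1 / 2 ≤ |⟪nuW w (CM.pt y y' e (ρ i + t) b c), e⟫| := by
    intro b c hb hc h0
    rw [pt_add] at h0 ⊢
    obtain ⟨k4, k5⟩ := k1 _ h0 (norm_pt F ht hb hc) (by rw [sub_zero, F.e_pt])
    rw [F.n_pt] at k4
    rw [hg, he, abs_nu hw.shk.shr h0] at k5
    exact ⟨k4, by linarith [min_le_right h (1 / 10)]⟩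
  refine ⟨t, ht, y', e, F.on, fun b c hb hc h0 => (k3 b c hb hc h0).imp_left
    fun k4 => k4.le.trans (min_le_right _ _), 0, by rw [abs_zero]; linarith, ?_⟩
  rw [← k2]
  congr 1
  ext c
  have e1 : CM.pt y y' e (ρ i + t) 0 c = ρ i • y + (0 + (t • y + c • e)) := by
    simp [CM.pt, add_smul, add_assoc]
  exact ⟨fun k4 => ⟨(k3 0 c (by rw [abs_zero]; linarith) k4.1 k4.2).1.le.trans (min_le_left _ _),
    (congrArg w e1).symm.trans k4.2⟩, fun k4 => ⟨by linarith [k4.1], (congrArg w e1).trans k4.2⟩⟩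

/-- **good cross sections, cylindrical case** -/
theorem secC (hG : GoodStmt) (hS : SeqStmt) (hCov : CovStmt) (hSh : SheetStmt)
    (hH : HoleMassStmt) : SecCStmt := by
  intro Λ b w hw y y' n k ho hP
  have F := CM.Fr.of ho
  refine often hG hw.shk y fun L hL U a ρ ha hρ hD => ?_
  have hW : ContDiff ℝ ∞ fun x : E3 => ‖perp y x‖ ^ 2 - 2 :=
    ((perp y).contDiff.norm_sq ℝ).sub contDiff_const
  have hg : ∀ x, grad (fun x : E3 => ‖perp y x‖ ^ 2 - 2) x = (2 : ℝ) • perp y x := fun x =>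
    grad_unique fun v => by
      rw [((perp y).hasFDerivAt.norm_sq.sub_const 2).fderiv, real_inner_smul_left,
        ← perp_perp F.norm_e x, inner_perp_left, perp_perp F.norm_e]
      simp
  have hne : ∀ x : E3, ‖perp y x‖ ^ 2 - 2 = 0 →
      grad (fun x : E3 => ‖perp y x‖ ^ 2 - 2) x ≠ 0 := fun x hx h0 => by
    rw [hg, smul_eq_zero_iff_right two_ne_zero] at h0
    simp [h0] at hx
  have hz : cylS y = zs fun x : E3 => ‖perp y x‖ ^ 2 - 2 := by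
    ext x; simp only [cylS, zs, mem_ofPred_eq, sub_eq_zero]
  have hl : WLim U (fun i => tm w y (ρ i)) ((k : ℝ≥0∞) • mu (zs fun x => ‖perp y x‖ ^ 2 - 2)) :=
    fun φ h1 h2 => hz ▸ (hP φ h1 h2).comp (tendsto_atTop_mono' _ (hρ.mono fun i h => h.1) ha)
  have s1 : (1 : ℝ) ≤ √2 := Real.one_le_sqrt.2 one_le_two
  have s2 : √2 * √2 = 2 := Real.mul_self_sqrt two_pos.le
  have hpy : ∀ r : ℝ, perp y (r • y') = r • y' := fun r =>
    perp_of_inner (by rw [real_inner_smul_right, F.ey, mul_zero])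
  obtain ⟨h, hh, hh1, hc⟩ := count hCov hSh hH hW hne
    (hS Λ b w hw y ℕ U ρ _ (lf hW hne k) hD hl) (p := √2 • y') (n := y')
    (by rw [hpy, norm_smul, F.norm_y]; simp)
    (by
      rw [nuW, hg, hpy, smul_smul 2, norm_smul, F.norm_y, mul_one, smul_smul,
        Real.norm_of_nonneg (by positivity), inv_mul_cancel₀ (by positivity), one_smul])
    F.norm_e F.ye fun t h1 h2 => by
      rw [← add_smul, hpy, norm_smul, F.norm_y, mul_one, Real.norm_eq_abs, sq_abs] at h2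
      have h3 : t * (t + 2 * √2) = 0 := by linarith
      exact (mul_eq_zero.1 h3).resolve_right (by linarith [(abs_le.1 h1).1])
  filter_upwards [hc (1 + 2 * L) (min h (1 / 10)) (by positivity)] with i ⟨t, ht, k1, k2⟩
  have k3 : ∀ θ r, 0 ≤ r → r ≤ L → w (CM.pt y y' n (ρ i + t) (r * cos θ) (r * sin θ)) = 0 →
      |r - √2| ≤ min h (1 / 10) ∧ 1 / 2 ≤ |⟪nuW w (CM.pt y y' n (ρ i + t) (r * cos θ)
        (r * sin θ)), cos θ • y' + sin θ • n⟫| := by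
    intro θ r hr hrL h0
    rw [pt_add] at h0 ⊢
    have k4 : ∀ c : ℝ, |c| ≤ 1 → |r * c| ≤ L := fun c hc => by
      rw [abs_mul, abs_of_nonneg hr]
      exact (mul_le_of_le_one_right hr hc).trans hrL
    have k5 : perp y (CM.pt y y' n t (r * cos θ) (r * sin θ)) = r • (cos θ • y' + sin θ • n) := by
      rw [perp_apply, F.e_pt, CM.pt, smul_add, smul_smul, smul_smul]; abel
    have k6 : ‖cos θ • y' + sin θ • n‖ = 1 := CM.norm_of_inner (by
      simp only [inner_add_left, inner_add_right, real_inner_smul_left, real_inner_smul_right,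
        F.yy, F.nn, F.yn, F.ny]
      linarith [cos_sq_add_sin_sq θ])
    obtain ⟨k7, k8⟩ := k1 _ h0 (norm_pt F ht (k4 _ (abs_cos_le_one θ)) (k4 _ (abs_sin_le_one θ)))
      (by rw [inner_sub_right, F.e_pt, real_inner_smul_right, F.ey, mul_zero, sub_zero])
    rw [k5, norm_smul, k6, mul_one, Real.norm_of_nonneg hr,
      show r ^ 2 - 2 = (r - √2) * (r + √2) by linarith, abs_mul,
      abs_of_nonneg (by positivity : 0 ≤ r + √2)] at k7
    rw [hg, k5, smul_smul, norm_smul, k6, real_inner_smul_right, abs_mul, abs_nu hw.shk.shr h0,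
      mul_one, Real.norm_eq_abs, mul_comm] at k8
    refine ⟨le_trans (le_mul_of_one_le_right (abs_nonneg _) (by linarith)) k7.le, ?_⟩
    linarith [lt_of_mul_lt_mul_left k8 (abs_nonneg _), min_le_right h (1 / 10)]
  refine ⟨t, ht, fun θ r h1 h2 h0 => (k3 θ r h1 h2 h0).imp_left
    fun k4 => k4.trans (min_le_right _ _), 0, ?_⟩
  refine Eq.trans ?_ ((ncard_image_of_injective _ (add_right_injective √2)).trans k2)
  congr 1
  ext r
  have e1 : CM.pt y y' n (ρ i + t) (r * cos 0) (r * sin 0)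
      = ρ i • y + (√2 • y' + (t • y + (r - √2) • y')) := by
    rw [cos_zero, sin_zero, mul_one, mul_zero, CM.pt, add_smul, sub_smul, zero_smul]; abel
  constructor
  · exact fun k4 => ⟨r - √2, ⟨(k3 0 r k4.1 k4.2.1 k4.2.2).1.trans (min_le_left _ _),
      (congrArg w e1).symm.trans k4.2.2⟩, by simp⟩
  · rintro ⟨c, ⟨k4, k5⟩, rfl⟩
    have k6 := abs_le.1 (k4.trans hh1)
    refine ⟨by linarith, by linarith [le_mul_of_one_le_right (zero_le_one.trans s1) s1], ?_⟩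
    rw [e1, add_sub_cancel_left]
    exact k5

end Vale.Agent.P218N.C
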