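import Vale.Agent.P218N.C.Cone
import Vale.Agent.P218N.C.One
import Vale.Agent.P218N.C.Cyl
import Vale.Agent.P218N.C.Iso
import Vale.Agent.P218N.C.Sec
import Vale.Agent.P218N.C.Class
import Vale.Agent.P218N.B.CovT
import Vale.Agent.P218N.B.Sheet
import Vale.Agent.P218N.B.HoleMass

/-! Block C: the parts which are already proved. -/

namespace Vale.Agent.P218N.C

open Vale.Agent.P218N.B

theorem coneEnd : ConeEndStmt := coneEnd_of oneMan

theorem ends_of' (hS : StructStmt) (hMP : MultP3) (hMC : MultC3) (hCl : ClearStmt) (hR : RatStmt)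
    (hCh : ChartStmt) : EndsStmt :=
  ends_of (classStmt' hS) (secP good seq covStmt sheetStmt holeMassStmt)
    (secC good seq covStmt sheetStmt holeMassStmt) hMP hMC hCl hR hCh
    (cylEnd impl implSm interp) iso coneEnd

end Vale.Agent.P218N.C
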