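import Vale.Agent.P218N.C.Stmt

/-! Block C: the assembly of the ends from the sub-results. -/

open MeasureTheory Set Filter Topology Metric Real
open scoped ENNReal NNReal RealInnerProductSpace ContDiff

namespace Vale.Agent.P218N.C

open Vale.Agent.P218.H313 Vale.Agent.P218N.H Vale.Agent.P218N.B Vale.Agent.P218N.GB

variable {w : E3 → ℝ} {y : E3}

lemma exists_on3 (hy : ‖y‖ = 1) : ∃ y' n : E3, Orthonormal ℝ ![y, y', n] := by
  obtain ⟨f, hf⟩ := exists_frame (m := 2) finrank_E3 hy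
  refine ⟨f.ι (EuclideanSpace.single 0 1), f.ι (EuclideanSpace.single 1 1), ?_⟩
  subst hf
  rw [orthonormal_iff_ite]
  intro i j
  fin_cases i <;> fin_cases j <;>
    simp [f.inner_ι, f.inner_ι_n, f.inner_n_ι, f.norm_n, f.norm_ι,
      EuclideanSpace.inner_single_left]

lemma norm_dir {x : E3} (hx : x ≠ 0) : ‖dir x‖ = 1 := by
  rw [dir, norm_smul, norm_inv, norm_norm, inv_mul_cancel₀ (norm_ne_zero_iff.2 hx)]

lemma smul_dir (x : E3) : ‖x‖ • dir x = x := by
  rcases eq_or_ne x 0 with rfl | hx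
  · simp
  · rw [dir, smul_smul, mul_inv_cancel₀ (norm_ne_zero_iff.2 hx), one_smul]

lemma Emp.eventually (h : Emp w y) : ∀ᶠ y' in 𝓝 y, Emp w y' := by
  obtain ⟨δ, R, h0, h⟩ := h
  filter_upwards [ball_mem_nhds y (half_pos h0)] with y' hy'
  refine ⟨δ / 2, R, half_pos h0, fun x hx hR => ?_⟩
  have h1 := h x hx hR
  have h2 := norm_sub_le_norm_sub_add_norm_sub (dir x) y' y
  rw [mem_ball, dist_eq_norm] at hy'
  linarith

lemma Near.emp (h : Near w y) (hy : ‖y‖ = 1) :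
    ∃ δ : ℝ, 0 < δ ∧ ∀ y' : E3, ‖y'‖ = 1 → y' ≠ y → ‖y' - y‖ ≤ δ → Emp w y' := by
  obtain ⟨δ, h0, h⟩ := h
  obtain ⟨R, hR⟩ := h 1 one_pos
  refine ⟨min (δ / 2) 1, by positivity, fun y' h1 h2 h3 => ?_⟩
  have hd : 0 < ‖perp y y'‖ := by
    rw [norm_pos_iff]
    intro e
    rw [perp_apply, sub_eq_zero] at e
    have e1 : |⟪y, y'⟫| = 1 := by
      have := congrArg norm e
      rw [norm_smul, hy, h1, mul_one, Real.norm_eq_abs] at this
      exact this.symm
    have e2 := norm_sub_sq_real y' y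
    rw [h1, hy, real_inner_comm] at e2
    have e3 : ‖y' - y‖ ≤ 1 := h3.trans (min_le_right _ _)
    have e4 : 0 < ⟪y, y'⟫ := by nlinarith [norm_nonneg (y' - y)]
    rw [abs_of_pos e4] at e1
    exact h2 (by rw [e, e1, one_smul])
  set d := ‖perp y y'‖ with hdd
  refine ⟨min (δ / 2) (d / 2), max R (8 / d), by positivity, fun x hx hxR => ?_⟩
  by_contra! hc
  have t1 := norm_sub_le_norm_sub_add_norm_sub (dir x) y' y
  have t2 := hR x hx ((le_max_left _ _).trans hxR)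
    (by linarith [min_le_left (δ / 2) (d / 2), min_le_left (δ / 2) 1])
  have t3 : ‖perp y x‖ = ‖x‖ * ‖perp y (dir x)‖ := by
    conv_lhs => rw [← smul_dir x, map_smul, norm_smul, norm_norm]
  have t4 : d ≤ ‖perp y (dir x)‖ + d / 2 := by
    have a1 : perp y y' = perp y (dir x) - perp y (dir x - y') := by rw [map_sub]; abel
    have a2 := norm_perp_apply_le hy (dir x - y')
    have a3 := norm_sub_le (perp y (dir x)) (perp y (dir x - y'))
    rw [← a1] at a3
    linarith [min_le_right (δ / 2) (d / 2)]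
  have t5 : 8 / d ≤ ‖x‖ := (le_max_right _ _).trans hxR
  rw [div_le_iff₀ hd] at t5
  have t6 : √2 < 2 := by rw [Real.sqrt_lt' two_pos]; norm_num
  have t7 := (abs_le.1 t2).2
  nlinarith [norm_nonneg x]

theorem three_types (hClass : ClassStmt) (hSP : SecPStmt) (hSC : SecCStmt) (hMP : MultP3)
    (hMC : MultC3) (hCl : ClearStmt) (hR : RatStmt) (hCh : ChartStmt) (hCyl : CylEndStmt)
    {Λ : ℝ} {b : ℕ} (hw : TopS Λ b w) (hy : ‖y‖ = 1) :
    Emp w y ∨ ConeCh w y ∨ Near w y ∧ CylEnd w y := by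
  obtain ⟨ε, hε, hC⟩ := hCh
  rcases hClass Λ b w hw y hy with h | ⟨k, h1, h⟩ | ⟨k, h1, h⟩
  · exact Or.inl ((hCl Λ w hw.shk y hy).1 h)
  · obtain ⟨y', n, ho⟩ := exists_on3 hy
    have h2 := hMC w b k y y' n (1 / 2) hw.shk.shr hw.rank (by norm_num) ho
      (hSC Λ b w hw y y' n k ho h)
    obtain rfl : k = 1 := le_antisymm h2 h1
    have h3 := (hCl Λ w hw.shk y hy).2 1 h
    exact (hCyl w y hw.shk.shr hy ((hC Λ w hw.shk y hy).2 ((hR Λ w hw.shk y hy ε hε).2 h))
      h3).imp_right fun h4 => Or.inr ⟨h3, h4⟩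
  · have h2 := hMP w b k y (1 / 2) hw.shk.shr hw.rank (by norm_num) (hSP Λ b w hw y k hy h)
    obtain rfl : k = 1 := le_antisymm h2 h1
    exact ((hC Λ w hw.shk y hy).1 ((hR Λ w hw.shk y hy ε hε).1 h)).imp_right Or.inl

theorem endData_of (hIso : IsoStmt) (hCone : ConeEndStmt) (hw : Shr w)
    (tri : ∀ y : E3, ‖y‖ = 1 → Emp w y ∨ ConeCh w y ∨ Near w y ∧ CylEnd w y) :
    Nonempty (EndData w) := by
  classical
  set Y : Set E3 := {y | ‖y‖ = 1 ∧ ¬ Emp w y ∧ Near w y} with hY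
  have loc : ∀ y ∈ sphere (0 : E3) 1, {y' | y' ∈ Y → y' = y} ∈ 𝓝 y := fun y hy => by
    rw [mem_sphere_zero_iff_norm] at hy
    rcases tri y hy with h | h | ⟨h, -⟩
    · exact h.eventually.mono fun y' h1 h2 => (h2.2.1 h1).elim
    · exact (hIso w y h).mono fun y' h1 h2 => (h2.2.1 (h1 h2.1 h2.2.2)).elim
    · obtain ⟨δ, h0, h1⟩ := h.emp hy
      filter_upwards [closedBall_mem_nhds y h0] with y' h2 h3
      by_contra h4
      exact h3.2.1 (h1 y' h3.1 h4 (mem_closedBall_iff_norm.1 h2))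
  have fin : Y.Finite := by
    obtain ⟨T, -, hT⟩ := (isCompact_sphere (0 : E3) 1).elim_nhds_subcover _ loc
    refine T.finite_toSet.subset fun y hy => ?_
    obtain ⟨z, hz, h⟩ := mem_iUnion₂.1 (hT (mem_sphere_zero_iff_norm.2 hy.1))
    exact (show y = z from h hy) ▸ hz
  have cyl : ∀ y : Y, CylEnd w y := fun y => by
    rcases tri y y.2.1 with h | h | h
    · exact (y.2.2.1 h).elim
    · exact (y.2.2.1 ((hIso w y h).self_of_nhds y.2.1 y.2.2.2)).elim
    · exact h.2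
  choose Q v δ s₀ hQ hv hδ hmem hcov using cyl
  choose δ' hδ' hemp using fun y : Y => y.2.2.2.emp y.2.1
  have := fin.fintype
  set A : Set E3 := sphere 0 1 \ ⋃ y : Y, ball (y : E3) (min (δ y) (δ' y)) with hA
  have cA : IsCompact A :=
    (isCompact_sphere _ _).diff (isOpen_iUnion fun _ => isOpen_ball)
  have offA : ∀ z ∈ A, ∀ y : Y, z ≠ y := fun z hz y e =>
    hz.2 (mem_iUnion.2 ⟨y, e ▸ mem_ball_self (lt_min (hδ y) (hδ' y))⟩)
  obtain ⟨a, γ, n, l, h, s₁, c1, c2, c3, c4, c5, c6⟩ := hCone w A hw cA sdiff_subset fun z hz => by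
    have hz1 : ‖z‖ = 1 := mem_sphere_zero_iff_norm.1 hz.1
    by_cases he : Emp w z
    · exact Or.inl he
    refine Or.inr ⟨?_, ?_⟩
    · rcases tri z hz1 with h | h | h
      · exact (he h).elim
      · exact h
      · exact (offA z hz ⟨z, hz1, he, h.1⟩ rfl).elim
    · have : ∀ᶠ z' in 𝓝 z, ∀ y : Y, z' ∉ closedBall (y : E3) (δ' y) :=
        eventually_all.2 fun y => isClosed_closedBall.isOpen_compl.mem_nhds fun hc =>
          he (hemp y z hz1 (offA z hz y) (mem_closedBall_iff_norm.1 hc))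
      filter_upwards [self_mem_nhdsWithin, nhdsWithin_le_nhds this] with z' h1 h2
      refine ⟨h1, fun h3 => ?_⟩
      obtain ⟨y, h4⟩ := mem_iUnion.1 h3
      exact h2 y (ball_subset_closedBall (ball_subset_ball (min_le_right _ _) h4))
  obtain ⟨s, hs⟩ := (finite_range s₀).bddAbove
  set s₂ := max s s₁ with hs₂
  obtain ⟨R₁, hR₁⟩ := c6 s₂
  choose R hR using fun y : Y => hcov y s₂
  obtain ⟨R₂, hR₂⟩ := (finite_range R).bddAbove
  let e := (Fintype.equivFin Y).symm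
  refine ⟨⟨a, Fintype.card Y, γ, n, l, h, fun j => Q (e j), fun j => v (e j), s₂,
    max (max R₁ R₂) 0, c1, c2, fun j => hv _, c3, fun j j' hj hc => ?_, fun i j θ => ?_,
    fun i p hp => c5 i p ((le_max_right _ _).trans_lt hp),
    fun j p hp => hmem _ p (((hs ⟨e j, rfl⟩).trans (le_max_left _ _)).trans_lt hp),
    fun x hx hxR => ?_⟩⟩
  · rw [hQ, hQ] at hc
    exact hj (e.injective (Subtype.ext hc))
  · rw [hQ]
    exact offA _ (c4 i θ) _
  · have x0 : x ≠ 0 := norm_pos_iff.1 ((le_max_right _ _).trans_lt hxR)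
    have hxR' : max R₁ R₂ < ‖x‖ := (le_max_left _ _).trans_lt hxR
    by_cases hd : dir x ∈ A
    · exact Or.inl (hR₁ x hx ((le_max_left _ _).trans_lt hxR') hd)
    · have : dir x ∈ ⋃ y : Y, ball (y : E3) (min (δ y) (δ' y)) := by
        by_contra hc
        exact hd ⟨mem_sphere_zero_iff_norm.2 (norm_dir x0), hc⟩
      obtain ⟨y, hy⟩ := mem_iUnion.1 this
      obtain ⟨p, h1, h2⟩ := hR y x hx (((hR₂ ⟨y, rfl⟩).trans (le_max_right _ _)).trans_lt hxR')
        ((mem_ball_iff_norm.1 hy).trans_le (min_le_left _ _))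
      exact Or.inr ⟨e.symm y, p, h1, by simpa using h2⟩

/-- **block C** from its parts -/
theorem ends_of (hClass : ClassStmt) (hSP : SecPStmt) (hSC : SecCStmt) (hMP : MultP3)
    (hMC : MultC3) (hCl : ClearStmt) (hR : RatStmt) (hCh : ChartStmt) (hCyl : CylEndStmt)
    (hIso : IsoStmt) (hCone : ConeEndStmt) : EndsStmt := fun _ _ _ hw =>
  ⟨hw.shk.shr, endData_of hIso hCone hw.shk.shr fun _ hy =>
    three_types hClass hSP hSC hMP hMC hCl hR hCh hCyl hw hy⟩

end Vale.Agent.P218N.C
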