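import Vale.Agent.P218N.C.Class
import Vale.Agent.P218N.C.Final

/-! Clearing out, and small Gaussian ratios. -/

open MeasureTheory Set Filter Topology Metric Real
open scoped ENNReal NNReal RealInnerProductSpace ContDiff

namespace Vale.Agent.P218N.C

open Vale.Agent.P218 Vale.Agent.P218.H313 Vale.Agent.P218N.H Vale.Agent.P218N.B
open Vale.Agent.P218N.C0

variable {Λ : ℝ} {κ : Measure E3} {w : E3 → ℝ} {y : E3}

lemma ev_forall {α β : Type*} [TopologicalSpace β] {l : Filter α} {K : Set β} (hK : IsCompact K)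
    {P : α → β → Prop} (h : ∀ q ∈ K, ∀ᶠ z : α × β in l ×ˢ 𝓝 q, P z.1 z.2) :
    ∀ᶠ a in l, ∀ q ∈ K, P a q := by
  obtain ⟨pa, h1, pb, h2, h3⟩ := eventually_prod_iff.1 (hK.mem_prod_nhdsSet_of_forall h)
  exact h1.mono fun a ha q hq => h3 ha (h2.self_of_nhdsSet q hq)

lemma lf_smul {S : Set E3} (h1 : Surf S) (h2 : IsClosed S) (k : ℕ) :
    IsLocallyFiniteMeasure ((k : ℝ≥0∞) • mu S) := by
  have := h1.finiteOnCompacts finrank_E3 h2
  have := IsFiniteMeasureOnCompacts.smul (mu S) (ENNReal.natCast_ne_top k)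
  infer_instance

/-- uniform convergence of the Gaussian ratios -/
lemma Shk.unif [IsLocallyFiniteMeasure κ] (h : Shk Λ w) (hκ : WLim atTop (tm w y) κ)
    {K : Set (E3 × ℝ)} (hK : IsCompact K) {a : ℝ} (h1 : ∀ q ∈ K, 0 < q.2 ∧ Gm κ q.1 q.2 < a) :
    ∃ R₀ : ℝ, 0 < R₀ ∧ ∀ R, R₀ ≤ R → ∀ q ∈ K, Gm (mu (zs w)) (R • y + q.1) q.2 < a := by
  have h2 := ev_forall (l := atTop) hK
    (P := fun (R : ℝ) q => Gm (mu (zs w)) (R • y + q.1) q.2 < a) fun q hq =>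
      (h.lim_Gm (l := atTop ×ˢ 𝓝 q) (R := Prod.fst)
        (fun φ h3 h4 => (hκ φ h3 h4).comp tendsto_fst) (h1 q hq).1
        (continuousAt_fst.tendsto.comp tendsto_snd)
        (continuousAt_snd.tendsto.comp tendsto_snd)).eventually (gt_mem_nhds (h1 q hq).2)
  obtain ⟨R₀, h3⟩ := eventually_atTop.1 h2
  exact ⟨max R₀ 1, by positivity, fun R hR => h3 R ((le_max_left _ _).trans hR)⟩

lemma smul_decomp (y x : E3) (σ : ℝ) : σ • x = (σ * ⟪y, x⟫) • y + σ • perp y x := by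
  rw [perp_apply, mul_smul, ← smul_add, add_sub_cancel]

lemma Shk.core [IsLocallyFiniteMeasure κ] (h : Shk Λ w) (hκ : WLim atTop (tm w y) κ)
    {K : Set (E3 × ℝ)} (hK : IsCompact K) (h1 : ∀ q ∈ K, 0 < q.2 ∧ Gm κ q.1 q.2 < 1) :
    ∃ R₀ : ℝ, 0 < R₀ ∧ ∀ x σ, w x = 0 → 0 ≤ σ → σ < 1 → R₀ ≤ σ * ⟪y, x⟫ →
      (σ • perp y x, 1 - σ ^ 2) ∉ K := by
  obtain ⟨R₀, h0, h2⟩ := h.unif hκ hK h1
  refine ⟨R₀, h0, fun x σ hx h3 h4 h5 h6 => (h2 _ h5 _ h6).not_ge ?_⟩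
  rw [← smul_decomp]
  exact (mono Λ w h).2 x σ hx h3 h4

lemma dir_bd (hy : ‖y‖ = 1) {x : E3} {δ : ℝ} (h : ‖dir x - y‖ ≤ δ) (hδ : δ ≤ 1 / 2) :
    ‖x‖ / 2 ≤ ⟪y, x⟫ ∧ ‖perp y x‖ ≤ δ * ‖x‖ := by
  have h1 : 1 / 2 ≤ ⟪y, dir x⟫ := by
    have h2 := abs_real_inner_le_norm y (dir x - y)
    rw [inner_sub_right, real_inner_self_eq_norm_sq, hy] at h2
    linarith [(abs_le.1 h2).1]
  have h2 : ‖perp y (dir x)‖ ≤ δ := by
    have h3 := norm_perp_apply_le hy (dir x - y)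
    rw [map_sub, perp_self hy, sub_zero] at h3
    exact h3.trans h
  constructor
  · conv_rhs => rw [← smul_dir x, real_inner_smul_right]
    nlinarith [norm_nonneg x]
  · conv_lhs => rw [← smul_dir x, map_smul, norm_smul, norm_norm, mul_comm]
    gcongr

/-- the points in a thin cone lie in a tube -/
lemma Shk.tube [IsLocallyFiniteMeasure κ] (h : Shk Λ w) (hy : ‖y‖ = 1)
    (hκ : WLim atTop (tm w y) κ) {L : ℝ} (hL : 0 < L)
    (h1 : ∀ c s, ‖perp y c‖ = L → 0 < s → s ≤ 1 → Gm κ c s < 1) :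
    ∃ δ, 0 < δ ∧ δ ≤ 1 / 2 ∧ ∀ x, w x = 0 → ‖dir x - y‖ ≤ δ → ‖perp y x‖ ≤ 2 * L := by
  obtain ⟨R₀, h0, h2⟩ := h.core hκ
    (K := (closedBall 0 L ∩ {c | ‖perp y c‖ = L}) ×ˢ Icc (3 / 4) 1)
    (((isCompact_closedBall 0 L).inter_right (isClosed_eq (by fun_prop) continuous_const)).prod
      isCompact_Icc) fun q hq => by
        have : 0 < q.2 := by linarith [hq.2.1]
        exact ⟨this, h1 _ _ hq.1.2 this hq.2.2⟩
  refine ⟨min (L / (2 * R₀)) (1 / 2), by positivity, min_le_right _ _, fun x hx h3 => ?_⟩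
  obtain ⟨h4, h5⟩ := dir_bd hy h3 (min_le_right _ _)
  by_contra! h6
  have h7 : 0 < ‖perp y x‖ := by linarith
  have h8 : L / ‖perp y x‖ ≤ 1 / 2 := by rw [div_le_iff₀ h7]; linarith
  have h9 : 0 < L / ‖perp y x‖ := by positivity
  have e : ‖(L / ‖perp y x‖) • perp y x‖ = L := by
    rw [norm_smul, Real.norm_of_nonneg h9.le, div_mul_cancel₀ _ h7.ne']
  refine h2 x _ hx h9.le (by linarith) ?_ ⟨⟨mem_closedBall_zero_iff.2 e.le, ?_⟩, ?_, ?_⟩
  · have a1 : ‖perp y x‖ ≤ L / (2 * R₀) * ‖x‖ :=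
      h5.trans (mul_le_mul_of_nonneg_right (min_le_left _ _) (norm_nonneg x))
    rw [div_mul_eq_mul_div, le_div_iff₀ (by positivity)] at a1
    rw [div_mul_eq_mul_div, le_div_iff₀ h7]
    nlinarith
  · rw [mem_ofPred_eq, map_smul, perp_perp hy, e]
  · nlinarith
  · nlinarith

lemma cyl_dist (hy : ‖y‖ = 1) (c : E3) {x : E3} (hx : x ∈ cylS y) :
    |‖perp y c‖ - √2| ≤ ‖x - c‖ := by
  rw [← show ‖perp y x‖ ^ 2 = 2 from hx, sqrt_sq (norm_nonneg _), abs_sub_comm]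
  refine (abs_norm_sub_norm_le _ _).trans ?_
  rw [← map_sub]
  exact norm_perp_apply_le hy _

theorem clear : ClearStmt := by
  intro Λ w h y hy
  refine ⟨fun hκ => ?_, fun k hκ => ?_⟩
  · obtain ⟨δ, h0, h1, h2⟩ := h.tube hy hκ one_pos fun c s _ _ _ => by rw [Gm_zero]; exact one_pos
    obtain ⟨R₀, -, h3⟩ := h.core hκ (K := closedBall 0 1 ×ˢ {3 / 4})
      ((isCompact_closedBall 0 1).prod isCompact_singleton) fun q hq =>
        ⟨by rw [hq.2]; norm_num, by rw [Gm_zero]; exact one_pos⟩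
    refine ⟨δ, 4 * R₀, h0, fun x hx h4 => not_le.1 fun h5 => h3 x (1 / 2) hx (by norm_num)
      (by norm_num) (by linarith [(dir_bd hy h5 h1).1]) ⟨?_, by norm_num⟩⟩
    rw [mem_closedBall_zero_iff, norm_smul, Real.norm_of_nonneg (by norm_num)]
    linarith [h2 x hx h5]
  · have := lf_smul (surf_cylS y) (isClosed_cylS y) k
    obtain ⟨C, hC0, hC⟩ := exists_far
    have far : ∀ c s d, 0 < s → 0 ≤ d → d ≤ |‖perp y c‖ - √2| →
        Gm ((k : ℝ≥0∞) • mu (cylS y)) c s ≤ C * Λ * exp (-d ^ 2 / (8 * s)) := fun c s d h1 h2 h3 =>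
      hC Λ _ c s d h.pos (h.lim_ARm hκ) h1 h2 (by
        rw [Measure.smul_apply, mu_ball fun x hx => h3.trans (cyl_dist hy c hx), smul_zero])
    have hΛ := h.pos
    obtain ⟨δ₁, a0, a1⟩ := exists_exp_small (A := C * Λ) one_pos (τ := 1 / 2) (by norm_num)
    obtain ⟨L, hL, a2⟩ : ∃ L : ℝ, 0 < L ∧ ∀ c s, ‖perp y c‖ = L → 0 < s → s ≤ 1 →
        Gm ((k : ℝ≥0∞) • mu (cylS y)) c s < 1 := by
      refine ⟨√(2 / δ₁) + √2, by positivity, fun c s h1 h2 h3 => ?_⟩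
      refine (far c s (√(2 / δ₁)) h2 (sqrt_nonneg _) (by
        rw [h1, add_sub_cancel_right]; exact le_abs_self _)).trans_lt ?_
      have b1 := a1 (s * δ₁ / 2) (by positivity) (by nlinarith)
      rw [sq_sqrt (by positivity),
        show -(2 / δ₁) / (8 * s) = -1 ^ 2 / (8 * (s * δ₁ / 2)) by field_simp]
      linarith
    obtain ⟨δ, h0, h1, h2⟩ := h.tube hy hκ hL a2
    refine ⟨δ, h0, fun η hη => ?_⟩
    obtain ⟨δ₂, b0, b1⟩ := exists_exp_small (A := C * Λ) (half_pos hη) (τ := 1 / 2) (by norm_num)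
    obtain ⟨t, t0, t1, t2, t3⟩ : ∃ t : ℝ, 0 < t ∧ t ≤ 1 / 2 ∧ t ≤ δ₂ / 4 ∧ t * (4 * L) ≤ η / 2 :=
      ⟨min (min (1 / 2) (δ₂ / 4)) (η / 2 / (4 * L)), by positivity,
        (min_le_left _ _).trans (min_le_left _ _), (min_le_left _ _).trans (min_le_right _ _),
        (le_div_iff₀ (by positivity)).1 (min_le_right _ _)⟩
    have t4 : 0 < 1 - (1 - t) ^ 2 := by nlinarith
    obtain ⟨R₀, -, h3⟩ := h.core hκ
      (K := (closedBall 0 (2 * L) ∩ {c | η / 2 ≤ |‖perp y c‖ - √2|}) ×ˢ {1 - (1 - t) ^ 2})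
      (((isCompact_closedBall 0 _).inter_right (isClosed_le continuous_const (by fun_prop))).prod
        isCompact_singleton) fun q hq => by
          rw [show q.2 = _ from hq.2]
          exact ⟨t4, ((far _ _ _ t4 (half_pos hη).le hq.1.2).trans
            (b1 _ t4 (by nlinarith))).trans_lt (by norm_num)⟩
    refine ⟨4 * max R₀ 0, fun x hx h4 h5 => not_lt.1 fun h6 => ?_⟩
    have h7 := h2 x hx h5
    have h8 := (dir_bd hy h5 h1).1
    have h9 := norm_nonneg (perp y x)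
    have e : ‖(1 - t) • perp y x‖ = (1 - t) * ‖perp y x‖ := by
      rw [norm_smul, Real.norm_of_nonneg (by linarith)]
    refine h3 x (1 - t) hx (by linarith) (by linarith) ?_ ⟨⟨?_, ?_⟩, rfl⟩
    · nlinarith [le_max_left R₀ 0, le_max_right R₀ 0]
    · rw [mem_closedBall_zero_iff, e]; nlinarith
    · rw [mem_ofPred_eq, map_smul, perp_perp hy, e]
      have c1 := abs_sub_le ‖perp y x‖ ((1 - t) * ‖perp y x‖) √2
      rw [show ‖perp y x‖ - (1 - t) * ‖perp y x‖ = t * ‖perp y x‖ by ring,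
        abs_of_nonneg (mul_nonneg t0.le h9)] at c1
      nlinarith

theorem ratCone (h : Shk Λ w) {ε : ℝ} (hε : 0 < ε) (hp : PlLim w y 1) : RatCone w y ε := by
  obtain ⟨Θ, hΘ⟩ := h.exists_theta y
  obtain ⟨U, hU⟩ := (atTop : Filter ℝ).exists_ultrafilter_le
  obtain ⟨e, he, -, h1⟩ := hp _ U id hU
  have := lf_smul (surf_plane he) (isClosed_plane e) 1
  have h2 := h.lim_Gm0 (h1 id ((eventually_ge_atTop (0 : ℝ)).filter_mono hU |>.mono
    fun R hR => by constructor <;> simp only [id] <;> linarith)) one_pos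
  rw [Gm_plane0 he 1 one_pos, Nat.cast_one] at h2
  obtain rfl : Θ = 1 := tendsto_nhds_unique (hΘ.mono_left hU) h2
  obtain ⟨σ, h3, h4⟩ := ((hΘ.eventually (gt_mem_nhds (lt_add_of_pos_right 1 hε))).and
    (eventually_gt_atTop 0)).exists
  have h5 := (h.ratio.tendsto_Gm (l := 𝓝 (y, (0 : ℝ))) (c' := fun q => σ • q.1)
    (s' := fun q => 1 + q.2 * σ ^ 2) one_pos (Continuous.tendsto' (by fun_prop) _ _ rfl)
    (Continuous.tendsto' (by fun_prop) _ _ (by simp))).eventually (gt_mem_nhds h3)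
  obtain ⟨δ, hδ, h6⟩ := Metric.nhds_basis_closedBall.eventually_iff.1 h5
  refine ⟨δ, max σ (√δ⁻¹), hδ, fun c s a1 a2 a3 a4 => ?_⟩
  have a5 : σ ≤ ‖c‖ := (le_max_left _ _).trans a1
  have a6 : 0 < ‖c‖ ^ 2 := pow_pos (h4.trans_le a5) 2
  have a7 : δ⁻¹ ≤ ‖c‖ ^ 2 := (sqrt_le_left (norm_nonneg c)).1 ((le_max_right _ _).trans a1)
  have e1 : 1 + (s - 1) / ‖c‖ ^ 2 * ‖c‖ ^ 2 = s := by rw [div_mul_cancel₀ _ a6.ne']; ring
  have a8 := (mono Λ w h).1 (dir c) ((s - 1) / ‖c‖ ^ 2) σ ‖c‖ h4.le a5 (by rwa [e1])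
  rw [e1, smul_dir] at a8
  refine a8.trans (h6 (x := (dir c, (s - 1) / ‖c‖ ^ 2)) ?_).le
  rw [mem_closedBall, Prod.dist_eq, max_le_iff, dist_eq_norm, Real.dist_eq, sub_zero, abs_le,
    le_div_iff₀ a6, div_le_iff₀ a6]
  rw [inv_le_iff_one_le_mul₀' hδ] at a7
  exact ⟨a2, by linarith, by linarith⟩

theorem ratTube (h : Shk Λ w) {ε : ℝ} (hε : 0 < ε) (hκ : CylLim w y 1) : RatTube w y ε := by
  have := lf_smul (surf_cylS y) (isClosed_cylS y) 1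
  have hA : ARm Λ (mu (cylS y)) := ARm.of_smul le_rfl (h.lim_ARm hκ)
  have h1 := ev_forall (l := 𝓝[>] (0 : ℝ)) (isCompact_closedBall (0 : E3) 4)
    (P := fun s c => Gm (mu (cylS y)) c s ≤ 1 + ε / 2) fun p _ => by
      obtain ⟨δ, hδ, h2⟩ := gDens.2 _ Λ (surf_cylS y) h.pos (isClosed_cylS y) hA p _ (half_pos hε)
      filter_upwards [prod_mem_prod (Ioo_mem_nhdsGT hδ) (ball_mem_nhds p hδ)] with z hz
      exact (h2 _ _ hz.1.1 hz.1.2).1 (mem_ball_iff_norm.1 hz.2)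
  obtain ⟨s₀, h2, h3, h4⟩ := (h1.and (Ioo_mem_nhdsGT one_half_pos)).exists
  obtain ⟨R₀, h5, h6⟩ := h.unif hκ (K := closedBall 0 4 ×ˢ {s₀}) (a := 1 + ε)
    ((isCompact_closedBall 0 4).prod isCompact_singleton) fun q hq => by
      rw [show q.2 = s₀ from hq.2, Gm_smul, Nat.cast_one, one_mul]
      exact ⟨h3, (h2 _ hq.1).trans_lt (by linarith)⟩
  refine ⟨s₀, 2 * R₀, h3, fun c s a1 a2 a3 a4 => ?_⟩
  have a5 : 0 < 1 - s := by linarith
  obtain ⟨σ, a6, a7, a8⟩ : ∃ σ : ℝ, 1 / 2 ≤ σ ∧ σ ≤ 1 ∧ 1 + (s - 1) * σ ^ 2 = s₀ :=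
    ⟨√((1 - s₀) / (1 - s)), le_sqrt_of_sq_le ((le_div_iff₀ a5).2 (by linarith)),
      sqrt_le_one.2 ((div_le_one a5).2 (by linarith)), by
        rw [sq_sqrt (div_nonneg (by linarith) a5.le)]; field_simp; ring⟩
  have a9 := h.Gm_le c a3 (by linarith) a7
  rw [a8, smul_decomp y] at a9
  refine a9.trans (h6 _ ?_ (_, s₀) ⟨?_, rfl⟩).le
  · calc R₀ = 1 / 2 * (2 * R₀) := by ring
      _ ≤ _ := mul_le_mul a6 a1 (by positivity) (by linarith)
  · rw [mem_closedBall_zero_iff, norm_smul, Real.norm_of_nonneg (by linarith)]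
    exact (mul_le_of_le_one_left (norm_nonneg _) a7).trans a2

theorem rat : RatStmt := fun _ _ h _ _ _ hε => ⟨ratCone h hε, ratTube h hε⟩

end Vale.Agent.P218N.C
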