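import Vale.Agent.P218N.C.All0
import Vale.Agent.P218N.C.Clear
import Vale.Agent.P218N.C5.Chart

/-! Block C up to the structure theorem and the multiplicity one theorems. -/

namespace Vale.Agent.P218N.C

open Vale.Agent.P218N.B

theorem ends_of_mult (hS : StructStmt) (hMP : MultP3) (hMC : MultC3) : EndsStmt :=
  ends_of' hS hMP hMC clear rat (C5.chartStmt gBd)

end Vale.Agent.P218N.C
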