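import Mathlib

/-! Pointwise bounds for iterated derivatives, interpolation, smooth limits. -/

open Set Filter Topology Metric
open scoped ContDiff Nat

namespace Vale.Agent.P218N.C

variable {E F G : Type} [NormedAddCommGroup E] [NormedSpace ℝ E] [NormedAddCommGroup F]
  [NormedSpace ℝ F] [NormedAddCommGroup G] [NormedSpace ℝ G]

theorem le_inf (n : ℕ) : (n : WithTop ℕ∞) ≤ ∞ := by exact_mod_cast le_top

theorem exists_open {f : E → F} {x : E} (hf : ContDiffAt ℝ ∞ f x) (n : ℕ) :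
    ∃ s, IsOpen s ∧ x ∈ s ∧ ContDiffOn ℝ n f s := by
  obtain ⟨s, h1, h2, h3⟩ := _root_.eventually_nhds_iff.1
    ((hf.of_le (le_inf n)).eventually (by simp))
  exact ⟨s, h2, h3, fun y hy => (h1 y hy).contDiffWithinAt⟩

theorem sm_ev {f : E → F} {x : E} (hf : ContDiffAt ℝ ∞ f x) :
    ∀ᶠ y in 𝓝 x, DifferentiableAt ℝ f y :=
  ((hf.of_le (le_inf 1)).eventually (by simp)).mono fun _ h => h.differentiableAt (by simp)

theorem sm_fd {f : E → F} {x : E} (hf : ContDiffAt ℝ ∞ f x) : ContDiffAt ℝ ∞ (fderiv ℝ f) x :=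
  hf.fderiv_right (by simp)

/-- the pointwise chain bound -/
theorem chain {g : F → G} {f : E → F} {x : E} {n : ℕ} (hg : ContDiffAt ℝ ∞ g (f x))
    (hf : ContDiffAt ℝ ∞ f x) {C D : ℝ} (hC : ∀ i ≤ n, ‖iteratedFDeriv ℝ i g (f x)‖ ≤ C)
    (hD : ∀ i, 1 ≤ i → i ≤ n → ‖iteratedFDeriv ℝ i f x‖ ≤ D ^ i) :
    ‖iteratedFDeriv ℝ n (fun y => g (f y)) x‖ ≤ n ! * C * D ^ n := by
  obtain ⟨t, ht, hx, hg'⟩ := exists_open hg n
  obtain ⟨s, hs, hx', hf'⟩ := exists_open hf n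
  have ho : IsOpen (s ∩ f ⁻¹' t) := hf'.continuousOn.isOpen_inter_preimage hs ht
  have := norm_iteratedFDerivWithin_comp_le hg' (hf'.mono inter_subset_left) le_rfl ht.uniqueDiffOn
    ho.uniqueDiffOn (fun _ h => h.2) ⟨hx', hx⟩ (C := C) (D := D)
    (fun i hi => by rw [iteratedFDerivWithin_of_isOpen i ht hx]; exact hC i hi)
    (fun i h1 hi => by rw [iteratedFDerivWithin_of_isOpen i ho ⟨hx', hx⟩]; exact hD i h1 hi)
  rwa [iteratedFDerivWithin_of_isOpen n ho ⟨hx', hx⟩] at this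

/-- the constant of the chain bound -/
noncomputable def cb (k : ℕ) (B : ℝ) : ℝ := k ! * max 1 B ^ (k + 1)

theorem one_le_cb (k : ℕ) (B : ℝ) : 1 ≤ cb k B :=
  one_le_mul_of_one_le_of_one_le (by exact_mod_cast k.factorial_pos)
    (one_le_pow₀ (le_max_left _ _))

theorem chain_bd {g : F → G} {f : E → F} {x : E} {k : ℕ} {B : ℝ} (hg : ContDiffAt ℝ ∞ g (f x))
    (hf : ContDiffAt ℝ ∞ f x) (hC : ∀ i ≤ k, ‖iteratedFDeriv ℝ i g (f x)‖ ≤ B)
    (hD : ∀ i, 1 ≤ i → i ≤ k → ‖iteratedFDeriv ℝ i f x‖ ≤ B) :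
    ∀ j ≤ k, ‖iteratedFDeriv ℝ j (fun y => g (f y)) x‖ ≤ cb k B := fun j hj => by
  have h1 := le_max_left 1 B
  refine (chain hg hf (C := max 1 B) (D := max 1 B)
    (fun i hi => (hC i (hi.trans hj)).trans (le_max_right _ _)) fun i h hi =>
      ((hD i h (hi.trans hj)).trans (le_max_right _ _)).trans
        (le_self_pow₀ h1 (by omega))).trans ?_
  rw [mul_assoc, ← pow_succ', cb]
  gcongr

/-- the chain bound without a bound for the value of `g` -/
theorem chain_bd' {g : F → G} {f : E → F} {x : E} {k : ℕ} {B : ℝ} (hg : ContDiffAt ℝ ∞ g (f x))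
    (hf : ContDiffAt ℝ ∞ f x) (hC : ∀ i, 1 ≤ i → i ≤ k → ‖iteratedFDeriv ℝ i g (f x)‖ ≤ B)
    (hD : ∀ i, 1 ≤ i → i ≤ k → ‖iteratedFDeriv ℝ i f x‖ ≤ B) :
    ∀ j, 1 ≤ j → j ≤ k → ‖iteratedFDeriv ℝ j (fun y => g (f y)) x‖ ≤ cb k B := fun j h1 hj => by
  have e : ∀ {X : Type} [NormedAddCommGroup X] [NormedSpace ℝ X] {u : X → G} {z : X} {c : G},
      ContDiffAt ℝ ∞ u z → ∀ i, 1 ≤ i →
        iteratedFDeriv ℝ i (fun y => u y - c) z = iteratedFDeriv ℝ i u z := fun hu i hi => by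
    rw [fun_iteratedFDeriv_sub_apply (hu.of_le (le_inf i)) contDiffAt_const,
      iteratedFDeriv_const_of_ne (by omega)]
    simp
  rw [← e (u := fun y => g (f y)) (c := g (f x)) (hg.comp x hf) j h1]
  refine chain_bd (g := fun z => g z - g (f x)) (hg.sub contDiffAt_const) hf (fun i hi => ?_)
    hD j hj
  rcases Nat.eq_zero_or_pos i with rfl | h
  · simpa using (norm_nonneg _).trans (hD 1 le_rfl (h1.trans hj))
  · rw [e hg i h]; exact hC i h hi

/-- the pointwise bound for bilinear expressions -/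
theorem bilin {X : Type} [NormedAddCommGroup X] [NormedSpace ℝ X] (L : E →L[ℝ] F →L[ℝ] G)
    {f : X → E} {g : X → F} {x : X} {k : ℕ} {A B : ℝ} (hf : ContDiffAt ℝ ∞ f x)
    (hg : ContDiffAt ℝ ∞ g x) (hA : ∀ i ≤ k, ‖iteratedFDeriv ℝ i f x‖ ≤ A)
    (hB : ∀ i ≤ k, ‖iteratedFDeriv ℝ i g x‖ ≤ B) :
    ‖iteratedFDeriv ℝ k (fun y => L (f y) (g y)) x‖ ≤ ‖L‖ * (2 ^ k * (A * B)) := by
  obtain ⟨t, ht, hx, hg'⟩ := exists_open hg k
  obtain ⟨s, hs, hx', hf'⟩ := exists_open hf k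
  have ho := hs.inter ht
  have := L.norm_iteratedFDerivWithin_le_of_bilinear (hf'.mono inter_subset_left)
    (hg'.mono inter_subset_right) ho.uniqueDiffOn ⟨hx', hx⟩ le_rfl
  simp only [iteratedFDerivWithin_of_isOpen _ ho ⟨hx', hx⟩] at this
  refine this.trans (mul_le_mul_of_nonneg_left ?_ L.opNorm_nonneg)
  have h0 : 0 ≤ A := (norm_nonneg _).trans (hA 0 k.zero_le)
  rw [show (2 : ℝ) ^ k = ∑ i ∈ Finset.range (k + 1), (k.choose i : ℝ) by
    exact_mod_cast (Nat.sum_range_choose k).symm, Finset.sum_mul]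
  refine Finset.sum_le_sum fun i hi => ?_
  rw [mul_assoc]
  gcongr
  exacts [hA i (Nat.lt_succ_iff.1 (Finset.mem_range.1 hi)), hB _ (k.sub_le i)]

theorem norm_iter_clm (L : E →L[ℝ] F) (x : E) {i : ℕ} (hi : 1 ≤ i) :
    ‖iteratedFDeriv ℝ i L x‖ ≤ ‖L‖ := by
  obtain ⟨j, rfl⟩ := Nat.exists_eq_add_of_le' hi
  rw [← norm_iteratedFDeriv_fderiv, show fderiv ℝ L = fun _ => L from funext fun _ => L.fderiv]
  rcases eq_or_ne j 0 with rfl | h
  · simp
  · simp [iteratedFDeriv_const_of_ne h]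

theorem norm_iter_prod {f : E → F} {g : E → G} {x : E} (hf : ContDiffAt ℝ ∞ f x)
    (hg : ContDiffAt ℝ ∞ g x) (i : ℕ) : ‖iteratedFDeriv ℝ i (fun y => (f y, g y)) x‖ =
      max ‖iteratedFDeriv ℝ i f x‖ ‖iteratedFDeriv ℝ i g x‖ := by
  rw [iteratedFDeriv_prodMk hf hg (le_inf i), ContinuousMultilinearMap.opNorm_prod]

/-- the derivatives of a smooth map are bounded on compact sets -/
theorem jet_compact {g : F → G} {K : Set F} (hK : IsCompact K) (hg : ∀ y ∈ K, ContDiffAt ℝ ∞ g y)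
    (k : ℕ) : ∃ C : ℝ, ∀ y ∈ K, ∀ i ≤ k, ‖iteratedFDeriv ℝ i g y‖ ≤ C := by
  choose C hC using fun i : ℕ => hK.exists_bound_of_continuousOn (f := iteratedFDeriv ℝ i g)
    fun y hy => ((hg y hy).continuousAt_iteratedFDeriv (le_inf i)).continuousWithinAt
  exact ⟨∑ i ∈ Finset.range (k + 1), |C i|, fun y hy i hi => ((hC i y hy).trans
    (le_abs_self _)).trans (Finset.single_le_sum (f := fun i => |C i|) (fun _ _ => abs_nonneg _)
      (Finset.mem_range.2 (Nat.lt_succ_iff.2 hi)))⟩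

/-! ### interpolation -/

theorem landau (k : ℕ) {f : E → G} {x : E} {t a b : ℝ} (ht : 0 < t)
    (hf : ∀ y ∈ closedBall x t, ContDiffAt ℝ ∞ f y)
    (ha : ∀ y ∈ closedBall x t, ‖iteratedFDeriv ℝ k f y‖ ≤ a)
    (hb : ∀ y ∈ closedBall x t, ‖iteratedFDeriv ℝ (k + 2) f y‖ ≤ b) :
    ‖iteratedFDeriv ℝ (k + 1) f x‖ ≤ 2 * a / t + b * t := by
  induction k generalizing G with
  | succ k ih =>
    rw [← norm_iteratedFDeriv_fderiv]
    exact ih (fun y hy => sm_fd (hf y hy)) (fun y hy => norm_iteratedFDeriv_fderiv.trans_le (ha y hy))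
      fun y hy => norm_iteratedFDeriv_fderiv.trans_le (hb y hy)
  | zero =>
    have hx := mem_closedBall_self (x := x) ht.le
    simp only [norm_iteratedFDeriv_zero] at ha
    have hb0 : 0 ≤ b := (norm_nonneg _).trans (hb x hx)
    have ha0 : 0 ≤ a := (norm_nonneg _).trans (ha x hx)
    have h1 : ∀ y ∈ closedBall x t, ‖fderiv ℝ f y - fderiv ℝ f x‖ ≤ b * t := fun y hy =>
      ((convex_closedBall x t).norm_image_sub_le_of_norm_fderiv_le
        (fun z hz => (sm_fd (hf z hz)).differentiableAt (by simp))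
        (fun z hz => by
          rw [← norm_iteratedFDeriv_one, norm_iteratedFDeriv_fderiv]; exact hb z hz) hx hy).trans
        (mul_le_mul_of_nonneg_left (mem_closedBall_iff_norm.1 hy) hb0)
    rw [zero_add, norm_iteratedFDeriv_one]
    refine ContinuousLinearMap.opNorm_le_of_unit_norm (by positivity) fun v hv => ?_
    have hy : x + t • v ∈ closedBall x t := by simp [norm_smul, hv, abs_of_pos ht]
    have h2 := (convex_closedBall x t).norm_image_sub_le_of_norm_fderiv_le'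
      (fun z hz => (hf z hz).differentiableAt (by simp)) h1 hx hy
    rw [add_sub_cancel_left, map_smul, norm_smul, hv, Real.norm_of_nonneg ht.le] at h2
    have h3 := norm_sub_le (f (x + t • v) - f x) (f (x + t • v) - f x - t • fderiv ℝ f x v)
    rw [sub_sub_cancel, norm_smul, Real.norm_of_nonneg ht.le] at h3
    have h4 := norm_sub_le (f (x + t • v)) (f x)
    rw [div_add' _ _ _ ht.ne', le_div_iff₀ ht]
    linarith [ha _ hy, ha _ hx]

/-- the choice of the constants in the interpolation inequality -/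
theorem landau' (C : ℝ) {ε δ : ℝ} (hε : 0 < ε) (hδ : 0 < δ) : ∃ t a : ℝ, 0 < t ∧ t ≤ δ ∧ 0 < a ∧
    ∀ (k : ℕ) (f : E → G) (x : E), (∀ y ∈ closedBall x t, ContDiffAt ℝ ∞ f y ∧
      ‖iteratedFDeriv ℝ k f y‖ ≤ a ∧ ‖iteratedFDeriv ℝ (k + 2) f y‖ ≤ C) →
      ‖iteratedFDeriv ℝ (k + 1) f x‖ ≤ ε := by
  have h0 : 0 < min δ (ε / (2 * (|C| + 1))) := by positivity
  refine ⟨_, ε * min δ (ε / (2 * (|C| + 1))) / 4, h0, min_le_left _ _, by positivity,
    fun k f x h => (landau k h0 (fun y hy => (h y hy).1) (fun y hy => (h y hy).2.1)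
      fun y hy => (h y hy).2.2.trans ((le_abs_self C).trans (le_add_of_nonneg_right zero_le_one))
        ).trans ?_⟩
  have h1 := (le_div_iff₀ (by positivity)).1 (min_le_right δ (ε / (2 * (|C| + 1))))
  generalize min δ (ε / (2 * (|C| + 1))) = t at *
  have : 2 * (ε * t / 4) / t = ε / 2 := by field_simp; ring
  linarith

/-! ### smooth limits -/

theorem norm_iter_fderiv_sub {f g : E → G} {z : E} (hf : ContDiffAt ℝ ∞ f z)
    (hg : ContDiffAt ℝ ∞ g z) (k : ℕ) :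
    ‖iteratedFDeriv ℝ k (fun y => fderiv ℝ f y - fderiv ℝ g y) z‖ =
      ‖iteratedFDeriv ℝ (k + 1) (fun y => f y - g y) z‖ := by
  rw [← norm_iteratedFDeriv_fderiv]
  congr 1
  refine (EventuallyEq.iteratedFDeriv ℝ ?_ k).self_of_nhds
  filter_upwards [sm_ev hf, sm_ev hg] with y h1 h2
  exact (fderiv_fun_sub h1 h2).symm

variable {ι : Type} {l : Filter ι} [l.NeBot] {U : Set E}

theorem lim_one [CompleteSpace G] (hU : IsOpen U) {u : ι → E → G} {v : E → G}
    (hu : ∀ i, ∀ x ∈ U, ContDiffAt ℝ ∞ (u i) x)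
    (hc : ∀ ε : ℝ, 0 < ε → ∀ᶠ p in l ×ˢ l, ∀ z ∈ U,
      ‖iteratedFDeriv ℝ 1 (fun y => u p.1 y - u p.2 y) z‖ ≤ ε)
    (hv : ∀ x ∈ U, Tendsto (fun i => u i x) l (𝓝 (v x))) :
    DifferentiableOn ℝ v U ∧ TendstoUniformlyOn (fun i => fderiv ℝ (u i)) (fderiv ℝ v) l U := by
  have h1 : UniformCauchySeqOn (fun i => fderiv ℝ (u i)) l U := fun s hs => by
    obtain ⟨ε, hε, h⟩ := Metric.mem_uniformity_dist.1 hs
    filter_upwards [hc (ε / 2) (half_pos hε)] with p hp z hz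
    refine h ?_
    have := (norm_iter_fderiv_sub (hu p.1 z hz) (hu p.2 z hz) 0).trans_le (hp z hz)
    rw [norm_iteratedFDeriv_zero] at this
    rw [dist_eq_norm]
    linarith
  have h2 : ∀ x ∈ U, Tendsto (fun i => fderiv ℝ (u i) x) l
      (𝓝 (limUnder l fun i => fderiv ℝ (u i) x)) := fun x hx =>
    tendsto_nhds_limUnder (cauchy_map_iff_exists_tendsto.1 (h1.cauchy_map hx))
  have h3 := h1.tendstoUniformlyOn_of_tendsto h2
  have h4 : ∀ x ∈ U, HasFDerivAt v (limUnder l fun i => fderiv ℝ (u i) x) x := fun x hx =>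
    hasFDerivAt_of_tendstoUniformlyOn hU h3
      (fun i x hx => ((hu i x hx).differentiableAt (by simp)).hasFDerivAt) hv hx
  exact ⟨fun x hx => (h4 x hx).differentiableAt.differentiableWithinAt,
    h3.congr_right fun x hx => (h4 x hx).fderiv.symm⟩

theorem lim_smooth [CompleteSpace G] (hU : IsOpen U) {u : ι → E → G} {v : E → G}
    (hu : ∀ i, ∀ x ∈ U, ContDiffAt ℝ ∞ (u i) x)
    (hc : ∀ (k : ℕ) (ε : ℝ), 0 < ε → ∀ᶠ p in l ×ˢ l, ∀ z ∈ U,
      ‖iteratedFDeriv ℝ k (fun y => u p.1 y - u p.2 y) z‖ ≤ ε)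
    (hv : ∀ x ∈ U, Tendsto (fun i => u i x) l (𝓝 (v x))) : ContDiffOn ℝ ∞ v U := by
  refine contDiffOn_infty.2 fun n => ?_
  induction n generalizing G with
  | zero => exact contDiffOn_zero.2 (lim_one hU hu (hc 1) hv).1.continuousOn
  | succ n ih =>
    have h := lim_one hU hu (hc 1) hv
    rw [Nat.cast_succ, contDiffOn_succ_iff_fderiv_of_isOpen hU]
    exact ⟨h.1, by simp, ih (fun i x hx => sm_fd (hu i x hx)) (fun k ε hε => (hc (k + 1) ε hε).mono
      fun p hp z hz => (norm_iter_fderiv_sub (hu p.1 z hz) (hu p.2 z hz) k).trans_le (hp z hz))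
      fun x hx => h.2.tendsto_at hx⟩

end Vale.Agent.P218N.C
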