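import Vale.Agent.P218N.C.Stmt
import Vale.Agent.P218N.C.CalcJet

/-! Implicit functions, interpolation and smooth limits. -/

open Set Filter Topology Metric Real
open scoped ContDiff

namespace Vale.Agent.P218N.C

open Vale.Agent.P218.H313 Vale.Agent.P218N.H

theorem impl : ImplStmt := by
  intro k c B hc
  induction k with
  | zero => exact ⟨0, fun F H p _ _ _ _ j h1 h2 => by omega⟩
  | succ k ih =>
    obtain ⟨C, hC⟩ := ih
    let Φ : ((ℝ × ℝ) × ℝ →L[ℝ] ℝ) → (ℝ × ℝ →L[ℝ] ℝ) := fun L =>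
      -(L (0, 1))⁻¹ • L.comp (.inl ℝ (ℝ × ℝ) ℝ)
    have hΦ : ∀ L : (ℝ × ℝ) × ℝ →L[ℝ] ℝ, c ≤ |L (0, 1)| → ContDiffAt ℝ ∞ Φ L := fun L h =>
      ((contDiffAt_id.clm_apply contDiffAt_const).inv (abs_pos.1 (hc.trans_le h))).neg.smul
        (contDiffAt_id.clm_comp contDiffAt_const)
    obtain ⟨C₁, h₁⟩ := jet_compact (g := Φ)
      (K := closedBall 0 B ∩ {L : (ℝ × ℝ) × ℝ →L[ℝ] ℝ | c ≤ |L (0, 1)|})
      ((isCompact_closedBall _ _).inter_right (isClosed_le continuous_const (by fun_prop)))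
      (fun L hL => hΦ L hL.2) k
    refine ⟨cb k (max C₁ (cb k (max B (max 1 C)))), fun F H p hF hH h1 h2 j hj1 hj2 => ?_⟩
    obtain ⟨i, rfl⟩ := Nat.exists_eq_add_of_le' hj1
    have hG : ContDiffAt ℝ ∞ (fun y => (y, H y)) p := contDiffAt_id.prodMk hH.self_of_nhds.1
    have hF' := sm_fd hF.self_of_nhds
    have hc' : ContDiffAt ℝ ∞ (fun y => fderiv ℝ F (y, H y)) p :=
      ContDiffAt.comp (g := fderiv ℝ F) p hF' hG
    have e : fderiv ℝ H =ᶠ[𝓝 p] fun y => Φ (fderiv ℝ F (y, H y)) := by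
      filter_upwards [hH.eventually_nhds, hG.continuousAt.eventually hF,
        (hc'.clm_apply (contDiffAt_const (c := (0, 1)))).continuousAt.eventually_ne
          (abs_pos.1 (hc.trans_le h1))] with y a1 a2 a3
      have d := (a2.differentiableAt (by simp)).hasFDerivAt.comp y ((hasFDerivAt_id y).prodMk
        (a1.self_of_nhds.1.differentiableAt (by simp)).hasFDerivAt)
      have d0 := d.unique ((hasFDerivAt_const (0 : ℝ) y).congr_of_eventuallyEq
        (a1.mono fun _ h => h.2))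
      refine ContinuousLinearMap.ext fun v => ?_
      have d1 : fderiv ℝ F (y, H y) (v, fderiv ℝ H y v) = 0 := DFunLike.congr_fun d0 v
      rw [show (v, fderiv ℝ H y v) = (v, 0) + fderiv ℝ H y v • ((0, 1) : (ℝ × ℝ) × ℝ) by simp,
        map_add, map_smul, smul_eq_mul] at d1
      simp only [Φ, ContinuousLinearMap.smul_apply, ContinuousLinearMap.comp_apply,
        ContinuousLinearMap.inl_apply, smul_eq_mul]
      field_simp
      linarith
    rw [← norm_iteratedFDeriv_fderiv, (e.iteratedFDeriv ℝ i).self_of_nhds]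
    refine chain_bd (g := Φ) (f := fun y => fderiv ℝ F (y, H y)) (hΦ _ h1) hc'
      (fun j hj => (h₁ _ ⟨?_, h1⟩ j hj).trans (le_max_left _ _))
      (fun j _ hj => (chain_bd (g := fderiv ℝ F) (f := fun y => (y, H y)) hF' hG (fun j hj => ?_)
        (fun j h hj => ?_) j hj).trans (le_max_right _ _)) i (by omega)
    · rw [mem_closedBall_zero_iff, ← norm_iteratedFDeriv_one]
      exact h2 1 le_rfl (by omega)
    · rw [norm_iteratedFDeriv_fderiv]
      exact (h2 _ (by omega) (by omega)).trans (le_max_left _ _)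
    · rw [norm_iter_prod (f := fun y => y) contDiffAt_id hH.self_of_nhds.1]
      exact (max_le_max ((norm_iter_clm (.id ℝ (ℝ × ℝ)) p h).trans ContinuousLinearMap.norm_id_le)
        (hC F H p hF hH h1 (fun j h hj => h2 j h (by omega)) j h hj)).trans (le_max_right _ _)

theorem implSm : ImplSmStmt := by
  intro F H p a b hF hp h1 h2
  have hi : (fderiv ℝ F (p, H p) ∘L .inr ℝ (ℝ × ℝ) ℝ).IsInvertible :=
    ⟨ContinuousLinearEquiv.unitsEquivAut ℝ (Units.mk0 _ h1), by ext; simp⟩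
  have hc := hF.contDiffAt (x := (p, H p))
  have h3 := hc.contDiffAt_implicitFunction (by simp) hi
  refine h3.congr_of_eventuallyEq ?_
  filter_upwards [h2, hc.eventually_apply_implicitFunction (by simp) hi,
    h3.continuousAt.eventually_mem (isOpen_Ioo.mem_nhds
      (by rw [hc.implicitFunction_apply_self (by simp) hi]; exact hp))] with y a1 a2 a3
  exact ((a1 _ a3).1 (a2.trans ((h2.self_of_nhds _ hp).2 rfl))).symm

theorem interp : InterpStmt := by
  intro h s₀ h1 h2 h3 h4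
  have key : ∀ (k : ℕ) (ε : ℝ), 0 < ε → ∃ s₁ : ℝ, ∀ p : ℝ × ℝ, s₁ ≤ p.1 →
      ‖iteratedFDeriv ℝ k h p‖ ≤ ε := by
    intro k
    induction k with
    | zero => simpa using h4
    | succ k ih =>
      intro ε hε
      obtain ⟨C, hC⟩ := h3 (k + 2)
      obtain ⟨t, a, -, ht, ha, hl⟩ := landau' (E := ℝ × ℝ) (G := ℝ) C hε one_pos
      obtain ⟨s₁, hs⟩ := ih a ha
      refine ⟨max s₀ s₁ + 2, fun p hp => hl k h p fun y hy => ?_⟩
      have := abs_le.1 ((le_max_left _ _).trans (hy.trans ht : dist y p ≤ 1) : |y.1 - p.1| ≤ 1)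
      have a1 := le_max_left s₀ s₁
      have a2 := le_max_right s₀ s₁
      exact ⟨h1 y (by linarith), hs y (by linarith), hC y (by linarith)⟩
  have e : ∀ p : ℝ × ℝ, s₀ + 1 ≤ p.1 → smoothTransition (2 * (p.1 - s₀) - 1) * h p = h p :=
    fun p hp => by rw [smoothTransition.one_of_one_le (by linarith), one_mul]
  refine ⟨fun p => smoothTransition (2 * (p.1 - s₀) - 1) * h p, ⟨contDiff_iff_contDiffAt.2
    fun p => ?_, fun s θ => ?_, fun k ε hε => ?_⟩, e⟩
  · rcases lt_or_ge s₀ p.1 with hp | hp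
    · exact (smoothTransition.contDiffAt.comp p (by fun_prop)).mul (h1 p hp)
    · refine (contDiffAt_const (c := 0)).congr_of_eventuallyEq ?_
      filter_upwards [continuous_fst.continuousAt.eventually_lt (continuousAt_const (y := s₀ + 1 / 2))
        (by linarith : p.1 < s₀ + 1 / 2)] with y hy
      rw [smoothTransition.zero_of_nonpos (by linarith), zero_mul]
  · rcases lt_or_ge s₀ s with hp | hp
    · rw [h2 s θ hp]
    · simp only [smoothTransition.zero_of_nonpos (by linarith : 2 * (s - s₀) - 1 ≤ 0), zero_mul]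
  · obtain ⟨s₁, hs⟩ := key k ε hε
    refine ⟨max s₁ (s₀ + 2), fun p hp => ?_⟩
    have : (fun p : ℝ × ℝ => smoothTransition (2 * (p.1 - s₀) - 1) * h p) =ᶠ[𝓝 p] h :=
      ((continuousAt_const (y := s₀ + 1)).eventually_lt continuous_fst.continuousAt
        (by linarith [le_max_right s₁ (s₀ + 2)])).mono fun y hy => e y hy.le
    rw [(this.iteratedFDeriv ℝ k).self_of_nhds]
    exact hs p ((le_max_left _ _).trans hp)

theorem smLim : SmLimStmt := by
  intro u ρ l₀ C h0 h1 h2 h3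
  let l : Filter (Ioo (0 : ℝ) l₀) := comap Subtype.val (𝓝 0)
  have : l.NeBot := by
    rw [← mem_closure_iff_comap_neBot, closure_Ioo h0.ne]
    exact left_mem_Icc.2 h0.le
  have ht : Tendsto (Subtype.val : Ioo (0 : ℝ) l₀ → ℝ) l (𝓝 0) := tendsto_comap
  have hs : ∀ i : Ioo (0 : ℝ) l₀, ∀ x ∈ ball (0 : E2) ρ, ContDiffAt ℝ ∞ (u i) x := fun i x hx =>
    (h1 i i.2).contDiffAt (isOpen_ball.mem_nhds hx)
  have hz : ∀ ε : ℝ, 0 < ε → ∀ᶠ p : Ioo (0 : ℝ) l₀ × Ioo (0 : ℝ) l₀ in l ×ˢ l,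
      ∀ z ∈ ball (0 : E2) ρ, |u p.1 z - u p.2 z| ≤ ε := fun ε hε => by
    have := ((ht.comp tendsto_fst).add (ht.comp tendsto_snd)).const_mul C
    rw [add_zero, mul_zero] at this
    exact (this.eventually_le_const hε).mono fun p hp z hz => (h3 _ p.1.2 _ p.2.2 z hz).trans hp
  have key : ∀ (k : ℕ) (ρ' : ℝ), ρ' < ρ → ∀ ε : ℝ, 0 < ε →
      ∀ᶠ p : Ioo (0 : ℝ) l₀ × Ioo (0 : ℝ) l₀ in l ×ˢ l, ∀ z ∈ ball (0 : E2) ρ',
        ‖iteratedFDeriv ℝ k (fun y => u p.1 y - u p.2 y) z‖ ≤ ε := by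
    intro k
    induction k with
    | zero =>
      exact fun ρ' hρ ε hε => (hz ε hε).mono fun p hp z hz => by
        simpa using hp z (ball_subset_ball hρ.le hz)
    | succ k ih =>
      intro ρ' hρ ε hε
      obtain ⟨C, hC⟩ := h2 (k + 2)
      obtain ⟨t, a, -, ht, ha, hl⟩ := landau' (E := E2) (G := ℝ) (C + C) hε
        (half_pos (sub_pos.2 hρ))
      refine (ih ((ρ + ρ') / 2) (by linarith) a ha).mono fun p hp z hz => hl k _ z fun y hy => ?_
      have a1 : y ∈ ball (0 : E2) ((ρ + ρ') / 2) := mem_ball.2 (by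
        linarith [mem_closedBall.1 hy, dist_triangle y z 0, mem_ball.1 hz])
      have a2 : y ∈ ball (0 : E2) ρ := ball_subset_ball (by linarith) a1
      refine ⟨(hs _ y a2).sub (hs _ y a2), hp y a1, ?_⟩
      rw [fun_iteratedFDeriv_sub_apply ((hs _ y a2).of_le (le_inf _)) ((hs _ y a2).of_le (le_inf _))]
      exact (norm_sub_le _ _).trans (add_le_add (hC _ p.1.2 y a2) (hC _ p.2.2 y a2))
  have hv : ∀ x ∈ ball (0 : E2) ρ, Tendsto (fun i : Ioo (0 : ℝ) l₀ => u i x) l
      (𝓝 (limUnder l fun i => u i x)) := fun x hx =>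
    tendsto_nhds_limUnder (cauchy_map_iff_exists_tendsto.1 (cauchy_map_iff'.2 fun s hs => by
      obtain ⟨ε, hε, h⟩ := Metric.mem_uniformity_dist.1 hs
      exact (hz _ (half_pos hε)).mono fun p hp => h ((hp x hx).trans_lt (half_lt_self hε))))
  refine ⟨fun x => limUnder l fun i => u i x, fun x hx => ?_, fun a ha z hz => ?_,
    fun ρ' ε hρ hε => ?_⟩
  · obtain ⟨ρ', a1, a2⟩ := exists_between (mem_ball.1 hx)
    exact ((lim_smooth isOpen_ball (fun i x hx => hs i x (ball_subset_ball a2.le hx))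
      (fun k => key k ρ' a2) fun x hx => hv x (ball_subset_ball a2.le hx)).contDiffAt
        (isOpen_ball.mem_nhds a1)).contDiffWithinAt
  · have := (ht.const_add a).const_mul C
    rw [add_zero] at this
    exact le_of_tendsto_of_tendsto' ((hv z hz).const_sub _).abs this fun i => h3 a ha i i.2 z hz
  · have := Metric.tendstoUniformlyOn_iff.1 (lim_one isOpen_ball
      (fun i x hx => hs i x (ball_subset_ball hρ.le hx)) (key 1 ρ' hρ)
        fun x hx => hv x (ball_subset_ball hρ.le hx)).2 ε hε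
    obtain ⟨δ, hδ, h⟩ := Metric.eventually_nhds_iff.1 (eventually_comap.1 this)
    refine ⟨min δ l₀, lt_min hδ h0, fun a ha z hz => ?_⟩
    rw [← dist_eq_norm, dist_comm]
    exact (h (by simpa [abs_of_pos ha.1] using ha.2.trans_le (min_le_left _ _))
      ⟨a, ha.1, ha.2.trans_le (min_le_right _ _)⟩ rfl z hz).le

end Vale.Agent.P218N.C
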