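import Vale.Agent.P218N.C.ConeTube

/-! The conical ends. -/

open Set Filter Topology Metric Real
open scoped RealInnerProductSpace ContDiff

namespace Vale.Agent.P218N.C

open Vale.Agent.P218.H313 Vale.Agent.P218N.H

variable {w : E3 → ℝ} {γ n : ℝ → E3} {l δ : ℝ}

/-- points with direction near the link have small tubular coordinates -/
lemma exists_tub (h : Link γ n l) {x : E3} (hx : x ≠ 0) (h1 : δ ≤ 1) {θ₀ : ℝ}
    (h2 : ‖dir x - γ θ₀‖ < δ / 2) : ∃ (p : ℝ × ℝ) (t : ℝ), ‖x‖ / 2 ≤ exp p.1 ∧ t ∈ Ioo (-δ) δ ∧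
      x = tub γ n (p, t) := by
  have hK := Function.Periodic.compact_of_continuous h.per two_pi_pos.ne' h.smooth.continuous
  obtain ⟨_, ⟨θ, rfl⟩, hm⟩ := hK.exists_isMaxOn (range_nonempty γ) (f := fun z => ⟪dir x, z⟫)
    (by fun_prop)
  have a1 : IsLocalMax (fun t => ⟪dir x, γ t⟫) θ := .of_forall fun t => hm ⟨t, rfl⟩
  have a2 : ⟪dir x, deriv γ θ⟫ = 0 := by
    simpa using a1.hasDerivAt_eq_zero ((hasDerivAt_const θ (dir x)).inner ℝ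
      (h.smooth.differentiable (by simp) θ).hasDerivAt)
  have a3 := link_norm h θ a2
  have a4 := link_eq h θ a2
  have a5 : ⟪dir x, γ θ₀⟫ ≤ ⟪dir x, γ θ⟫ := hm ⟨θ₀, rfl⟩
  have a6 := norm_sub_sq_real (dir x) (γ θ₀)
  have a7 := pow_lt_pow_left₀ h2 (norm_nonneg _) two_ne_zero
  have d0 : 0 < δ := by linarith [norm_nonneg (dir x - γ θ₀)]
  rw [norm_dir hx] at a3 a6
  rw [h.norm] at a6
  have hn := norm_pos_iff.2 hx
  generalize ⟪dir x, γ θ⟫ = a at *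
  generalize ⟪dir x, n θ⟫ = b at *
  have b1 : 1 - δ ^ 2 / 8 < a := by linarith
  have b2 : 7 / 8 ≤ a := by nlinarith
  have b3 : 0 < a := by linarith
  refine ⟨(log (‖x‖ * a), θ), b / a, ?_, abs_lt.1 ?_, ?_⟩
  · rw [exp_log (by positivity)]; nlinarith
  · rw [abs_div, abs_of_pos b3, div_lt_iff₀ b3]
    have b4 := mul_le_mul_of_nonneg_left (show 1 / 4 ≤ a ^ 2 by nlinarith) (sq_nonneg δ)
    exact abs_lt_of_sq_lt_sq (by rw [mul_pow]; nlinarith [sq_nonneg (1 - a)]) (by positivity)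
  · rw [tub, exp_log (by positivity), mul_smul, smul_add, smul_smul a, mul_div_cancel₀ _ b3.ne',
      ← a4, smul_dir]

lemma cone_one (h : Link γ n l) (hE : ∀ θ, ¬ Emp w (γ θ)) (hc : ∀ θ, ConeCh w (γ θ)) :
    ∃ (H : ℝ × ℝ → ℝ) (s₀ η : ℝ), Decays H ∧ 0 < η ∧
      (∀ p : ℝ × ℝ, s₀ < p.1 → w (conePt γ n H p) = 0) ∧
      ∀ s₁ : ℝ, ∃ R : ℝ, ∀ x, w x = 0 → R < ‖x‖ → ∀ θ, ‖dir x - γ θ‖ < η →
        ∃ p : ℝ × ℝ, s₁ < p.1 ∧ x = conePt γ n H p := by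
  obtain ⟨δ, l₁, C, h1, h2, h3⟩ := tb_unif h hE hc
  have h4 : 0 < min δ 1 := lt_min h1 one_pos
  obtain ⟨H, s₀, h5, h6⟩ := tube_graph h h2 h4 fun θ => (h3 θ).mono (min_le_left _ _) le_rfl le_rfl
  refine ⟨H, s₀, min δ 1 / 2, h5, half_pos h4, fun p hp => ((h6 p hp).2 _ (h6 p hp).1).2 rfl,
    fun s₁ => ⟨2 * exp (max s₀ s₁), fun x hx hR θ hθ => ?_⟩⟩
  obtain ⟨p, t, a1, a2, a3⟩ := exists_tub h (norm_pos_iff.1 (lt_trans (by positivity) hR))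
    (min_le_right _ _) hθ
  have a4 : max s₀ s₁ < p.1 := exp_lt_exp.1 (by linarith)
  refine ⟨p, (le_max_right _ _).trans_lt a4, ?_⟩
  rw [a3, ((h6 p ((le_max_left _ _).trans_lt a4)).2 t a2).1 (a3 ▸ hx)]
  rfl

/-- far out there are no points with direction in a compact set of empty directions -/
lemma emp_compact {K : Set E3} (hK : IsCompact K) (h : ∀ y ∈ K, Emp w y) :
    ∃ R : ℝ, ∀ x, w x = 0 → R ≤ ‖x‖ → dir x ∉ K :=
  hK.induction_on (p := fun s => ∃ R : ℝ, ∀ x, w x = 0 → R ≤ ‖x‖ → dir x ∉ s)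
    ⟨0, fun _ _ _ h => h⟩ (fun _ _ hs ⟨R, hR⟩ => ⟨R, fun x a b c => hR x a b (hs c)⟩)
    (fun _ _ ⟨R, hR⟩ ⟨R', hR'⟩ => ⟨max R R', fun x a b c => c.elim
      (hR x a ((le_max_left _ _).trans b)) (hR' x a ((le_max_right _ _).trans b))⟩)
    fun y hy => by
      obtain ⟨δ, R, h1, h2⟩ := h y hy
      exact ⟨ball y δ, nhdsWithin_le_nhds (ball_mem_nhds y h1), R, fun x a b c =>
        (h2 x a b).not_gt (mem_ball_iff_norm.1 c)⟩

theorem coneEnd_of (hO : OneManStmt) : ConeEndStmt := fun w A _ hA h1 h2 => by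
  have ch : ∀ y ∈ {z ∈ A | ¬ Emp w z}, ConeCh w y ∧ A ∈ 𝓝[sphere 0 1] y := fun y hy =>
    (h2 y hy.1).resolve_left hy.2
  obtain ⟨a, γ, l, c1, c2, c3⟩ := hO {z ∈ A | ¬ Emp w z}
    (hA.inter_right (isOpen_iff_mem_nhds.2 fun _ => Emp.eventually).isClosed_compl)
    fun y hy => link_chart h1 hy.1 hy.2 (ch y hy).1 (ch y hy).2
  have m := fun i θ => (c3 (γ i θ)).2 ⟨i, θ, rfl⟩
  choose n hn using fun i => exists_link (c1 i).1 (c1 i).2.1 (c1 i).2.2.1 (c1 i).2.2.2.1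
    (c1 i).2.2.2.2 fun θ => mem_sphere_zero_iff_norm.1 (h1 (m i θ).1)
  choose H s₀ η b1 b2 b3 b4 using fun i => cone_one (hn i) (fun θ => (m i θ).2)
    fun θ => (ch _ (m i θ)).1
  obtain ⟨s, hs⟩ := (finite_range s₀).bddAbove
  obtain ⟨R₀, hR₀⟩ := emp_compact (w := w) (hA.diff (isOpen_iUnion fun i => isOpen_iUnion fun θ =>
    isOpen_ball (x := γ i θ) (ε := η i))) fun y hy => by
      by_contra hc
      obtain ⟨i, θ, rfl⟩ := (c3 y).1 ⟨hy.1, hc⟩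
      exact hy.2 (mem_iUnion₂.2 ⟨i, θ, mem_ball_self (b2 i)⟩)
  refine ⟨a, γ, n, l, H, s, hn, b1, c2, fun i θ => (m i θ).1,
    fun i p hp => b3 i p ((hs ⟨i, rfl⟩).trans_lt hp), fun s₁ => ?_⟩
  choose R hR using fun i => b4 i s₁
  obtain ⟨R₁, hR₁⟩ := (finite_range R).bddAbove
  refine ⟨max R₀ R₁, fun x hx hxR hd => ?_⟩
  obtain ⟨i, θ, hi⟩ := mem_iUnion₂.1 (not_not.1 fun hc =>
    hR₀ x hx ((le_max_left _ _).trans hxR.le) ⟨hd, hc⟩)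
  exact ⟨i, hR i x hx (((hR₁ ⟨i, rfl⟩).trans (le_max_right _ _)).trans_lt hxR) θ
    (mem_ball_iff_norm.1 hi)⟩

end Vale.Agent.P218N.C
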