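import Vale.Agent.P218N.C.Calc
import Vale.Agent.P218N.C.Final

/-! The local structure of the asymptotic cone near a direction with a cone chart. -/

open Set Filter Topology Metric Real
open scoped RealInnerProductSpace ContDiff Nat

namespace Vale.Agent.P218N.C

open Vale.Agent.P218.H313 Vale.Agent.P218N.H

/-- local defining functions of the rescaled surfaces and their limit -/
structure LC (w : E3 → ℝ) (U : Set E3) (G : ℝ → E3 → ℝ) (G₀ : E3 → ℝ) (e : E3) (l₀ : ℝ)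
    (C : ℕ → ℝ) : Prop where
  op : IsOpen U
  pos : 0 < l₀
  sm : ∀ l ∈ Ioo 0 l₀, ∀ x ∈ U, ContDiffAt ℝ ∞ (G l) x
  iff : ∀ l ∈ Ioo 0 l₀, ∀ x ∈ U, w (l⁻¹ • x) = 0 ↔ G l x = 0
  val : ∀ l ∈ Ioo 0 l₀, ∀ x ∈ U, |G l x - G₀ x| ≤ C 0 * l
  jet : ∀ l ∈ Ioo 0 l₀, ∀ x ∈ U, ∀ j, 1 ≤ j → ‖iteratedFDeriv ℝ j (G l) x‖ ≤ C j
  sm0 : ∀ x ∈ U, ContDiffAt ℝ ∞ G₀ x
  der : ∀ ε : ℝ, 0 < ε → ∃ l₁ : ℝ, 0 < l₁ ∧ ∀ l ∈ Ioo 0 l₁, ∀ x ∈ U,
    ‖fderiv ℝ (G l) x - fderiv ℝ G₀ x‖ ≤ ε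
  unit : ‖e‖ = 1
  e0 : ∀ (x : E3) (t : ℝ), G₀ (x + t • e) = G₀ x + t
  el : ∀ (l : ℝ) (x : E3) (t : ℝ), G l (x + t • e) = G l x + t

variable {w : E3 → ℝ} {y x e : E3} {U : Set E3} {G : ℝ → E3 → ℝ} {G₀ : E3 → ℝ} {l₀ : ℝ}
  {C : ℕ → ℝ}

lemma gw_shift (f : Frame 2 E3) (p : E3) (u : E2 → ℝ) (x : E3) (t : ℝ) :
    f.gw p u (x + t • f.n) = f.gw p u x + t := by
  simp only [Frame.gw, add_sub_right_comm x, map_add, map_smul, f.π_n, smul_zero, add_zero,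
    inner_add_right, real_inner_smul_right, f.inner_nn]
  ring

lemma hasFDerivAt_gw (f : Frame 2 E3) (p : E3) {u : E2 → ℝ}
    (hu : DifferentiableAt ℝ u (f.π (x - p))) :
    HasFDerivAt (f.gw p u) (innerSL ℝ f.n - (fderiv ℝ u (f.π (x - p))).comp f.π) x := by
  have h1 : HasFDerivAt (fun z : E3 => z - p) (ContinuousLinearMap.id ℝ E3) x :=
    (hasFDerivAt_id x).sub_const p
  exact ((innerSL ℝ f.n).hasFDerivAt.comp x h1).sub
    (hu.hasFDerivAt.comp x (f.π.hasFDerivAt.comp x h1))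

lemma contDiffAt_gw (f : Frame 2 E3) (p : E3) {u : E2 → ℝ}
    (hu : ContDiffAt ℝ ∞ u (f.π (x - p))) : ContDiffAt ℝ ∞ (f.gw p u) x :=
  (contDiffAt_const.inner ℝ (contDiffAt_id.sub contDiffAt_const)).sub
    (ContDiffAt.comp (g := u) x hu
      (f.π.contDiff.contDiffAt.comp x (contDiffAt_id.sub contDiffAt_const)))

lemma norm_pi_le (f : Frame 2 E3) : ‖f.π‖ ≤ 1 :=
  ContinuousLinearMap.opNorm_le_bound _ zero_le_one fun v => by simpa using f.norm_π_le v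

lemma jet_gw (f : Frame 2 E3) (p : E3) {u : E2 → ℝ} (hu : ContDiffAt ℝ ∞ u (f.π (x - p)))
    {j : ℕ} (hj : 1 ≤ j) {B : ℝ} (hB : ∀ i ≤ j, ‖iteratedFDeriv ℝ i u (f.π (x - p))‖ ≤ B) :
    ‖iteratedFDeriv ℝ j (f.gw p u) x‖ ≤ 1 + j ! * B := by
  have e : iteratedFDeriv ℝ j (f.gw p u) x = _ :=
    iteratedFDeriv_comp_sub (f := fun v => innerSL ℝ f.n v - u (f.π v)) j p x
  rw [e, fun_iteratedFDeriv_sub_apply (g := fun v => u (f.π v))
    ((innerSL ℝ f.n).contDiff.contDiffAt) ((ContDiffAt.comp (g := u) _ hu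
      f.π.contDiff.contDiffAt).of_le (le_inf j))]
  refine (norm_sub_le _ _).trans (add_le_add ((norm_iter_clm _ _ hj).trans ?_) ?_)
  · rw [innerSL_apply_norm, f.norm_n]
  · simpa using chain (g := u) (f := f.π) hu f.π.contDiff.contDiffAt hB (D := 1)
      fun i h _ => by simpa using (norm_iter_clm _ _ h).trans (norm_pi_le f)

theorem ConeCh.lc (h : ConeCh w y) : ∃ U G G₀ e l₀ C, y ∈ U ∧ LC w U G G₀ e l₀ C := by
  obtain ⟨f, p, ρ, h, l₀, u, h0, hy, h1, h2, C, h3⟩ := h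
  obtain ⟨v, v1, v2, v3⟩ := smLim u ρ l₀ C h0 (fun l hl => (h1 l hl).1) h2 h3
  obtain ⟨ρ', r1, r2⟩ := exists_between hy.1
  choose B hB using h2
  have m : ∀ x ∈ f.cyl p ρ' h, f.π (x - p) ∈ ball (0 : E2) ρ := fun x hx =>
    mem_ball_zero_iff.2 (hx.1.trans r2)
  have su : ∀ l ∈ Ioo 0 l₀, ∀ x ∈ f.cyl p ρ' h, ContDiffAt ℝ ∞ (u l) (f.π (x - p)) :=
    fun l hl x hx => (h1 l hl).1.contDiffAt (isOpen_ball.mem_nhds (m x hx))
  have sv : ∀ x ∈ f.cyl p ρ' h, ContDiffAt ℝ ∞ v (f.π (x - p)) :=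
    fun x hx => v1.contDiffAt (isOpen_ball.mem_nhds (m x hx))
  refine ⟨f.cyl p ρ' h, fun l => f.gw p (u l), f.gw p v, f.n, l₀,
    fun j => if j = 0 then C else 1 + j ! * ∑ i ∈ Finset.range (j + 1), |B i|, ⟨r1, hy.2⟩,
    f.isOpen_cyl _ _ _, h0, fun l hl x hx => contDiffAt_gw f p (su l hl x hx),
    fun l hl x hx => (h1 l hl).2 x ⟨hx.1.trans r2, hx.2⟩, fun l hl x hx => ?_,
    fun l hl x hx j hj => ?_, fun x hx => contDiffAt_gw f p (sv x hx), fun ε hε => ?_, f.norm_n,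
    gw_shift f p v, fun l => gw_shift f p (u l)⟩
  · simpa [Frame.gw, abs_sub_comm] using v2 l hl _ (m x hx)
  · rw [if_neg (by omega)]
    exact jet_gw f p (su l hl x hx) hj fun i hi => ((hB i l hl _ (m x hx)).trans
      (le_abs_self _)).trans (Finset.single_le_sum (f := fun i => |B i|) (fun _ _ => abs_nonneg _)
        (Finset.mem_range.2 (Nat.lt_succ_iff.2 hi)))
  · obtain ⟨l₁, a1, a2⟩ := v3 ρ' ε r2 hε
    refine ⟨min l₀ l₁, lt_min h0 a1, fun l hl x hx => ?_⟩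
    rw [(hasFDerivAt_gw f p ((su l ⟨hl.1, hl.2.trans_le (min_le_left _ _)⟩ x hx).differentiableAt
      (by simp))).fderiv, (hasFDerivAt_gw f p ((sv x hx).differentiableAt (by simp))).fderiv,
      sub_sub_sub_cancel_left, ← ContinuousLinearMap.sub_comp]
    refine (ContinuousLinearMap.opNorm_comp_le _ _).trans ?_
    rw [norm_sub_rev]
    exact (mul_le_of_le_one_right (norm_nonneg _) (norm_pi_le f)).trans
      (a2 l ⟨hl.1, hl.2.trans_le (min_le_right _ _)⟩ _ (mem_ball_zero_iff.2 hx.1))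

lemma dir_smul {t : ℝ} (ht : 0 < t) (x : E3) : dir (t • x) = dir x := by
  rw [dir, dir, norm_smul, Real.norm_of_nonneg ht.le, smul_smul, mul_inv, mul_right_comm,
    inv_mul_cancel₀ ht.ne', one_mul]

lemma dir_unit (hx : ‖x‖ = 1) : dir x = x := by rw [dir, hx, inv_one, one_smul]

lemma continuousAt_dir (hx : x ≠ 0) : ContinuousAt dir x :=
  (continuous_norm.continuousAt.inv₀ (norm_ne_zero_iff.2 hx)).smul continuousAt_id

/-- the zero set of the limit is the asymptotic cone -/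
theorem LC.zero_iff (h : LC w U G G₀ e l₀ C) (hx : x ∈ U) (h0 : x ≠ 0) :
    G₀ x = 0 ↔ ¬ Emp w (dir x) := by
  have hn := norm_pos_iff.2 h0
  have hl : ∀ᶠ l in 𝓝[>] (0 : ℝ), l ∈ Ioo 0 l₀ := Ioo_mem_nhdsGT h.pos
  have hC : Tendsto (fun l : ℝ => C 0 * l) (𝓝[>] 0) (𝓝 0) := by
    simpa using (tendsto_id.const_mul (C 0)).mono_left (nhdsWithin_le_nhds (a := (0 : ℝ)))
  constructor
  · rintro h1 ⟨δ, R, hδ, hR⟩
    have t1 : Tendsto (fun l => G l x) (𝓝[>] 0) (𝓝 0) :=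
      squeeze_zero_norm' (hl.mono fun l hl => by simpa [h1] using h.val l hl x hx) hC
    have t2 : Tendsto (fun l => x + (-G l x) • e) (𝓝[>] 0) (𝓝 x) := by
      simpa using (t1.neg.smul_const e).const_add x
    have t3 : Tendsto (fun l : ℝ => l⁻¹ * ‖x + (-G l x) • e‖) (𝓝[>] 0) atTop :=
      tendsto_inv_nhdsGT_zero.atTop_mul_pos hn t2.norm
    obtain ⟨l, a1, a2, a3, a4⟩ := (hl.and ((t2.eventually (h.op.mem_nhds hx)).and
      ((t3.eventually_ge_atTop R).and (((continuousAt_dir h0).tendsto.comp t2).eventually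
        (ball_mem_nhds _ hδ))))).exists
    have := hR _ ((h.iff l a1 _ a2).2 (by rw [h.el, add_neg_cancel]))
      (by rwa [norm_smul, Real.norm_of_nonneg (inv_pos.2 a1.1).le])
    rw [dir_smul (inv_pos.2 a1.1)] at this
    exact this.not_gt (mem_ball_iff_norm.1 a4)
  · intro h1
    by_contra h2
    have a0 : 0 < |G₀ x| / 2 := half_pos (abs_pos.2 h2)
    obtain ⟨r, hr, hb⟩ := Metric.eventually_nhds_iff_ball.1
      (((h.sm0 x hx).continuousAt.abs.eventually (lt_mem_nhds (half_lt_self (abs_pos.2 h2)))).and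
        (h.op.mem_nhds hx))
    have t1 : Tendsto (fun R : ℝ => ‖x‖ * R⁻¹) atTop (𝓝[>] 0) :=
      tendsto_nhdsWithin_iff.2 ⟨by simpa using tendsto_inv_atTop_zero.const_mul ‖x‖,
        (eventually_gt_atTop 0).mono fun R hR => mul_pos hn (inv_pos.2 hR)⟩
    obtain ⟨R, hR⟩ := eventually_atTop.1 (t1.eventually (hl.and (hC.eventually (gt_mem_nhds a0))))
    refine h1 ⟨r / (2 * ‖x‖), R, by positivity, fun z hz hzR => ?_⟩
    by_contra! hc
    obtain ⟨a1, a2⟩ := hR _ hzR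
    have m : (‖x‖ * ‖z‖⁻¹) • z ∈ ball x r := by
      rw [mem_ball_iff_norm, mul_smul]
      nth_rw 2 [← smul_dir x]
      rw [← dir, ← smul_sub, norm_smul, norm_norm]
      rw [le_div_iff₀ (by positivity)] at hc
      linarith
    obtain ⟨a3, a4⟩ := hb _ m
    have a5 := h.val _ a1 _ a4
    rw [(h.iff _ a1 _ a4).1 (by rwa [inv_smul_smul₀ a1.1.ne']), zero_sub, abs_neg] at a5
    linarith

lemma fderiv_curve {g : E3 → ℝ} {c : ℝ → E3} {c' : E3} {t a : ℝ} {ψ : ℝ → ℝ}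
    (hc : HasDerivAt c c' t) (hg : ContDiffAt ℝ ∞ g (c t)) (hψ : HasDerivAt ψ a t)
    (h : ∀ᶠ s in 𝓝 t, g (c s) = ψ s) : fderiv ℝ g (c t) c' = a :=
  ((hg.differentiableAt (by simp)).hasFDerivAt.comp_hasDerivAt t hc).unique
    (hψ.congr_of_eventuallyEq h)

lemma LC.d_e (h : LC w U G G₀ e l₀ C) (hx : x ∈ U) : fderiv ℝ G₀ x e = 1 := by
  simpa using fderiv_curve (c := fun t : ℝ => x + t • e) (t := 0)
    (((hasDerivAt_id' (0 : ℝ)).smul_const e).const_add x) (by simpa using h.sm0 x hx)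
    ((hasDerivAt_id' (0 : ℝ)).const_add (G₀ x)) (.of_forall fun t => h.e0 x t)

/-- the derivative of the limit vanishes along curves in the cone -/
lemma LC.d_cone (h : LC w U G G₀ e l₀ C) {c : ℝ → E3} {c' : E3} {t : ℝ} (hc : HasDerivAt c c' t)
    (hU : c t ∈ U) (h0 : c t ≠ 0) (hE : ∀ᶠ s in 𝓝 t, ¬ Emp w (dir (c s))) :
    fderiv ℝ G₀ (c t) c' = 0 := by
  refine fderiv_curve hc (h.sm0 _ hU) (hasDerivAt_const t 0) ?_
  filter_upwards [hE, hc.continuousAt.eventually (h.op.mem_nhds hU),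
    hc.continuousAt.eventually_ne h0] with s a1 a2 a3
  exact (h.zero_iff a2 a3).2 a1

lemma LC.d_rad (h : LC w U G G₀ e l₀ C) (hx : x ∈ U) (h0 : x ≠ 0) (hE : ¬ Emp w (dir x)) :
    fderiv ℝ G₀ x x = 0 := by
  simpa using h.d_cone (c := fun t : ℝ => t • x) (t := 1) ((hasDerivAt_id' (1 : ℝ)).smul_const x)
    (by simpa using hx) (by simpa using h0)
    ((lt_mem_nhds one_pos).mono fun s hs => by rwa [dir_smul hs])

/-- the link of the cone is a one-dimensional submanifold -/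
theorem link_chart {A : Set E3} (hA : A ⊆ sphere 0 1) (hy : y ∈ A) (hE : ¬ Emp w y)
    (h : ConeCh w y) (hn : A ∈ 𝓝[sphere 0 1] y) :
    ∃ (V : Set E3) (F : E3 → ℝ × ℝ), IsOpen V ∧ y ∈ V ∧ ContDiffOn ℝ ∞ F V ∧
      (∀ z ∈ V, Function.Surjective (fderiv ℝ F z)) ∧
      ∀ z ∈ V, z ∈ {z ∈ A | ¬ Emp w z} ↔ F z = 0 := by
  obtain ⟨U, G, G₀, e, l₀, C, hU, h⟩ := h.lc
  have y1 : ‖y‖ = 1 := mem_sphere_zero_iff_norm.1 (hA hy)
  have y0 : y ≠ 0 := by rintro rfl; simp at y1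
  have c : ContinuousAt (fun z => ⟪z, y⟫ - ⟪z, e⟫ * fderiv ℝ G₀ z y) y :=
    (continuousAt_id.inner continuousAt_const).sub ((continuousAt_id.inner continuousAt_const).mul
      ((sm_fd (h.sm0 y hU)).continuousAt.clm_apply continuousAt_const))
  obtain ⟨V, h1, h2, h3⟩ := _root_.eventually_nhds_iff.1 ((c.eventually_ne (y := 0) (by
    simp [h.d_rad hU y0 (by rwa [dir_unit y1]), y0])).and ((eventually_nhdsWithin_iff.1 hn).and
      ((continuousAt_id.eventually_ne y0).and (h.op.mem_nhds hU))))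
  refine ⟨V, fun z => (‖z‖ ^ 2 - 1, G₀ z), h2, h3, fun z hz =>
    (((contDiff_norm_sq ℝ).sub contDiff_const).contDiffAt.prodMk
      (h.sm0 z (h1 z hz).2.2.2)).contDiffWithinAt, fun z hz q => ?_, fun z hz => ?_⟩
  · obtain ⟨a1, -, -, a2⟩ := h1 z hz
    rw [((((hasStrictFDerivAt_norm_sq z).hasFDerivAt).sub_const 1).prodMk
      ((h.sm0 z a2).differentiableAt (by simp)).hasFDerivAt).fderiv]
    set α := (q.1 / 2 - ⟪z, e⟫ * q.2) / (⟪z, y⟫ - ⟪z, e⟫ * fderiv ℝ G₀ z y) with hα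
    refine ⟨α • y + (q.2 - fderiv ℝ G₀ z y * α) • e, Prod.ext ?_ ?_⟩
    · rw [eq_div_iff a1] at hα
      simp only [ContinuousLinearMap.prod_apply, smul_apply, innerSL_apply_apply,
        inner_add_right, real_inner_smul_right, nsmul_eq_mul, Nat.cast_ofNat]
      linarith
    · simp only [ContinuousLinearMap.prod_apply]
      simp only [map_add, map_smul, h.d_e a2, smul_eq_mul]
      ring
  · obtain ⟨-, a1, a2, a3⟩ := h1 z hz
    rw [Prod.mk_eq_zero, h.zero_iff a3 a2, sub_eq_zero,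
      pow_eq_one_iff_of_nonneg (norm_nonneg z) two_ne_zero]
    refine ⟨fun ⟨b1, b2⟩ => ?_, fun ⟨b1, b2⟩ => ⟨a1 (mem_sphere_zero_iff_norm.2 b1), ?_⟩⟩
    · have b3 := mem_sphere_zero_iff_norm.1 (hA b1)
      exact ⟨b3, by rwa [dir_unit b3]⟩
    · rwa [dir_unit b1] at b2

end Vale.Agent.P218N.C
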