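import Vale.Agent.P218N.C.ConeLoc
import Vale.Agent.P218N.C.TwoPt

/-! The surface near the cone over a link is a normal graph. -/

open Set Filter Topology Metric Real
open scoped RealInnerProductSpace ContDiff Nat

namespace Vale.Agent.P218N.C

open Vale.Agent.P218.H313 Vale.Agent.P218N.H

variable {w : E3 → ℝ} {y ν : E3} {γ n : ℝ → E3} {l δ l₁ : ℝ} {C : ℕ → ℝ}

/-- the cross product -/
noncomputable def crp (a b : E3) : E3 :=
  !₂[a 1 * b 2 - a 2 * b 1, a 2 * b 0 - a 0 * b 2, a 0 * b 1 - a 1 * b 0]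

lemma crp_spec (a b : E3) : ⟪crp a b, a⟫ = 0 ∧ ⟪crp a b, b⟫ = 0 ∧
    ‖crp a b‖ ^ 2 = ‖a‖ ^ 2 * ‖b‖ ^ 2 - ⟪a, b⟫ ^ 2 := by
  simp only [EuclideanSpace.real_norm_sq_eq, PiLp.inner_apply, Fin.sum_univ_three, crp]
  simp
  refine ⟨?_, ?_, ?_⟩ <;> ring

lemma contDiff_crp {a b : ℝ → E3} (ha : ContDiff ℝ ∞ a) (hb : ContDiff ℝ ∞ b) :
    ContDiff ℝ ∞ fun t => crp (a t) (b t) := by
  have h1 := contDiff_euclidean.1 ha
  have h2 := contDiff_euclidean.1 hb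
  refine contDiff_euclidean.2 fun i => ?_
  fin_cases i <;> exact ((h1 _).mul (h2 _)).sub ((h1 _).mul (h2 _))

lemma inner_deriv (h1 : ContDiff ℝ ∞ γ) (h2 : ∀ θ, ‖γ θ‖ = 1) (θ : ℝ) : ⟪γ θ, deriv γ θ⟫ = 0 := by
  have := (h1.differentiable (by simp) θ).hasDerivAt.norm_sq.unique
    ((hasDerivAt_const θ (1 : ℝ)).congr_of_eventuallyEq (.of_forall fun t => by simp [h2]))
  linarith

lemma exists_link (h1 : ContDiff ℝ ∞ γ) (h2 : ∀ θ, γ (θ + 2 * π) = γ θ) (h3 : 0 < l)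
    (h4 : ∀ θ, ‖deriv γ θ‖ = l) (h5 : InjOn γ (Ico 0 (2 * π))) (h6 : ∀ θ, ‖γ θ‖ = 1) :
    ∃ n, Link γ n l := by
  refine ⟨fun θ => l⁻¹ • crp (γ θ) (deriv γ θ), h1, h2, h6, h3, h4, h5,
    (contDiff_crp h1 (contDiff_infty_iff_deriv.1 h1).2).const_smul _, fun θ => ?_, fun θ => ?_,
    fun θ => ?_, fun θ => ?_⟩
  · rw [← deriv_comp_add_const, funext h2, h2]
  · have := (crp_spec (γ θ) (deriv γ θ)).2.2
    rw [h6, h4, inner_deriv h1 h6, one_pow, one_mul, zero_pow two_ne_zero, sub_zero,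
      sq_eq_sq₀ (norm_nonneg _) h3.le] at this
    rw [norm_smul, this, norm_inv, Real.norm_of_nonneg h3.le, inv_mul_cancel₀ h3.ne']
  · rw [real_inner_smul_left, (crp_spec _ _).1, mul_zero]
  · rw [real_inner_smul_left, (crp_spec _ _).2.1, mul_zero]

/-- the frame `γ, γ', n` -/
lemma link_norm (h : Link γ n l) (θ : ℝ) {u : E3} (hu : ⟪u, deriv γ θ⟫ = 0) :
    ‖u‖ ^ 2 = ⟪u, γ θ⟫ ^ 2 + ⟪u, n θ⟫ ^ 2 := by
  have := (on3 (a := γ θ) (b := l⁻¹ • deriv γ θ) (n := n θ)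
    (by rw [real_inner_self_eq_norm_sq, h.norm, one_pow])
    (by rw [real_inner_self_eq_norm_sq, norm_smul, h.speed, norm_inv, Real.norm_of_nonneg h.pos.le,
      inv_mul_cancel₀ h.pos.ne', one_pow])
    (by rw [real_inner_self_eq_norm_sq, h.nnorm, one_pow])
    (by rw [real_inner_smul_right, inner_deriv h.smooth h.norm, mul_zero])
    (by rw [real_inner_comm, h.orth]) (by rw [real_inner_comm, real_inner_smul_right, h.orth',
      mul_zero])).2 u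
  rwa [real_inner_smul_right, hu, mul_zero, zero_pow two_ne_zero, add_zero] at this

lemma link_eq (h : Link γ n l) (θ : ℝ) {u : E3} (hu : ⟪u, deriv γ θ⟫ = 0) :
    u = ⟪u, γ θ⟫ • γ θ + ⟪u, n θ⟫ • n θ := by
  have := link_norm h θ (u := u - (⟪u, γ θ⟫ • γ θ + ⟪u, n θ⟫ • n θ)) (by
    simp only [inner_sub_left, inner_add_left, real_inner_smul_left, hu, h.orth',
      inner_deriv h.smooth h.norm]
    ring)
  simp only [inner_sub_left, inner_add_left, real_inner_smul_left, h.orth,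
    (real_inner_comm _ _).trans (h.orth θ), real_inner_self_eq_norm_sq, h.norm, h.nnorm] at this
  exact sub_eq_zero.1 (norm_eq_zero.1 (pow_eq_zero_iff two_ne_zero |>.1 (by linarith)))

/-- defining functions of the rescaled surfaces in a ball, transversal to `ν` -/
def TB (w : E3 → ℝ) (y ν : E3) (δ l₁ : ℝ) (C : ℕ → ℝ) : Prop :=
  ∀ l ∈ Ioo 0 l₁, ∃ g : E3 → ℝ, |g y| ≤ C 0 * l ∧ ∀ x ∈ ball y δ, ContDiffAt ℝ ∞ g x ∧
    (w (l⁻¹ • x) = 0 ↔ g x = 0) ∧ 1 / 2 ≤ fderiv ℝ g x ν ∧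
      ∀ j, 1 ≤ j → ‖iteratedFDeriv ℝ j g x‖ ≤ C j

lemma TB.mono (h : TB w y ν δ l₁ C) {δ' l' : ℝ} {C' : ℕ → ℝ} (h1 : δ' ≤ δ) (h2 : l' ≤ l₁)
    (h3 : C ≤ C') : TB w y ν δ' l' C' := fun l hl => by
  obtain ⟨g, a1, a2⟩ := h l ⟨hl.1, hl.2.trans_le h2⟩
  refine ⟨g, a1.trans (mul_le_mul_of_nonneg_right (h3 0) hl.1.le), fun x hx => ?_⟩
  obtain ⟨b1, b2, b3, b4⟩ := a2 x (ball_subset_ball h1 hx)
  exact ⟨b1, b2, b3, fun j hj => (b4 j hj).trans (h3 j)⟩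

lemma tb_loc (h : Link γ n l) (hE : ∀ θ, ¬ Emp w (γ θ)) {θ₀ : ℝ} (hc : ConeCh w (γ θ₀)) :
    ∃ δ l₁ C, 0 < δ ∧ 0 < l₁ ∧ ∀ᶠ θ in 𝓝 θ₀, TB w (γ θ) (n θ) δ l₁ C := by
  obtain ⟨U, G, G₀, e, l₀, C, hU, H⟩ := hc.lc
  have g0 : ∀ θ, γ θ ≠ 0 := fun θ => norm_ne_zero_iff.1 (by rw [h.norm]; exact one_ne_zero)
  have hE' : ∀ θ, ¬ Emp w (dir (γ θ)) := fun θ => by rw [dir_unit (h.norm θ)]; exact hE θ
  obtain ⟨c, hc⟩ : ∃ c, c = fderiv ℝ G₀ (γ θ₀) (n θ₀) := ⟨_, rfl⟩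
  have c1 : 1 ≤ c ^ 2 := by
    have a1 := link_norm h θ₀ (u := grad G₀ (γ θ₀)) (by
      rw [inner_grad]
      exact H.d_cone (h.smooth.differentiable (by simp) θ₀).hasDerivAt hU (g0 _) (.of_forall hE'))
    have a2 := abs_real_inner_le_norm (grad G₀ (γ θ₀)) e
    rw [inner_grad, inner_grad, H.d_rad hU (g0 _) (hE' _), ← hc] at a1
    rw [inner_grad, H.d_e hU, H.unit, abs_one, mul_one] at a2
    nlinarith
  have c0 : 0 < |c| := abs_pos.2 (by rintro rfl; norm_num at c1)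
  have k : ContinuousAt (fun q : E3 × E3 => c * fderiv ℝ G₀ q.1 q.2) (γ θ₀, n θ₀) :=
    continuousAt_const.mul ((ContinuousAt.comp (g := fderiv ℝ G₀) (f := Prod.fst)
      (x := (γ θ₀, n θ₀)) (sm_fd (H.sm0 _ hU)).continuousAt continuousAt_fst).clm_apply continuousAt_snd)
  obtain ⟨r, hr, hb⟩ := Metric.eventually_nhds_iff_ball.1 ((k.eventually (lt_mem_nhds
    (show 3 / 4 < c * fderiv ℝ G₀ (γ θ₀) (n θ₀) by rw [← hc]; linarith))).and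
      (continuousAt_fst.eventually (H.op.mem_nhds hU)))
  obtain ⟨l₂, h2, hl₂⟩ := H.der (1 / (4 * |c|)) (by positivity)
  refine ⟨r / 2, min l₀ l₂, fun j => |c| * C j, half_pos hr, lt_min H.pos h2, ?_⟩
  filter_upwards [h.smooth.continuous.continuousAt.eventually (ball_mem_nhds _ (half_pos hr)),
    h.nsmooth.continuous.continuousAt.eventually (ball_mem_nhds _ hr)] with θ a1 a2 l hl
  have l0 : l ∈ Ioo 0 l₀ := ⟨hl.1, hl.2.trans_le (min_le_left _ _)⟩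
  have m : ∀ x ∈ ball (γ θ) (r / 2), 3 / 4 < c * fderiv ℝ G₀ x (n θ) ∧ x ∈ U := fun x hx =>
    hb (x, n θ) (by
      rw [← ball_prod_same]
      exact ⟨mem_ball.2 (by linarith [dist_triangle x (γ θ) (γ θ₀), mem_ball.1 hx]), a2⟩)
  refine ⟨fun x => c • G l x, ?_, fun x hx => ?_⟩
  · have b1 := (m _ (mem_ball_self (half_pos hr))).2
    have b2 := H.val l l0 _ b1
    rw [(H.zero_iff b1 (g0 θ)).2 (hE' θ), sub_zero] at b2
    simp only [smul_eq_mul, abs_mul, mul_assoc]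
    exact mul_le_mul_of_nonneg_left b2 c0.le
  obtain ⟨b1, b2⟩ := m x hx
  have b3 := H.sm l l0 x b2
  refine ⟨b3.const_smul c, by rw [H.iff l l0 x b2, smul_eq_zero_iff_right (abs_pos.1 c0)], ?_,
    fun j hj => ?_⟩
  · rw [fderiv_fun_const_smul (b3.differentiableAt (by simp)), smul_apply, smul_eq_mul]
    have b4 := ((fderiv ℝ (G l) x - fderiv ℝ G₀ x).le_of_opNorm_le
      (hl₂ l ⟨hl.1, hl.2.trans_le (min_le_right _ _)⟩ x b2) (n θ))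
    rw [h.nnorm, mul_one, sub_apply, Real.norm_eq_abs, le_div_iff₀ (by positivity)] at b4
    have b5 := neg_abs_le (c * (fderiv ℝ (G l) x (n θ) - fderiv ℝ G₀ x (n θ)))
    rw [abs_mul] at b5
    linarith
  · rw [iteratedFDeriv_const_smul_apply' (b3.of_le (le_inf j)), norm_smul, Real.norm_eq_abs]
    exact mul_le_mul_of_nonneg_left (H.jet l l0 x b2 j hj) c0.le

lemma link_red (h : Link γ n l) (θ : ℝ) : ∃ θ' ∈ Icc 0 (2 * π), ∀ t,
    γ (t - (θ - θ')) = γ t ∧ n (t - (θ - θ')) = n t :=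
  ⟨toIcoMod two_pi_pos 0 θ, Ico_subset_Icc_self (toIcoMod_mem_Ico' _ _), fun t => by
    rw [self_sub_toIcoMod]
    exact ⟨Function.Periodic.sub_zsmul_eq h.per _, Function.Periodic.sub_zsmul_eq h.nper _⟩⟩

lemma tb_unif (h : Link γ n l) (hE : ∀ θ, ¬ Emp w (γ θ)) (hc : ∀ θ, ConeCh w (γ θ)) :
    ∃ δ l₁ C, 0 < δ ∧ 0 < l₁ ∧ ∀ θ, TB w (γ θ) (n θ) δ l₁ C := by
  obtain ⟨δ, l₁, C, h1, h2, h3⟩ := (isCompact_Icc (a := (0 : ℝ)) (b := 2 * π)).induction_on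
    (p := fun s => ∃ δ l₁ C, 0 < δ ∧ 0 < l₁ ∧ ∀ θ ∈ s, TB w (γ θ) (n θ) δ l₁ C)
    ⟨1, 1, 0, one_pos, one_pos, fun _ h => h.elim⟩
    (fun s t hs ⟨δ, l₁, C, h1, h2, h3⟩ => ⟨δ, l₁, C, h1, h2, fun θ h => h3 θ (hs h)⟩)
    (fun s t ⟨δ, l₁, C, h1, h2, h3⟩ ⟨δ', l₁', C', h1', h2', h3'⟩ =>
      ⟨min δ δ', min l₁ l₁', C ⊔ C', lt_min h1 h1', lt_min h2 h2', fun θ h => h.elim
        (fun h => (h3 θ h).mono (min_le_left _ _) (min_le_left _ _) le_sup_left)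
        fun h => (h3' θ h).mono (min_le_right _ _) (min_le_right _ _) le_sup_right⟩)
    fun θ _ => by
      obtain ⟨δ, l₁, C, h1, h2, h3⟩ := tb_loc h hE (hc θ)
      exact ⟨_, nhdsWithin_le_nhds h3, δ, l₁, C, h1, h2, fun _ h => h⟩
  refine ⟨δ, l₁, C, h1, h2, fun θ => ?_⟩
  obtain ⟨θ', a1, a2⟩ := link_red h θ
  rw [← (a2 θ).1, ← (a2 θ).2, sub_sub_cancel]
  exact h3 _ a1

lemma root_one {f f' : ℝ → ℝ} {a : ℝ} (ha : 2 * a < δ)
    (hf : ∀ t ∈ Ioo (-δ) δ, HasDerivAt f (f' t) t ∧ 1 / 2 ≤ f' t) (h0 : |f 0| ≤ a) :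
    ∃ t₀, |t₀| ≤ 2 * a ∧ ∀ t ∈ Ioo (-δ) δ, f t = 0 ↔ t = t₀ := by
  have a0 := (abs_nonneg _).trans h0
  have hc : ContinuousOn f (Ioo (-δ) δ) := fun t ht => (hf t ht).1.continuousAt.continuousWithinAt
  have m := (convex_Ioo (-δ) δ).mul_sub_le_image_sub_of_le_deriv hc (C := 1 / 2)
    (fun t ht => (hf t (interior_subset ht)).1.differentiableAt.differentiableWithinAt)
    fun t ht => by rw [(hf t (interior_subset ht)).1.deriv]; exact (hf t (interior_subset ht)).2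
  have s : Icc (-(2 * a)) (2 * a) ⊆ Ioo (-δ) δ := Icc_subset_Ioo (by linarith) ha
  have m1 := m _ (s ⟨le_rfl, by linarith⟩) 0 (s ⟨by linarith, by linarith⟩) (by linarith)
  have m2 := m 0 (s ⟨by linarith, by linarith⟩) _ (s ⟨by linarith, le_rfl⟩) (by linarith)
  obtain ⟨t₀, h1, h2⟩ := intermediate_value_Icc (by linarith) (hc.mono s)
    (show (0 : ℝ) ∈ _ from ⟨by linarith [(abs_le.1 h0).2], by linarith [(abs_le.1 h0).1]⟩)
  refine ⟨t₀, abs_le.2 h1, fun t ht => ⟨fun h3 => ?_, fun h3 => h3 ▸ h2⟩⟩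
  rcases le_total t t₀ with h | h
  · linarith [m t ht t₀ (s h1) h]
  · linarith [m t₀ (s h1) t ht h]

lemma implSm' {F : (ℝ × ℝ) × ℝ → ℝ} {H : ℝ × ℝ → ℝ} {p : ℝ × ℝ} (hc : ContDiffAt ℝ ∞ F (p, H p))
    (h1 : fderiv ℝ F (p, H p) (0, 1) ≠ 0) (h2 : ∀ᶠ q in 𝓝 (p, H p), F q = 0 ↔ q.2 = H q.1) :
    ContDiffAt ℝ ∞ H p := by
  have hi : (fderiv ℝ F (p, H p) ∘L .inr ℝ (ℝ × ℝ) ℝ).IsInvertible :=
    ⟨ContinuousLinearEquiv.unitsEquivAut ℝ (Units.mk0 _ h1), by ext; simp⟩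
  have h3 := hc.contDiffAt_implicitFunction (by simp) hi
  have h4 := (continuousAt_id.prodMk h3.continuousAt).tendsto
  rw [hc.implicitFunction_apply_self (by simp) hi] at h4
  refine h3.congr_of_eventuallyEq ?_
  filter_upwards [h4.eventually h2, hc.eventually_apply_implicitFunction (by simp) hi] with y a1 a2
  exact (a1.1 (a2.trans (h2.self_of_nhds.2 rfl))).symm

/-- tubular coordinates around the cone -/
noncomputable def tub (γ n : ℝ → E3) (q : (ℝ × ℝ) × ℝ) : E3 := exp q.1.1 • (γ q.1.2 + q.2 • n q.1.2)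

lemma contDiff_tub (h : Link γ n l) : ContDiff ℝ ∞ (tub γ n) :=
  (contDiff_exp.comp (contDiff_fst.comp contDiff_fst)).smul
    ((h.smooth.comp (contDiff_snd.comp contDiff_fst)).add
      (contDiff_snd.smul (h.nsmooth.comp (contDiff_snd.comp contDiff_fst))))

lemma jet_tub (h : Link γ n l) (δ : ℝ) (k : ℕ) : ∃ B : ℝ, ∀ (p : ℝ × ℝ) (t : ℝ), |t| ≤ δ →
    ∀ j ≤ k, ‖iteratedFDeriv ℝ j (fun q => exp (-p.1) • tub γ n q) (p, t)‖ ≤ B := by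
  obtain ⟨B, hB⟩ := jet_compact (K := ({0} ×ˢ Icc 0 (2 * π)) ×ˢ Icc (-δ) δ)
    ((isCompact_singleton.prod isCompact_Icc).prod isCompact_Icc)
    (fun _ _ => (contDiff_tub h).contDiffAt) k
  refine ⟨B, fun p t ht j hj => ?_⟩
  obtain ⟨θ', a1, a2⟩ := link_red h p.2
  have e : (fun q => exp (-p.1) • tub γ n q) = fun q => tub γ n (q - ((p.1, p.2 - θ'), 0)) := by
    funext q
    simp only [tub, Prod.fst_sub, Prod.snd_sub, a2, sub_zero, smul_smul, ← exp_add, neg_add_eq_sub]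
  rw [e, iteratedFDeriv_comp_sub]
  exact hB _ ⟨⟨by simp, by simpa using a1⟩, by simpa using abs_le.1 ht⟩ j hj

theorem tube_graph (h : Link γ n l) (hl : 0 < l₁) (hδ : 0 < δ)
    (hT : ∀ θ, TB w (γ θ) (n θ) δ l₁ C) : ∃ (H : ℝ × ℝ → ℝ) (s₀ : ℝ), Decays H ∧
      ∀ p : ℝ × ℝ, s₀ < p.1 → H p ∈ Ioo (-δ) δ ∧
        ∀ t ∈ Ioo (-δ) δ, w (tub γ n (p, t)) = 0 ↔ t = H p := by
  have t1 : Tendsto (fun s : ℝ => 2 * (C 0 * exp (-s))) atTop (𝓝 0) := by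
    simpa using (tendsto_exp_neg_atTop_nhds_zero.const_mul (C 0)).const_mul 2
  obtain ⟨s₀, hs⟩ := eventually_atTop.1 ((tendsto_exp_neg_atTop_nhds_zero.eventually
    (gt_mem_nhds hl)).and (t1.eventually (gt_mem_nhds hδ)))
  choose! g g0 hg using fun (p : ℝ × ℝ) (hp : s₀ < p.1) =>
    hT p.2 (exp (-p.1)) ⟨exp_pos _, (hs _ hp.le).1⟩
  have e1 : ∀ (s : ℝ) (x : E3), (exp (-s))⁻¹ • exp (-s) • x = x := fun s x =>
    inv_smul_smul₀ (exp_pos _).ne' x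
  have e2 : ∀ (p : ℝ × ℝ) (t : ℝ), exp (-p.1) • tub γ n (p, t) = γ p.2 + t • n p.2 := fun p t => by
    rw [tub, smul_smul, ← exp_add, neg_add_cancel, exp_zero, one_smul]
  have m : ∀ (θ : ℝ), ∀ t ∈ Ioo (-δ) δ, γ θ + t • n θ ∈ ball (γ θ) δ := fun θ t ht => by
    rw [mem_ball_iff_norm, add_sub_cancel_left, norm_smul, h.nnorm, mul_one]
    exact abs_lt.2 ht
  have d : ∀ p : ℝ × ℝ, s₀ < p.1 → ∀ t ∈ Ioo (-δ) δ, HasDerivAt (fun t => g p (γ p.2 + t • n p.2))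
      (fderiv ℝ (g p) (γ p.2 + t • n p.2) (n p.2)) t := fun p hp t ht => by
    have := ((hg p hp _ (m _ t ht)).1.differentiableAt (by simp)).hasFDerivAt.comp_hasDerivAt t
      (((hasDerivAt_id' t).smul_const (n p.2)).const_add (γ p.2))
    rwa [one_smul] at this
  have ex : ∀ p : ℝ × ℝ, s₀ < p.1 → ∃ t₀, |t₀| ≤ 2 * (C 0 * exp (-p.1)) ∧
      ∀ t ∈ Ioo (-δ) δ, w (tub γ n (p, t)) = 0 ↔ t = t₀ := fun p hp => by
    obtain ⟨t₀, a1, a2⟩ := root_one (hs _ hp.le).2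
      (fun t ht => ⟨d p hp t ht, (hg p hp _ (m _ t ht)).2.2.1⟩) (by simpa using g0 p hp)
    refine ⟨t₀, a1, fun t ht => ?_⟩
    rw [← a2 t ht, ← (hg p hp _ (m _ t ht)).2.1, ← e2, e1]
  choose! H H1 H2 using ex
  have H3 : ∀ p : ℝ × ℝ, s₀ < p.1 → H p ∈ Ioo (-δ) δ := fun p hp =>
    abs_lt.1 ((H1 p hp).trans_lt (hs _ hp.le).2)
  have ev : ∀ p : ℝ × ℝ, s₀ < p.1 → ∀ᶠ p' in 𝓝 p, s₀ < p'.1 := fun p hp =>
    continuous_fst.continuousAt.eventually (lt_mem_nhds hp)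
  have sT : ∀ s : ℝ, ContDiff ℝ ∞ fun q => exp (-s) • tub γ n q := fun s =>
    (contDiff_tub h).const_smul _
  have F1 : ∀ p : ℝ × ℝ, s₀ < p.1 → ∀ᶠ q in 𝓝 (p, H p),
      ContDiffAt ℝ ∞ (fun q => g p (exp (-p.1) • tub γ n q)) q ∧
        (g p (exp (-p.1) • tub γ n q) = 0 ↔ q.2 = H q.1) := fun p hp => by
    filter_upwards [(sT p.1).continuous.continuousAt.eventually (isOpen_ball.mem_nhds
      ((e2 p (H p)).symm ▸ m _ _ (H3 p hp) : exp (-p.1) • tub γ n (p, H p) ∈ _)), continuousAt_fst.eventually (ev p hp),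
      continuousAt_snd.eventually (isOpen_Ioo.mem_nhds (H3 p hp))] with q a1 a2 a3
    exact ⟨ContDiffAt.comp (g := g p) q (hg p hp _ a1).1 (sT p.1).contDiffAt,
      by rw [← (hg p hp _ a1).2.1, e1, H2 _ a2 _ a3]⟩
  have F2 : ∀ p : ℝ × ℝ, s₀ < p.1 →
      1 / 2 ≤ fderiv ℝ (fun q => g p (exp (-p.1) • tub γ n q)) (p, H p) (0, 1) := fun p hp => by
    have a1 := ((F1 p hp).self_of_nhds.1.differentiableAt (by simp)).hasFDerivAt.comp_hasDerivAt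
      (H p) ((hasDerivAt_const (H p) p).prodMk (hasDerivAt_id' (H p)))
    rw [a1.unique ((d p hp _ (H3 p hp)).congr_of_eventuallyEq (.of_forall fun t => by simp [e2]))]
    exact (hg p hp _ (m _ _ (H3 p hp))).2.2.1
  have sH : ∀ p : ℝ × ℝ, s₀ < p.1 → ContDiffAt ℝ ∞ H p := fun p hp =>
    implSm' (F1 p hp).self_of_nhds.1 (by linarith [F2 p hp]) ((F1 p hp).mono fun _ h => h.2)
  refine Exists.imp (fun H' ⟨a1, a2⟩ => ⟨s₀ + 1, a1, fun p hp => by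
    rw [a2 p hp.le]; exact ⟨H3 p (by linarith), H2 p (by linarith)⟩⟩)
    (interp H s₀ sH (fun s θ hp => ?_) (fun k => ?_) fun ε hε => ?_)
  · refine (H2 (s, θ) hp _ (H3 (s, θ + 2 * π) hp)).1 ?_
    simpa only [tub, h.per, h.nper] using (H2 (s, θ + 2 * π) hp _ (H3 (s, θ + 2 * π) hp)).2 rfl
  · rcases Nat.eq_zero_or_pos k with rfl | hk
    · exact ⟨δ, fun p hp => by simpa using (abs_lt.2 (H3 p hp)).le⟩
    obtain ⟨B, hB⟩ := jet_tub h δ k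
    obtain ⟨B', hB'⟩ := (finite_le_nat k).image C |>.bddAbove
    obtain ⟨D, hD⟩ := impl k (1 / 2) (cb k (max B B')) one_half_pos
    refine ⟨D, fun p hp => hD _ H p ((F1 p hp).mono fun _ h => h.1) ?_
      ((F2 p hp).trans (le_abs_self _)) ?_ k hk le_rfl⟩
    · filter_upwards [ev p hp, (continuousAt_id.prodMk (sH p hp).continuousAt).eventually (F1 p hp)]
        with p' b1 b2
      exact ⟨sH p' b1, b2.2.2 rfl⟩
    · have b1 := hg p hp (exp (-p.1) • tub γ n (p, H p)) (by rw [e2]; exact m _ _ (H3 p hp))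
      exact chain_bd' (g := g p) b1.1 (sT p.1).contDiffAt
        (fun i h1 h2 => ((b1.2.2.2 i h1).trans (hB' ⟨i, h2, rfl⟩)).trans (le_max_right _ _))
        fun i _ h2 => (hB p _ (abs_lt.2 (H3 p hp)).le i h2).trans (le_max_left _ _)
  · obtain ⟨s₁, b⟩ := eventually_atTop.1 ((t1.eventually (gt_mem_nhds hε)).and
      (eventually_gt_atTop s₀))
    exact ⟨s₁, fun p hp => (H1 p (b _ hp).2).trans (b _ hp).1.le⟩

end Vale.Agent.P218N.C
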