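import Vale.Agent.P218N.C.Iso

/-! Block C, cylindrical ends: cylinder coordinates and graph charts along the tube. -/

open MeasureTheory Set Filter Topology Metric Real
open scoped RealInnerProductSpace ContDiff

namespace Vale.Agent.P218N.C.Cyl

open Vale.Agent.P218.H313 Vale.Agent.P218N.H

/-- the radial unit vector -/
noncomputable def er (Q : E3 ≃ₗᵢ[ℝ] E3) (θ : ℝ) : E3 := Q !₂[cos θ, sin θ, 0]

/-- cylinder coordinates -/
noncomputable def PP (Q : E3 ≃ₗᵢ[ℝ] E3) (q : (ℝ × ℝ) × ℝ) : E3 :=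
  q.1.1 • axis Q + (√2 * (1 + q.2)) • er Q q.1.2

variable {Q : E3 ≃ₗᵢ[ℝ] E3}

lemma comb (Q : E3 ≃ₗᵢ[ℝ] E3) (s r θ : ℝ) :
    s • axis Q + r • er Q θ = Q !₂[r * cos θ, r * sin θ, s] := by
  rw [axis, er, ← map_smul, ← map_smul, ← map_add]
  congr 1
  ext i
  fin_cases i <;> simp

lemma cylPt_eq (Q : E3 ≃ₗᵢ[ℝ] E3) (v : ℝ × ℝ → ℝ) (p : ℝ × ℝ) : cylPt Q v p = PP Q (p, v p) := by
  rw [PP, comb, cylPt]

lemma norm_axis (Q : E3 ≃ₗᵢ[ℝ] E3) : ‖axis Q‖ = 1 := by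
  rw [axis, Q.norm_map, EuclideanSpace.norm_eq]
  simp [Fin.sum_univ_three]

lemma norm_er (Q : E3 ≃ₗᵢ[ℝ] E3) (θ : ℝ) : ‖er Q θ‖ = 1 := by
  rw [er, Q.norm_map, EuclideanSpace.norm_eq]
  simp [Fin.sum_univ_three]

lemma inner_axis_er (Q : E3 ≃ₗᵢ[ℝ] E3) (θ : ℝ) : ⟪axis Q, er Q θ⟫ = 0 := by
  rw [axis, er, Q.inner_map_map]
  simp [PiLp.inner_apply, Fin.sum_univ_three]

lemma inner_PP (Q : E3 ≃ₗᵢ[ℝ] E3) (q : (ℝ × ℝ) × ℝ) : ⟪axis Q, PP Q q⟫ = q.1.1 := by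
  rw [PP, inner_add_right, real_inner_smul_right, real_inner_smul_right, inner_axis_er,
    real_inner_self_eq_norm_sq, norm_axis]
  ring

lemma inner_er_PP (Q : E3 ≃ₗᵢ[ℝ] E3) (q : (ℝ × ℝ) × ℝ) :
    ⟪er Q q.1.2, PP Q q⟫ = √2 * (1 + q.2) := by
  rw [PP, inner_add_right, real_inner_smul_right, real_inner_smul_right, real_inner_comm,
    inner_axis_er, real_inner_self_eq_norm_sq, norm_er]
  ring

lemma perp_PP (Q : E3 ≃ₗᵢ[ℝ] E3) (q : (ℝ × ℝ) × ℝ) :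
    perp (axis Q) (PP Q q) = (√2 * (1 + q.2)) • er Q q.1.2 := by
  rw [perp_apply, inner_PP, PP, add_sub_cancel_left]

lemma norm_perp_PP (Q : E3 ≃ₗᵢ[ℝ] E3) {q : (ℝ × ℝ) × ℝ} (hq : -1 ≤ q.2) :
    ‖perp (axis Q) (PP Q q)‖ = √2 * (1 + q.2) := by
  rw [perp_PP, norm_smul, norm_er, mul_one, Real.norm_eq_abs, abs_of_nonneg]
  exact mul_nonneg (Real.sqrt_nonneg _) (by linarith)

lemma er_per (Q : E3 ≃ₗᵢ[ℝ] E3) : Function.Periodic (er Q) (2 * π) := fun θ => by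
  simp only [er, cos_add_two_pi, sin_add_two_pi]

lemma PP_add (Q : E3 ≃ₗᵢ[ℝ] E3) (p : ℝ × ℝ) (t t' : ℝ) :
    PP Q (p, t') = PP Q (p, t) + (√2 * (t' - t)) • er Q p.2 := by
  simp only [PP]
  rw [add_assoc, ← add_smul]
  congr 2
  ring

lemma polar (Q : E3 ≃ₗᵢ[ℝ] E3) (x : E3) : ∃ q : (ℝ × ℝ) × ℝ, -1 ≤ q.2 ∧ x = PP Q q := by
  set a : E3 := Q.symm x with ha
  set z : ℂ := ⟨a 0, a 1⟩ with hz
  have h2 : (0 : ℝ) < √2 := by positivity
  refine ⟨((a 2, z.arg), ‖z‖ / √2 - 1), ?_, ?_⟩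
  · have : 0 ≤ ‖z‖ / √2 := by positivity
    simp only; linarith
  · have h1 : √2 * (1 + (‖z‖ / √2 - 1)) = ‖z‖ := by field_simp; ring
    simp only [PP]
    rw [h1, comb, Complex.norm_mul_cos_arg, Complex.norm_mul_sin_arg,
      ← Q.apply_symm_apply x, ← ha]
    congr 1
    ext i
    fin_cases i <;> simp [hz]

lemma contDiff_er (Q : E3 ≃ₗᵢ[ℝ] E3) : ContDiff ℝ ∞ (er Q) := by
  refine Q.contDiff.comp ?_
  rw [contDiff_euclidean]
  intro i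
  fin_cases i
  · simpa using contDiff_cos
  · simpa using contDiff_sin
  · simpa using contDiff_const

lemma contDiff_PP (Q : E3 ≃ₗᵢ[ℝ] E3) : ContDiff ℝ ∞ (PP Q) :=
  (contDiff_fst.fst.smul contDiff_const).add
    ((contDiff_const.mul (contDiff_const.add contDiff_snd)).smul
      ((contDiff_er Q).comp contDiff_fst.snd))

lemma hasDerivAt_slice {X F : Type*} [NormedAddCommGroup X] [NormedSpace ℝ X]
    [NormedAddCommGroup F] [NormedSpace ℝ F] {G : X × ℝ → F} {p : X} {t : ℝ}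
    (hG : DifferentiableAt ℝ G (p, t)) :
    HasDerivAt (fun t => G (p, t)) (fderiv ℝ G (p, t) (0, 1)) t :=
  hG.hasFDerivAt.comp_hasDerivAt t ((hasDerivAt_const t p).prodMk (hasDerivAt_id t))

lemma fderiv_PP (Q : E3 ≃ₗᵢ[ℝ] E3) (p : ℝ × ℝ) (t : ℝ) :
    fderiv ℝ (PP Q) (p, t) (0, 1) = √2 • er Q p.2 := by
  refine (hasDerivAt_slice ((contDiff_PP Q).differentiable (by simp) _)).unique ?_
  have h := (((hasDerivAt_id t).const_add 1).const_mul √2).smul_const (er Q p.2)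
  rw [mul_one] at h
  exact h.const_add (p.1 • axis Q)

lemma fderiv_comp_PP {G : E3 → ℝ} {p : ℝ × ℝ} {t : ℝ} (hG : DifferentiableAt ℝ G (PP Q (p, t))) :
    fderiv ℝ (fun q => G (PP Q q)) (p, t) (0, 1) = √2 * fderiv ℝ G (PP Q (p, t)) (er Q p.2) := by
  have h := hG.hasFDerivAt.comp (p, t) ((contDiff_PP Q).differentiable (by simp) _).hasFDerivAt
  have h' : HasFDerivAt (fun q => G (PP Q q)) _ (p, t) := h
  rw [h'.fderiv, ContinuousLinearMap.comp_apply, fderiv_PP, map_smul, smul_eq_mul]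

/-- uniform bounds for the derivatives of the cylinder coordinates -/
lemma jets_PP (Q : E3 ≃ₗᵢ[ℝ] E3) (j : ℕ) : ∃ D : ℝ, ∀ q : (ℝ × ℝ) × ℝ, |q.2| ≤ 1 →
    ‖iteratedFDeriv ℝ (j + 1) (PP Q) q‖ ≤ D := by
  have hc : Continuous fun q => iteratedFDeriv ℝ j (fderiv ℝ (PP Q)) q :=
    ((contDiff_PP Q).fderiv_right (m := ∞) (by simp)).continuous_iteratedFDeriv
      (by exact_mod_cast le_top)
  have hK : IsCompact ((({0} : Set ℝ) ×ˢ Icc (0 : ℝ) (2 * π)) ×ˢ Icc (-1 : ℝ) 1) :=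
    (isCompact_singleton.prod isCompact_Icc).prod isCompact_Icc
  obtain ⟨D, hD⟩ := hK.exists_bound_of_continuousOn hc.continuousOn
  refine ⟨D, fun q hq => ?_⟩
  set n : ℤ := toIcoDiv two_pi_pos 0 q.1.2 with hn
  set c : (ℝ × ℝ) × ℝ := ((q.1.1, n • (2 * π)), 0) with hc'
  have h1 : ∀ a, PP Q (a + c) = PP Q a + q.1.1 • axis Q := fun a => by
    simp only [PP, hc', Prod.fst_add, Prod.snd_add, add_zero, add_smul]
    rw [(er_per Q).zsmul n]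
    abel
  have h2 : (fun a => fderiv ℝ (PP Q) (a + c)) = fderiv ℝ (PP Q) := by
    funext a
    rw [← fderiv_comp_add_right, funext h1, fderiv_add_const]
  have h3 := iteratedFDeriv_comp_add_right (𝕜 := ℝ) (f := fderiv ℝ (PP Q)) j c (q - c)
  rw [h2, sub_add_cancel] at h3
  rw [← norm_iteratedFDeriv_fderiv, ← h3]
  refine hD _ ⟨⟨by simp [hc'], ?_⟩, ?_⟩
  · have := toIcoMod_mem_Ico two_pi_pos 0 q.1.2
    rw [zero_add] at this
    exact Ico_subset_Icc_self this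
  · simpa [hc'] using abs_le.1 hq

lemma jets_PP' (Q : E3 ≃ₗᵢ[ℝ] E3) (k : ℕ) : ∃ D : ℝ, 1 ≤ D ∧ ∀ q : (ℝ × ℝ) × ℝ, |q.2| ≤ 1 →
    ∀ j, 1 ≤ j → j ≤ k → ‖iteratedFDeriv ℝ j (PP Q) q‖ ≤ D := by
  choose D hD using jets_PP Q
  refine ⟨1 + ∑ i ∈ Finset.range k, |D i|, le_add_of_nonneg_right (by positivity),
    fun q hq j h1 h2 => ?_⟩
  obtain ⟨i, rfl⟩ : ∃ i, j = i + 1 := ⟨j - 1, by omega⟩
  have := Finset.single_le_sum (f := fun i => |D i|) (fun i _ => abs_nonneg _)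
    (Finset.mem_range.2 (show i < k by omega))
  have := le_abs_self (D i)
  have := hD i q hq
  linarith

/-- zeros with nonzero derivative persist -/
lemma persist {X : Type*} [TopologicalSpace X] {F : X × ℝ → ℝ} (hF : Continuous F) {p₀ : X}
    {t₀ d ε : ℝ} (h0 : F (p₀, t₀) = 0) (hd : HasDerivAt (fun t => F (p₀, t)) d t₀) (hd0 : d ≠ 0)
    (hε : 0 < ε) : ∀ᶠ p in 𝓝 p₀, ∃ t, |t - t₀| ≤ ε ∧ F (p, t) = 0 := by
  have h1 := (hasDerivAt_iff_tendsto_slope_zero.1 hd).const_mul d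
  have h2 := h1.eventually (lt_mem_nhds (mul_self_pos.2 hd0))
  rw [eventually_nhdsWithin_iff, Metric.eventually_nhds_iff] at h2
  obtain ⟨r, hr, h2⟩ := h2
  set τ := min ε (r / 2) with hτ
  have hτ0 : 0 < τ := lt_min hε (half_pos hr)
  have hτ1 : τ < r := (min_le_right _ _).trans_lt (half_lt_self hr)
  have ha : 0 < d * F (p₀, t₀ + τ) := by
    have := h2 (y := τ) (by simpa [abs_of_pos hτ0] using hτ1) hτ0.ne'
    simp only [h0, sub_zero, smul_eq_mul] at this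
    rw [mul_left_comm] at this
    exact (mul_pos_iff_of_pos_left (inv_pos.2 hτ0)).1 this
  have hb : d * F (p₀, t₀ + -τ) < 0 := by
    have := h2 (y := -τ) (by simpa [abs_of_pos hτ0] using hτ1) (neg_ne_zero.2 hτ0.ne')
    simp only [h0, sub_zero, smul_eq_mul] at this
    rw [mul_left_comm, inv_neg, neg_mul, ← mul_neg] at this
    exact neg_pos.1 ((mul_pos_iff_of_pos_left (inv_pos.2 hτ0)).1 this)
  have hc : ∀ t, Continuous fun p => d * F (p, t) := fun t => by fun_prop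
  filter_upwards [(hc _).continuousAt.eventually (lt_mem_nhds ha),
    (hc _).continuousAt.eventually (gt_mem_nhds hb)] with p h3 h4
  obtain ⟨t, ht, h5⟩ := intermediate_value_Icc (f := fun t => d * F (p, t))
    (show t₀ + -τ ≤ t₀ + τ by linarith) (by fun_prop) ⟨h4.le, h3.le⟩
  have := min_le_left ε (r / 2)
  exact ⟨t, abs_le.2 ⟨by linarith [ht.1], by linarith [ht.2]⟩,
    (mul_eq_zero.1 h5).resolve_left hd0⟩

/-- `Near` in a tube of bounded width -/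
lemma near_tube {w : E3 → ℝ} {y : E3} (hy : ‖y‖ = 1) (hN : Near w y) {η : ℝ} (hη : 0 < η) (M : ℝ) :
    ∃ z : ℝ, ∀ x, w x = 0 → z ≤ ⟪y, x⟫ → ‖perp y x‖ ≤ M → |‖perp y x‖ - √2| ≤ η := by
  obtain ⟨δ, hδ, hN⟩ := hN
  obtain ⟨R, hR⟩ := hN η hη
  refine ⟨max (max R 1) (2 * M / δ), fun x hx hz hM => hR x hx ?_ ?_⟩
  · have := real_inner_le_norm y x
    rw [hy, one_mul] at this
    exact (((le_max_left _ _).trans (le_max_left _ _)).trans hz).trans this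
  · have h1 : 1 ≤ ⟪y, x⟫ := ((le_max_right _ _).trans (le_max_left _ _)).trans hz
    have h2 : 2 * M / δ ≤ ⟪y, x⟫ := (le_max_right _ _).trans hz
    have h0 : 0 < ⟪y, x⟫ := by linarith
    rw [← dir_smul' (inv_pos.2 h0)]
    refine (norm_dir_sub_le hy _).trans ?_
    have h3 : ⟪y, x⟫⁻¹ • x - y = ⟪y, x⟫⁻¹ • perp y x := by
      rw [perp_apply, smul_sub, smul_smul, inv_mul_cancel₀ h0.ne', one_smul]
    rw [h3, norm_smul, norm_inv, Real.norm_eq_abs, abs_of_pos h0, ← mul_assoc, mul_right_comm,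
      ← div_eq_mul_inv, div_le_iff₀ h0]
    rw [div_le_iff₀ hδ] at h2
    linarith

/-- a graph chart with bounds -/
structure TC (w : E3 → ℝ) (x₁ : E3) (ρ h : ℝ) (C : ℕ → ℝ) (f : Frame 2 E3) (u : E2 → ℝ) : Prop where
  rp : 0 < ρ
  hp : 0 < h
  sm : ContDiffOn ℝ ∞ u (ball 0 ρ)
  z0 : u 0 = 0
  d0 : fderiv ℝ u 0 = 0
  bd : ∀ z ∈ ball (0 : E2) ρ, |u z| < h
  iff : ∀ x ∈ f.cyl x₁ ρ h, w x = 0 ↔ f.gw x₁ u x = 0
  jet : ∀ (k : ℕ), ∀ z ∈ ball (0 : E2) ρ, ‖iteratedFDeriv ℝ k u z‖ ≤ C k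

namespace TC

variable {w : E3 → ℝ} {x₁ : E3} {ρ h : ℝ} {C : ℕ → ℝ} {f : Frame 2 E3} {u : E2 → ℝ}

lemma cda (c : TC w x₁ ρ h C f u) {z : E2} (hz : z ∈ ball (0 : E2) ρ) : ContDiffAt ℝ ∞ u z :=
  c.sm.contDiffAt (isOpen_ball.mem_nhds hz)

lemma quad (c : TC w x₁ ρ h C f u) {z : E2} (hz : ‖z‖ < ρ) : |u z| ≤ C 2 * ‖z‖ ^ 2 := by
  have hC : 0 ≤ C 2 := (norm_nonneg _).trans (c.jet 2 0 (mem_ball_self c.rp))
  have h1 : ∀ a ∈ ball (0 : E2) ρ, ‖fderiv ℝ u a‖ ≤ C 2 * ‖a‖ := fun a ha => by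
    have := (convex_ball (0 : E2) ρ).norm_image_sub_le_of_norm_fderiv_le (𝕜 := ℝ)
      (f := fderiv ℝ u) (C := C 2) (fun b hb => ((c.cda hb).fderiv_right (m := ∞)
        (by simp)).differentiableAt (by simp))
      (fun b hb => by
        rw [← norm_iteratedFDeriv_one, norm_iteratedFDeriv_fderiv]; exact c.jet 2 b hb)
      (mem_ball_self c.rp) ha
    rwa [c.d0, sub_zero, sub_zero] at this
  have hs : closedBall (0 : E2) ‖z‖ ⊆ ball 0 ρ := closedBall_subset_ball hz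
  have := (convex_closedBall (0 : E2) ‖z‖).norm_image_sub_le_of_norm_fderiv_le (𝕜 := ℝ)
    (f := u) (C := C 2 * ‖z‖) (fun b hb => (c.cda (hs hb)).differentiableAt (by simp))
    (fun b hb => (h1 b (hs hb)).trans (mul_le_mul_of_nonneg_left (mem_closedBall_zero_iff.1 hb) hC))
    (mem_closedBall_self (norm_nonneg _)) (mem_closedBall_zero_iff.2 le_rfl)
  rw [c.z0, sub_zero, sub_zero] at this
  calc |u z| ≤ C 2 * ‖z‖ * ‖z‖ := this
    _ = _ := by ring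

lemma gr_cyl (c : TC w x₁ ρ h C f u) {z : E2} (hz : ‖z‖ < ρ) : f.gr x₁ u z ∈ f.cyl x₁ ρ h :=
  ⟨by rwa [f.π_gr], by rw [f.inner_gr]; exact c.bd z (mem_ball_zero_iff.2 hz)⟩

lemma gr_zero (c : TC w x₁ ρ h C f u) {z : E2} (hz : ‖z‖ < ρ) : w (f.gr x₁ u z) = 0 :=
  (c.iff _ (c.gr_cyl hz)).2 (f.gw_gr x₁ u z)

/-- the chart is transversal to the radial direction -/
lemma trans (c : TC w x₁ ρ h C f u) {y e : E3} (he : ‖e‖ = 1) (hye : ⟪y, e⟫ = 0) {σ η : ℝ}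
    (hσ : 0 < σ) (hσρ : σ < ρ) (hC : C 2 * σ ≤ 1 / 4) (hη : η ≤ σ / 4)
    (h1 : ∀ x, w x = 0 → ‖x - x₁‖ < ρ + h → ‖perp y x‖ ≤ √2 + η) (h2 : √2 - η ≤ ⟪e, x₁⟫) :
    1 / 2 ≤ |⟪f.n, e⟫| := by
  have hC0 : 0 ≤ C 2 := (norm_nonneg _).trans (c.jet 2 0 (mem_ball_self c.rp))
  have h3 : ‖f.π e‖ ≤ 1 := he ▸ f.norm_π_le e
  have h4 : ‖σ • f.π e‖ ≤ σ := by
    rw [norm_smul, Real.norm_eq_abs, abs_of_pos hσ]; nlinarith
  have h5 := h4.trans_lt hσρ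
  have h6 := h1 _ (c.gr_zero h5) (by simpa [dist_eq_norm] using f.cyl_subset_ball _ _ _ (c.gr_cyl h5))
  have h7 := real_inner_le_norm e (perp y (f.gr x₁ u (σ • f.π e)))
  rw [← inner_perp_left, perp_of_inner hye, he, one_mul, Frame.gr, inner_add_right, inner_add_right,
    real_inner_comm (f.ι _), f.adj, real_inner_smul_left, real_inner_self_eq_norm_sq,
    real_inner_smul_right, real_inner_comm f.n] at h7
  have h8 : ‖f.π e‖ ^ 2 = 1 - ⟪f.n, e⟫ ^ 2 := by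
    rw [← f.norm_ι, f.ι_π_perp, norm_perp_sq f.norm_n, he]; norm_num
  have h9 : |⟪f.n, e⟫| ≤ 1 := by
    have := abs_real_inner_le_norm f.n e
    rwa [f.norm_n, he, one_mul] at this
  have h10 : |u (σ • f.π e) * ⟪f.n, e⟫| ≤ σ / 4 := by
    rw [abs_mul]
    have h11 := c.quad h5
    have h12 : ‖σ • f.π e‖ ^ 2 ≤ σ ^ 2 := pow_le_pow_left₀ (norm_nonneg _) h4 2
    have h13 : |u (σ • f.π e)| ≤ σ / 4 := by nlinarith
    nlinarith [abs_nonneg (u (σ • f.π e)), abs_nonneg ⟪f.n, e⟫]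
  have h14 := (abs_le.1 h10).1
  rw [Frame.gr] at h6
  have h15 : σ * (1 / 4) ≤ σ * ⟪f.n, e⟫ ^ 2 := by rw [h8] at h7; nlinarith
  have h16 := le_of_mul_le_mul_left h15 hσ
  rw [← sq_abs] at h16
  nlinarith [abs_nonneg ⟪f.n, e⟫]

/-- uniqueness along a transversal segment -/
lemma uniq (c : TC w x₁ ρ h C f u) {e : E3} (he : ‖e‖ = 1) (ht : 1 / 2 ≤ |⟪f.n, e⟫|) {τ : ℝ}
    (h1 : |τ| < ρ) (h2 : |τ| < h) (h3 : C 2 * |τ| < 1 / 2) (h0 : w (x₁ + τ • e) = 0) : τ = 0 := by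
  have hC0 : 0 ≤ C 2 := (norm_nonneg _).trans (c.jet 2 0 (mem_ball_self c.rp))
  have hn : ‖τ • e‖ = |τ| := by rw [norm_smul, he, mul_one, Real.norm_eq_abs]
  have h4 : x₁ + τ • e ∈ f.cyl x₁ ρ h :=
    f.ball_subset_cyl x₁ (min_le_left ρ h) (min_le_right ρ h) (by
      rw [mem_ball, dist_eq_norm, add_sub_cancel_left, hn]; exact lt_min h1 h2)
  have h5 := (c.iff _ h4).1 h0
  rw [Frame.gw, add_sub_cancel_left, sub_eq_zero, real_inner_smul_right] at h5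
  have h6 : ‖f.π (τ • e)‖ ≤ |τ| := hn ▸ f.norm_π_le _
  have h7 := c.quad (h6.trans_lt h1)
  rw [← h5, abs_mul] at h7
  have h8 : ‖f.π (τ • e)‖ ^ 2 ≤ |τ| ^ 2 := pow_le_pow_left₀ (norm_nonneg _) h6 2
  by_contra h9
  have h10 : 0 < |τ| := abs_pos.2 h9
  nlinarith

lemma fderiv_ne (c : TC w x₁ ρ h C f u) (hS : Shr w) (h0 : w x₁ = 0) {e : E3}
    (ht : ⟪f.n, e⟫ ≠ 0) : fderiv ℝ w x₁ e ≠ 0 := by
  have hu : DifferentiableAt ℝ u 0 := (c.cda (mem_ball_self c.rp)).differentiableAt (by simp)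
  have hx : f.gr x₁ u 0 = x₁ := by simp [Frame.gr, c.z0]
  have h1 : HasFDerivAt w (fderiv ℝ w x₁) (f.gr x₁ u 0) := by
    rw [hx]; exact (hS.smooth.differentiable (by simp) _).hasFDerivAt
  have h2 := h1.comp 0 (f.hasFDerivAt_gr x₁ hu)
  have h3 : HasFDerivAt (w ∘ f.gr x₁ u) (0 : E2 →L[ℝ] ℝ) 0 :=
    (hasFDerivAt_const (0 : ℝ) (0 : E2)).congr_of_eventuallyEq (by
      filter_upwards [ball_mem_nhds (0 : E2) c.rp] with z hz
      exact c.gr_zero (mem_ball_zero_iff.1 hz))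
  have h4 : ∀ z, fderiv ℝ w x₁ (f.ι z) = 0 := fun z => by
    have := congrArg (fun L : E2 →L[ℝ] ℝ => L z) (h2.unique h3)
    simpa [Frame.dgr, c.d0] using this
  have h5 : ∀ v, fderiv ℝ w x₁ v = ⟪f.n, v⟫ * fderiv ℝ w x₁ f.n := fun v => by
    conv_lhs => rw [f.decomp v]
    rw [map_add, h4, map_smul, zero_add, smul_eq_mul]
  rw [h5]
  refine mul_ne_zero ht fun h6 => hS.ne x₁ h0 (grad_unique fun v => ?_)
  rw [h5, h6, mul_zero, inner_zero_left]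

lemma fderiv_gw (c : TC w x₁ ρ h C f u) (e : E3) : fderiv ℝ (f.gw x₁ u) x₁ e = ⟪f.n, e⟫ := by
  have hu : DifferentiableAt ℝ u (f.π (x₁ - x₁)) := by
    rw [sub_self, map_zero]
    exact (c.cda (mem_ball_self c.rp)).differentiableAt (by simp)
  have h1 : grad u 0 = 0 := grad_unique fun v => by rw [c.d0]; simp
  rw [← inner_grad, f.grad_gw x₁ hu, sub_self, map_zero, h1, map_zero, sub_zero]

lemma cda_gw (c : TC w x₁ ρ h C f u) {x : E3} (hx : x ∈ f.cyl x₁ ρ h) :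
    ContDiffAt ℝ ∞ (f.gw x₁ u) x :=
  (contDiffAt_const.inner ℝ (contDiffAt_id.sub contDiffAt_const)).sub
    ((c.cda (mem_ball_zero_iff.2 hx.1)).comp x
      (f.π.contDiff.contDiffAt.comp x (contDiffAt_id.sub contDiffAt_const)))

end TC

/-- the jets of the defining function of a chart in cylinder coordinates -/
lemma jets_gw (Q : E3 ≃ₗᵢ[ℝ] E3) (C : ℕ → ℝ) (k : ℕ) : ∃ B : ℝ, ∀ (w : E3 → ℝ) (ρ h : ℝ)
    (f : Frame 2 E3) (u : E2 → ℝ) (q : (ℝ × ℝ) × ℝ), |q.2| ≤ 1 → TC w (PP Q q) ρ h C f u →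
    ∀ j, 1 ≤ j → j ≤ k → ‖iteratedFDeriv ℝ j (fun a => f.gw (PP Q q) u (PP Q a)) q‖ ≤ B := by
  obtain ⟨D, hD1, hD⟩ := jets_PP' Q k
  set A : ℝ := ∑ i ∈ Finset.range (k + 1), |C i| with hA
  have hA0 : 0 ≤ A := by positivity
  refine ⟨D + k.factorial * A * D ^ k, fun w ρ h f u q hq c j h1 h2 => ?_⟩
  set g : (ℝ × ℝ) × ℝ → E3 := fun a => PP Q a - PP Q q with hg
  have hgs : ContDiff ℝ ∞ g := (contDiff_PP Q).sub contDiff_const
  have hgj : ∀ i, 1 ≤ i → i ≤ k → ‖iteratedFDeriv ℝ i g q‖ ≤ D := fun i h3 h4 => by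
    obtain ⟨i, rfl⟩ : ∃ i', i = i' + 1 := ⟨i - 1, by omega⟩
    have : fderiv ℝ g = fderiv ℝ (PP Q) := funext fun a => fderiv_sub_const _
    rw [← norm_iteratedFDeriv_fderiv, this, norm_iteratedFDeriv_fderiv]
    exact hD q hq _ h3 h4
  have hle : ∀ i : ℕ, (i : WithTop ℕ∞) ≤ ((⊤ : ℕ∞) : WithTop ℕ∞) := fun i => by
    exact_mod_cast le_top
  have hπ : ‖f.π‖ ≤ 1 :=
    ContinuousLinearMap.opNorm_le_bound _ zero_le_one fun v => by rw [one_mul]; exact f.norm_π_le v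
  have hs : IsOpen ((f.π ∘ g) ⁻¹' ball 0 ρ) :=
    isOpen_ball.preimage (f.π.continuous.comp hgs.continuous)
  have h0 : (f.π ∘ g) q = 0 := by simp [hg]
  have hqs : q ∈ (f.π ∘ g) ⁻¹' ball 0 ρ := by
    rw [mem_preimage, h0]; exact mem_ball_self c.rp
  have h3 := norm_iteratedFDerivWithin_comp_le (g := u) (f := f.π ∘ g) (n := j) c.sm
    (f.π.contDiff.comp hgs).contDiffOn (hle j) isOpen_ball.uniqueDiffOn hs.uniqueDiffOn
    (mapsTo_preimage _ _) hqs (C := A) (D := D) (fun i hi => by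
      rw [h0, iteratedFDerivWithin_of_isOpen i isOpen_ball (mem_ball_self c.rp)]
      exact ((c.jet i 0 (mem_ball_self c.rp)).trans (le_abs_self _)).trans
        (Finset.single_le_sum (f := fun i => |C i|) (fun i _ => abs_nonneg _)
          (Finset.mem_range.2 (by omega))))
    (fun i hi hi' => by
      rw [iteratedFDerivWithin_of_isOpen i hs hqs]
      refine (f.π.norm_iteratedFDeriv_comp_left hgs.contDiffAt (hle i)).trans ?_
      have h4 := hgj i hi (hi'.trans h2)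
      have h5 : D ≤ D ^ i := le_self_pow₀ hD1 (by omega)
      nlinarith [norm_nonneg f.π, norm_nonneg (iteratedFDeriv ℝ i g q)])
  rw [iteratedFDerivWithin_of_isOpen j hs hqs] at h3
  have h4 := (innerSL ℝ f.n).norm_iteratedFDeriv_comp_left hgs.contDiffAt (hle j) (x := q)
  rw [innerSL_apply_norm, f.norm_n, one_mul] at h4
  have h5 : (fun a => f.gw (PP Q q) u (PP Q a)) = (innerSL ℝ f.n) ∘ g - u ∘ f.π ∘ g := rfl
  have h6 : ContDiffAt ℝ ∞ (u ∘ f.π ∘ g) q :=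
    ContDiffAt.comp q (by rw [h0]; exact c.cda (mem_ball_self c.rp))
      (f.π.contDiff.comp hgs).contDiffAt
  rw [h5, iteratedFDeriv_sub_apply (((innerSL ℝ f.n).contDiff.comp hgs).contDiffAt.of_le (hle j))
    (h6.of_le (hle j))]
  refine (norm_sub_le _ _).trans (add_le_add (h4.trans (hgj j h1 h2)) (h3.trans ?_))
  have h7 : (j.factorial : ℝ) ≤ k.factorial := by exact_mod_cast Nat.factorial_le h2
  have h8 : D ^ j ≤ D ^ k := pow_le_pow_right₀ hD1 h2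
  have : 0 ≤ D ^ j := by positivity
  gcongr

end Vale.Agent.P218N.C.Cyl
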