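import Vale.Agent.P218N.C.Stmt
import Vale.Agent.P218N.C0.Slow
import Vale.Agent.P218N.H.Slice

/-! Gaussian ratios: uniform bounds, weak limits, planes, densities of surfaces. -/

open MeasureTheory Set Filter Topology Metric Real
open scoped ENNReal NNReal RealInnerProductSpace ContDiff CompactlySupported

namespace Vale.Agent.P218N.C

open Vale.Agent.P218 Vale.Agent.P218.H313 Vale.Agent.P218N.H Vale.Agent.P218N.B
open Vale.Agent.P218N.C0
open Vale.Agent.P218GA (cH cH_pos')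

variable {Λ : ℝ} {κ : Measure E3} {w : E3 → ℝ}

lemma Gm_def (κ : Measure E3) (c : E3) (s : ℝ) :
    Gm κ c s = (4 * π * s * cH 2)⁻¹ * ∫ x, gk c s x ∂κ := rfl

lemma Gm_eq (κ : Measure E3) (c : E3) {s : ℝ} (hs : 0 < s) :
    Gm κ c s = (4 * π * cH 2)⁻¹ * C0.GG 2 κ c s := by
  rw [Gm_def, C0.GG, sq_sqrt hs.le]
  have := cH_pos' 2
  field_simp

lemma Gm_nonneg (κ : Measure E3) (c : E3) {s : ℝ} (hs : 0 < s) : 0 ≤ Gm κ c s := by
  have := cH_pos' 2
  rw [Gm_eq κ c hs]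
  exact mul_nonneg (by positivity) (GG_nonneg _ _ _ _)

lemma Gm_smul (k : ℕ) (κ : Measure E3) (c : E3) (s : ℝ) :
    Gm ((k : ℝ≥0∞) • κ) c s = k * Gm κ c s := by
  rw [Gm_def, Gm_def, integral_smul_measure, ENNReal.toReal_natCast, smul_eq_mul]; ring

lemma Gm_zero (c : E3) (s : ℝ) : Gm 0 c s = 0 := by simp [Gm]

lemma ARm.bb (h : ARm Λ κ) : BB κ (4 * Λ) := fun x =>
  ((measure_mono (closedBall_subset_ball one_lt_two)).trans (h x 2 two_pos)).trans
    (le_of_eq (by congr 1; ring))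

lemma ARm.locFin (h : ARm Λ κ) : IsLocallyFiniteMeasure κ := h.bb.locFin

lemma ARm.tl (h : ARm Λ κ) (c : E3) : ARm Λ (tl κ c) := fun x r hr => by
  rw [tl_apply]
  refine le_trans (le_of_eq ?_) (h (c + x) r hr)
  congr 1
  ext y
  simp only [mem_preimage, mem_ball, dist_eq_norm]
  rw [sub_sub]

lemma shf_eq (S : Set E3) (c : E3) :
    shf S c = sim c 1 (LinearIsometryEquiv.refl ℝ E3) ⁻¹' S := by
  ext v; simp [shf, sim]

lemma mu_shf (S : Set E3) (c : E3) : mu (shf S c) = tl (mu S) c := by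
  have h := dil_restrict (m := 2) one_pos c S
  have e : A1.xx 1 c ⁻¹' S = shf S c := by ext v; simp [shf, A1.xx]
  rw [e] at h
  rw [mu, ← h]
  simp only [A1.dil, tl, one_pow, ENNReal.ofReal_one, one_smul]

lemma tm_eq (w : E3 → ℝ) (y : E3) (R : ℝ) : tm w y R = tl (mu (zs w)) (R • y) := mu_shf _ _

lemma integral_tm (w : E3 → ℝ) (y : E3) (R : ℝ) (φ : E3 → ℝ) :
    ∫ x, φ x ∂(tm w y R) = ∫ x, φ (x - R • y) ∂(mu (zs w)) := by rw [tm_eq, integral_tl]

lemma Gm_tl (κ : Measure E3) (a c : E3) (s : ℝ) : Gm (tl κ a) c s = Gm κ (a + c) s := by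
  rw [Gm_def, Gm_def, integral_tl]
  simp only [gk, sub_sub]

lemma Gm_tm (w : E3 → ℝ) (y : E3) (R : ℝ) (c : E3) (s : ℝ) :
    Gm (tm w y R) c s = Gm (mu (zs w)) (R • y + c) s := by rw [tm_eq, Gm_tl]

lemma ARm.tm (h : ARm Λ (mu (zs w))) (y : E3) (R : ℝ) : ARm Λ (tm w y R) := by
  rw [tm_eq]; exact h.tl _

lemma surf_zs (h : Shr w) : Surf (zs w) := surf_level h.smooth h.ne

lemma isClosed_zs (h : Shr w) : IsClosed (zs w) := isClosed_eq h.smooth.continuous continuous_const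

lemma isClosed_plane (e : E3) : IsClosed (plane e) := isClosed_eq (by fun_prop) continuous_const

lemma surf_plane {e : E3} (he : ‖e‖ = 1) : Surf (plane e) := by
  refine surf_level (w := fun x => ⟪e, x⟫) (innerSL ℝ e).contDiff fun y _ => ?_
  have : grad (fun x => ⟪e, x⟫) y = e := grad_unique fun v => by
    rw [show (fun x : E3 => ⟪e, x⟫) = innerSL ℝ e from rfl, ContinuousLinearMap.fderiv]; rfl
  rw [this]
  rintro rfl
  simp at he

lemma isClosed_cylS (y : E3) : IsClosed (cylS y) := isClosed_eq (by fun_prop) continuous_const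

lemma surf_cylS (y : E3) : Surf (cylS y) := by
  have e : cylS y = {x | ‖perp y x‖ ^ 2 - 2 = 0} := by ext x; simp [cylS, sub_eq_zero]
  rw [e]
  refine surf_level (((contDiff_norm_sq ℝ).comp (perp y).contDiff).sub contDiff_const)
    fun x hx h => ?_
  have h1 : HasFDerivAt (fun x : E3 => ‖perp y x‖ ^ 2 - 2) _ x :=
    (perp y).hasFDerivAt.norm_sq.sub_const 2
  have h2 := inner_grad (fun x : E3 => ‖perp y x‖ ^ 2 - 2) x x
  rw [h, inner_zero_left, h1.fderiv] at h2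
  simp only [smul_apply, ContinuousLinearMap.comp_apply, innerSL_apply_apply,
    real_inner_self_eq_norm_sq, nsmul_eq_mul, Nat.cast_ofNat] at h2
  linarith

lemma WLim.unique {ι : Type} {l : Filter ι} [l.NeBot] {μ : ι → Measure E3} {κ κ' : Measure E3}
    [IsLocallyFiniteMeasure κ] [IsLocallyFiniteMeasure κ'] (h : WLim l μ κ) (h' : WLim l μ κ') :
    κ = κ' := WT.unique h h'

lemma gk_tail' {E : Type*} [NormedAddCommGroup E] [InnerProductSpace ℝ E] {c x : E} {s d : ℝ}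
    (hs : 0 < s) (hd : 0 ≤ d) (hx : x ∉ ball c d) :
    gk c s x ≤ exp (-d ^ 2 / (8 * s)) * gk c (2 * s) x := by
  rw [mem_ball, dist_eq_norm, not_lt] at hx
  unfold gk
  rw [← exp_add]
  refine exp_le_exp.2 ?_
  have h1 : d ^ 2 / (8 * s) ≤ ‖x - c‖ ^ 2 / (8 * s) := by gcongr
  have h2 : -‖x - c‖ ^ 2 / (4 * s) = -‖x - c‖ ^ 2 / (4 * (2 * s)) - ‖x - c‖ ^ 2 / (8 * s) := by
    field_simp; ring
  rw [h2, neg_div (8 * s)]
  linarith

theorem gBd : GBdStmt := by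
  obtain ⟨C, hC, h⟩ := exists_gk_bound E3 two_pos
  have hc := cH_pos' 2
  refine ⟨C / (π * cH 2) + 1, by positivity, fun Λ κ c s hΛ hκ hs => ?_⟩
  have hq : 0 < (√s)⁻¹ := by positivity
  have hb : BB (A1.dil 2 (√s)⁻¹ c κ) (4 * Λ) := fun x => by
    rw [A1.dil, Measure.smul_apply, (A1.emb_yy hq c).map_apply, smul_eq_mul]
    have a1 : (fun z : E3 => (√s)⁻¹ • (z - c)) ⁻¹' closedBall x 1 ⊆ ball (c + √s • x) (2 * √s) := by
      intro z hz
      rw [mem_preimage, mem_closedBall, dist_eq_norm] at hz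
      have a2 : z - (c + √s • x) = √s • ((√s)⁻¹ • (z - c) - x) := by
        rw [smul_sub, smul_smul, mul_inv_cancel₀ (by positivity), one_smul, sub_sub]
      rw [mem_ball, dist_eq_norm, a2, norm_smul, Real.norm_of_nonneg (sqrt_nonneg s)]
      nlinarith [sqrt_pos.2 hs]
    refine (mul_le_mul_right ((measure_mono a1).trans (hκ _ _ (by positivity))) _).trans ?_
    rw [← ENNReal.ofReal_mul (by positivity)]
    refine ENNReal.ofReal_le_ofReal (le_of_eq ?_)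
    field_simp; ring
  have h1 := (h _ _ (by positivity) hb 0).2
  rw [A1.integral_dil hq, inv_pow, sq_sqrt hs.le, inv_mul_le_iff₀ hs] at h1
  have h2 : ∫ x, gk c (2 * s) x ∂κ ≤ s * (C * (4 * Λ)) := by
    refine le_trans (le_of_eq ?_) h1
    congr 1; ext x
    unfold gk
    rw [sub_zero, show H552.yy (√s)⁻¹ c x = (√s)⁻¹ • (x - c) from rfl, norm_smul, mul_pow, norm_inv,
      inv_pow, Real.norm_of_nonneg (sqrt_nonneg s), sq_sqrt hs.le]
    congr 1; field_simp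
  have key : ∀ d : ℝ, 0 ≤ d → (4 * π * s * cH 2)⁻¹ * ∫ x in (ball c d)ᶜ, gk c s x ∂κ
      ≤ (C / (π * cH 2) + 1) * Λ * exp (-d ^ 2 / (8 * s)) := fun d hd => by
    have i2 := (hκ.bb.integrable_gk c (t := 2 * s) (by positivity)).const_mul
      (exp (-d ^ 2 / (8 * s)))
    have a1 : ∫ x in (ball c d)ᶜ, gk c s x ∂κ ≤ exp (-d ^ 2 / (8 * s)) * (s * (C * (4 * Λ))) := by
      refine (setIntegral_mono_on (hκ.bb.integrable_gk c hs).integrableOn i2.integrableOn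
        measurableSet_ball.compl fun x hx => gk_tail' hs hd hx).trans
        ((setIntegral_le_integral i2 (Eventually.of_forall fun x =>
          mul_nonneg (exp_pos _).le (gk_pos _ _ _).le)).trans ?_)
      rw [integral_const_mul]; gcongr
    calc _ ≤ (4 * π * s * cH 2)⁻¹ * (exp (-d ^ 2 / (8 * s)) * (s * (C * (4 * Λ)))) := by gcongr
      _ = C / (π * cH 2) * Λ * exp (-d ^ 2 / (8 * s)) := by field_simp
      _ ≤ _ := by gcongr; linarith
  refine ⟨fun n => hκ.bb.integrable_pow c hs n, ?_, key⟩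
  simpa [Gm_def] using key 0 le_rfl

theorem gLim : GLimStmt := by
  intro ι l μ κ Λ hl hΛ hμ hκ h
  refine ⟨fun x r hr => ?_, fun c s c' s' hs h1 h2 => ?_⟩
  · rw [isOpen_ball.measure_eq_iSup_isCompact]
    exact iSup_le fun K => iSup_le fun h1 => iSup_le fun h2 => WT.measure_le h h2 isOpen_ball h1
      (by positivity) (Eventually.of_forall fun i => hμ i x r hr)
  · rw [Gm_eq _ _ hs]
    refine ((WT.tendsto_GG h (Eventually.of_forall fun i => (hμ i).bb) 2 hs h1 h2).const_mul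
      _).congr' ?_
    filter_upwards [h2.eventually (lt_mem_nhds hs)] with i hi
    rw [Gm_eq _ _ hi]

theorem exLim : ExLimStmt := by
  intro ι U μ Λ hμ
  have hb : LocBdd μ := fun K hK => by
    obtain ⟨R, hR0, hR⟩ := hK.isBounded.subset_ball_lt 0 0
    exact ⟨(Λ * R ^ 2).toNNReal, fun i => (measure_mono hR).trans (hμ i 0 R hR0)⟩
  have hfin := hb.isLocallyFinite
  have key : ∀ φ : C_c(E3, ℝ), ∃ a, Tendsto (fun i => fnl (μ i) φ) U (𝓝 a) := fun φ => by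
    obtain ⟨B, hB⟩ := hb.fnl_bdd φ
    obtain ⟨a, -, ha⟩ := (isCompact_Icc (a := -B) (b := B)).ultrafilter_le_nhds'
      (U.map fun i => fnl (μ i) φ) (mem_map.2 (Eventually.of_forall fun i => abs_le.1 (hB i)))
    exact ⟨a, ha⟩
  choose ℓ hℓ using key
  let L : C_c(E3, ℝ) →ₚ[ℝ] ℝ := PositiveLinearMap.mk₀
    { toFun := ℓ
      map_add' := fun f g => tendsto_nhds_unique (hℓ (f + g)) (((hℓ f).add (hℓ g)).congr fun i =>
        (integral_add f.integrable g.integrable).symm)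
      map_smul' := fun c f => tendsto_nhds_unique (hℓ (c • f)) (((hℓ f).const_mul c).congr fun i =>
        (integral_const_mul c _).symm) }
    fun f hf => ge_of_tendsto' (hℓ f) fun i => integral_nonneg fun x => hf x
  refine ⟨RealRMK.rieszMeasure L, inferInstance, fun φ h1 h2 => ?_⟩
  have h3 := hℓ ⟨⟨φ, h1⟩, h2⟩
  have h4 := RealRMK.integral_rieszMeasure L ⟨⟨φ, h1⟩, h2⟩
  exact h4 ▸ h3

lemma gauss2 (a : E2) {s : ℝ} (hs : 0 < s) : ∫ y, gk a s y = 4 * π * s := by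
  have h1 := GaussianFourier.integral_rexp_neg_mul_sq_norm (V := E2) (b := 1 / (4 * s))
    (by positivity)
  have h2 := integral_sub_right_eq_self (μ := (volume : Measure E2))
    (fun v : E2 => exp (-(1 / (4 * s)) * ‖v‖ ^ 2)) a
  rw [h1] at h2
  have h3 : (fun y => gk a s y) = fun x : E2 => exp (-(1 / (4 * s)) * ‖x - a‖ ^ 2) := by
    ext x; unfold gk; congr 1; ring
  rw [h3, h2]
  simp
  field_simp

lemma int_gauss2 (a : E2) {s : ℝ} (hs : 0 < s) : Integrable (gk a s) :=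
  Integrable.of_integral_ne_zero (by rw [gauss2 a hs]; positivity)

lemma plane_eq (e : E3) : plane e = ((ℝ ∙ e)ᗮ : Submodule ℝ E3) := by
  ext x; exact Submodule.mem_orthogonal_singleton_iff_inner_right.symm

lemma Gm_plane {e : E3} (he : ‖e‖ = 1) (c : E3) {s : ℝ} (hs : 0 < s) :
    Gm (mu (plane e)) c s = exp (-⟪e, c⟫ ^ 2 / (4 * s)) := by
  obtain ⟨f, rfl⟩ := exists_frame finrank_E3 he
  have h1 : ∀ y, gk c s (f.ι y) = exp (-⟪f.n, c⟫ ^ 2 / (4 * s)) * gk (f.π c) s y := fun y => by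
    have a1 : f.ι y - c = f.ι (y - f.π c) + (-⟪f.n, c⟫) • f.n := by
      rw [map_sub, f.ι_π, neg_smul]; abel
    unfold gk
    rw [a1, f.norm_sq, ← exp_add]
    congr 1; ring
  have hc := cH_pos' 2
  rw [Gm_def, plane_eq, mu, f.integral_plane]
  simp only [h1]
  rw [integral_const_mul, integral_const_mul, gauss2 _ hs]
  field_simp

lemma exists_exp_small {A r τ : ℝ} (hr : 0 < r) (hτ : 0 < τ) :
    ∃ δ, 0 < δ ∧ ∀ s, 0 < s → s < δ → A * exp (-r ^ 2 / (8 * s)) ≤ τ := by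
  refine ⟨τ * r ^ 2 / (8 * (|A| + 1)), by positivity, fun s hs h => ?_⟩
  have h1 : r ^ 2 / (8 * s) ≤ exp (r ^ 2 / (8 * s)) := by linarith [add_one_le_exp (r ^ 2 / (8 * s))]
  rw [lt_div_iff₀ (by positivity)] at h
  rw [neg_div, exp_neg, ← div_eq_mul_inv, div_le_iff₀ (exp_pos _)]
  refine le_trans ?_ (mul_le_mul_of_nonneg_left h1 hτ.le)
  rw [← mul_div_assoc, le_div_iff₀ (by positivity)]
  nlinarith [le_abs_self A]

lemma gk_low {η s : ℝ} {a q : E3} {y : E2} (hη0 : 0 < η) (hη1 : η ≤ 1) (hs : 0 < s)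
    (b1 : ‖a‖ ^ 2 ≤ (1 + η) * ‖y‖ ^ 2) (b0 : ‖q‖ ^ 2 ≤ η ^ 2 * s) :
    (1 - η) * gk 0 (s / (1 + η) ^ 2) y ≤ exp (-‖a - q‖ ^ 2 / (4 * s)) := by
  have b3 : η * ‖a - q‖ ^ 2 ≤ η * ((1 + η) * ‖a‖ ^ 2) + (1 + η) * ‖q‖ ^ 2 := by
    have c1 := mul_le_mul_of_nonneg_left
      (pow_le_pow_left₀ (norm_nonneg _) (norm_sub_le a q) 2) hη0.le
    nlinarith [sq_nonneg (η * ‖a‖ - ‖q‖)]
  have b4 : ‖a - q‖ ^ 2 ≤ (1 + η) ^ 2 * ‖y‖ ^ 2 + 4 * η * s := by
    refine le_of_mul_le_mul_left ?_ hη0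
    have c1 : η * ((1 + η) * ‖a‖ ^ 2) ≤ η * ((1 + η) * ((1 + η) * ‖y‖ ^ 2)) := by gcongr
    have c2 : (1 + η) * ‖q‖ ^ 2 ≤ 4 * (η ^ 2 * s) := by gcongr; linarith
    calc _ ≤ η * ((1 + η) * ((1 + η) * ‖y‖ ^ 2)) + 4 * (η ^ 2 * s) := by linarith
      _ = _ := by ring
  calc (1 - η) * gk 0 (s / (1 + η) ^ 2) y ≤ exp (-η) * gk 0 (s / (1 + η) ^ 2) y :=
        mul_le_mul_of_nonneg_right (by linarith [add_one_le_exp (-η)]) (gk_pos _ _ _).le
    _ ≤ _ := by
        unfold gk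
        rw [← exp_add, sub_zero]
        refine exp_le_exp.2 ?_
        have c1 : -η + -‖y‖ ^ 2 / (4 * (s / (1 + η) ^ 2))
            = -((1 + η) ^ 2 * ‖y‖ ^ 2 + 4 * η * s) / (4 * s) := by
          field_simp; ring
        rw [c1]
        gcongr

lemma gauss_ball {η r s : ℝ} (hr : 0 < r) (hs : 0 < s) (h : exp (-r ^ 2 / (8 * s)) ≤ η) :
    4 * π * s * (1 - 2 * η) ≤ ∫ y in ball (0:E2) r, gk 0 s y := by
  have b1 := integral_add_compl (measurableSet_ball (x := (0:E2)) (ε := r)) (int_gauss2 0 hs)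
  have i2 := (int_gauss2 0 (s := 2 * s) (by positivity)).const_mul (exp (-r ^ 2 / (8 * s)))
  have b2 := (setIntegral_mono_on (int_gauss2 0 hs).integrableOn i2.integrableOn
    measurableSet_ball.compl fun x hx => gk_tail' hs hr.le hx).trans
    (setIntegral_le_integral i2 (Eventually.of_forall fun x =>
      mul_nonneg (exp_pos _).le (gk_pos _ _ _).le))
  rw [integral_const_mul, gauss2 0 (by positivity)] at b2
  rw [gauss2 0 hs] at b1
  have b4 : exp (-r ^ 2 / (8 * s)) * (4 * π * (2 * s)) ≤ η * (4 * π * (2 * s)) := by gcongr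
  linarith

section Chart

variable {f : Frame 2 E3} {p : E3} {u : E2 → ℝ} {r η : ℝ}

lemma int_chart (hu1 : ContDiff ℝ 1 u) (c : E3) (s : ℝ) :
    IntegrableOn (fun y => gJ u y • gk c s (f.gr p u y)) (ball 0 r) :=
  (((continuous_gJ hu1).smul ((continuous_gk c s).comp
    (f.contDiff_gr p hu1).continuous)).continuousOn.integrableOn_compact
      (isCompact_closedBall 0 r)).mono_set ball_subset_closedBall

lemma chart_up (hu1 : ContDiff ℝ 1 u) (hη0 : 0 < η) (hg : ∀ y ∈ ball (0:E2) r, ‖grad u y‖ ≤ η)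
    (c : E3) {s : ℝ} (hs : 0 < s) :
    ∫ y in ball 0 r, gJ u y • gk c s (f.gr p u y) ≤ cH 2 * (1 + η) * (4 * π * s) := by
  have hcH := cH_pos' 2
  have i2 := (int_gauss2 (f.π (c - p)) hs).const_mul (cH 2 * (1 + η))
  rw [← gauss2 (f.π (c - p)) hs, ← integral_const_mul]
  refine (setIntegral_mono_on (int_chart hu1 c s) i2.integrableOn measurableSet_ball
    fun y hy => ?_).trans (setIntegral_le_integral i2 (Eventually.of_forall fun y =>
      mul_nonneg (by positivity) (gk_pos _ _ _).le))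
  refine mul_le_mul (mul_le_mul_of_nonneg_left (sqrt_le_iff.2 ⟨by positivity, ?_⟩) hcH.le)
    (exp_le_exp.2 ?_) (gk_pos _ _ _).le (by positivity)
  · nlinarith [pow_le_pow_left₀ (norm_nonneg _) (hg y hy) 2]
  · have b1 := f.norm_π_le (f.gr p u y - c)
    rw [show f.gr p u y - c = (f.gr p u y - p) - (c - p) by abel, map_sub, f.π_gr] at b1
    rw [show f.gr p u y - c = (f.gr p u y - p) - (c - p) by abel, neg_div, neg_div]
    gcongr

lemma chart_low (hu1 : ContDiff ℝ 1 u) (hη0 : 0 < η) (hη1 : η ≤ 1) (hr : 0 < r)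
    (hu : ∀ y ∈ ball (0:E2) r, |u y| ≤ η * ‖y‖) {c : E3} {s : ℝ} (hs : 0 < s)
    (b0 : ‖c - p‖ ^ 2 ≤ η ^ 2 * s) (h : exp (-r ^ 2 / (8 * (s / (1 + η) ^ 2))) ≤ η) :
    cH 2 * (1 - η) * (4 * π * (s / (1 + η) ^ 2) * (1 - 2 * η))
      ≤ ∫ y in ball 0 r, gJ u y • gk c s (f.gr p u y) := by
  have hcH := cH_pos' 2
  have hs' : 0 < s / (1 + η) ^ 2 := by positivity
  refine (mul_le_mul_of_nonneg_left (gauss_ball hr hs' h)
    (mul_nonneg hcH.le (by linarith))).trans ?_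
  rw [← integral_const_mul]
  refine setIntegral_mono_on ((int_gauss2 0 hs').const_mul _).integrableOn (int_chart hu1 c s)
    measurableSet_ball fun y hy => ?_
  rw [mul_assoc]
  refine mul_le_mul (le_mul_of_one_le_right hcH.le (one_le_sqrt.2 (by simp))) ?_
    (mul_nonneg (by linarith) (gk_pos _ _ _).le) (gJ_pos u y).le
  have b1 : ‖f.gr p u y - p‖ ^ 2 ≤ (1 + η) * ‖y‖ ^ 2 := by
    rw [Frame.gr, add_sub_cancel_left, f.norm_sq, ← sq_abs (u y)]
    have c1 := pow_le_pow_left₀ (abs_nonneg _) (hu y hy) 2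
    have c2 : η ^ 2 * ‖y‖ ^ 2 ≤ η * ‖y‖ ^ 2 := by gcongr; nlinarith
    nlinarith
  refine (gk_low hη0 hη1 hs b1 b0).trans (le_of_eq ?_)
  rw [gk, sub_sub_sub_cancel_right]

end Chart

lemma Gm_split {C : ℝ} {M O : Set E3} {c : E3} {s d : ℝ} (hA : ARm Λ (mu M)) (hs : 0 < s)
    (hO : MeasurableSet O) (hsub : ball c d ⊆ O)
    (h : (4 * π * s * cH 2)⁻¹ * ∫ x in (ball c d)ᶜ, gk c s x ∂(mu M) ≤ C) :
    Gm (mu M) c s ≤ (4 * π * s * cH 2)⁻¹ * ∫ x in M ∩ O, gk c s x ∂μH[((2 : ℕ) : ℝ)] + C := by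
  have hcH := cH_pos' 2
  have i := hA.bb.integrable_gk c hs
  rw [Gm_def, ← integral_add_compl hO i, mul_add, mu, Measure.restrict_restrict hO, inter_comm]
  refine add_le_add_right (le_trans ?_ h) _
  exact mul_le_mul_of_nonneg_left (setIntegral_mono_set i.integrableOn
    (Eventually.of_forall fun x => (gk_pos _ _ _).le)
    (compl_subset_compl.2 hsub).eventuallyLE) (by positivity)

lemma dens_aux {ε η : ℝ} (hη0 : 0 < η) (hη2 : η ≤ ε / 8) :
    (1 - ε) * (1 + η) ^ 2 ≤ (1 - η) * (1 - 2 * η) := by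
  have b1 : (1 - ε) * (1 + η) ^ 2 ≤ (1 - 8 * η) * (1 + η) ^ 2 := by gcongr; linarith
  nlinarith [mul_pos hη0 hη0, mul_pos hη0 (mul_pos hη0 hη0)]

theorem gDens : GDensStmt := by
  refine ⟨fun e c s he hs => Gm_plane he c hs, fun M Λ hM hΛ hc hA p ε hε => ?_⟩
  obtain ⟨C, hC, hG⟩ := gBd
  have hcH := cH_pos' 2
  obtain ⟨η, hη0, hη1, hη2⟩ : ∃ η : ℝ, 0 < η ∧ η ≤ 1 ∧ η ≤ ε / 8 :=
    ⟨min 1 (ε / 8), by positivity, min_le_left _ _, min_le_right _ _⟩
  by_cases hp : p ∈ M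
  swap
  · obtain ⟨r, hr, hb⟩ := Metric.mem_nhds_iff.1 (hc.isOpen_compl.mem_nhds hp)
    obtain ⟨δ, hδ, h1⟩ := exists_exp_small (A := C * Λ) (half_pos hr) one_pos
    refine ⟨min δ (r / 2), by positivity, fun c s hs h2 => ⟨fun h3 => ?_, fun h => absurd h hp⟩⟩
    have h4 := Gm_split hA hs hc.measurableSet.compl
      ((ball_subset_ball' (by rw [dist_eq_norm]; linarith [min_le_right δ (r / 2)])).trans hb)
      ((hG Λ _ c s hΛ hA hs).2.2 (r / 2) (by positivity))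
    rw [inter_compl_self, setIntegral_empty, mul_zero, zero_add] at h4
    linarith [h1 s hs (h2.trans_le (min_le_left _ _))]
  obtain ⟨f, u, r₀, h, -, ch₀, u0, g0, -⟩ := hM.exists_tchart finrank_E3 hp univ_mem
  have hu1 : ContDiff ℝ 1 u := contDiff_one' ch₀.smooth
  obtain ⟨r₁, hr₁, hg⟩ := Metric.eventually_nhds_iff_ball.1
    ((continuous_grad hu1).norm.continuousAt.eventually
      (gt_mem_nhds (show ‖grad u 0‖ < η by rw [g0, norm_zero]; exact hη0)))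
  obtain ⟨r, hr0, hr1, hr2⟩ : ∃ r : ℝ, 0 < r ∧ r ≤ r₀ ∧ r ≤ r₁ :=
    ⟨min r₀ r₁, lt_min ch₀.r_pos hr₁, min_le_left _ _, min_le_right _ _⟩
  have ch : GChart M f p r h u := ch₀.mono hr0 ch₀.h_pos hr1 le_rfl
    fun y hy => ch₀.bd y (hy.trans_le hr1)
  have hg' : ∀ y ∈ ball (0:E2) r, ‖grad u y‖ ≤ η := fun y hy =>
    (hg y (ball_subset_ball hr2 hy)).le
  have hu : ∀ y ∈ ball (0:E2) r, |u y| ≤ η * ‖y‖ := fun y hy => by
    have := (convex_ball (0:E2) r).norm_image_sub_le_of_norm_fderiv_le (fun z _ => ch.diff z)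
      (fun z hz => by rw [← norm_grad]; exact hg' z hz) (mem_ball_self hr0) hy
    rwa [u0, sub_zero, sub_zero] at this
  have hh := ch.h_pos
  obtain ⟨ρ, hρ0, hρ1, hρ2⟩ : ∃ ρ : ℝ, 0 < ρ ∧ 2 * ρ ≤ r ∧ 2 * ρ ≤ h :=
    ⟨min r h / 2, by positivity, by linarith [min_le_left r h], by linarith [min_le_right r h]⟩
  obtain ⟨δ₁, hδ₁, h1⟩ := exists_exp_small (A := C * Λ) hρ0 (half_pos hε)
  obtain ⟨δ₂, hδ₂, h2⟩ := exists_exp_small (A := 1) hr0 hη0
  obtain ⟨δ, hδ, d1, d2, d3, d4⟩ : ∃ δ : ℝ, 0 < δ ∧ δ ≤ δ₁ ∧ δ ≤ δ₂ ∧ δ ≤ ρ ∧ δ ≤ η ^ 2 :=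
    ⟨min (min δ₁ δ₂) (min ρ (η ^ 2)), by positivity, (min_le_left _ _).trans (min_le_left _ _),
      (min_le_left _ _).trans (min_le_right _ _), (min_le_right _ _).trans (min_le_left _ _),
      (min_le_right _ _).trans (min_le_right _ _)⟩
  refine ⟨δ, hδ, fun c s hs h3 => ⟨fun h4 => ?_, fun _ h4 => ?_⟩⟩
  · have a1 := Gm_split hA hs (f.isOpen_cyl p r h).measurableSet
      ((ball_subset_ball' (ε₂ := 2 * ρ) (by rw [dist_eq_norm]; linarith)).trans
        (f.ball_subset_cyl p hρ1 hρ2)) ((hG Λ _ c s hΛ hA hs).2.2 ρ hρ0.le)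
    rw [← ch.image, integral_gr hu1 measurableSet_ball] at a1
    have a2 := chart_up (f := f) (p := p) hu1 hη0 hg' c hs
    have a3 : (4 * π * s * cH 2)⁻¹ * ∫ y in ball 0 r, gJ u y • gk c s (f.gr p u y) ≤ 1 + η := by
      rw [inv_mul_le_iff₀ (by positivity)]; linarith
    linarith [h1 s hs (h3.trans_le d1)]
  · have hs' : 0 < s / (1 + η) ^ 2 := by positivity
    have a1 := chart_low (f := f) hu1 hη0 hη1 hr0 hu hs
      (h4.trans (mul_le_mul_of_nonneg_right d4 hs.le))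
      ((one_mul _).symm.trans_le (h2 _ hs' (lt_of_le_of_lt
        (div_le_self hs.le (one_le_pow₀ (by linarith))) (h3.trans_le d2))))
    rw [← integral_gr hu1 measurableSet_ball, ch.image] at a1
    replace a1 := a1.trans (setIntegral_mono_set (hA.bb.integrable_gk c hs)
      (Eventually.of_forall fun x => (gk_pos _ _ _).le) inter_subset_left.eventuallyLE)
    rw [Gm_def, le_inv_mul_iff₀ (by positivity)]
    refine le_trans ?_ a1
    calc 4 * π * s * cH 2 * (1 - ε)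
        = 4 * π * (s / (1 + η) ^ 2) * cH 2 * ((1 - ε) * (1 + η) ^ 2) := by field_simp
      _ ≤ 4 * π * (s / (1 + η) ^ 2) * cH 2 * ((1 - η) * (1 - 2 * η)) :=
          mul_le_mul_of_nonneg_left (dens_aux hη0 hη2) (by positivity)
      _ = _ := by ring

end Vale.Agent.P218N.C
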