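import Vale.Agent.P218N.C.Gauss
import Vale.Agent.P218N.H.Bridge
import Vale.Agent.P218N.B.Small

/-! The monotonicity formula and its consequences. -/

open MeasureTheory Set Filter Topology Metric Real
open scoped ENNReal NNReal RealInnerProductSpace ContDiff

namespace Vale.Agent.P218N.C

open Vale.Agent.P218 Vale.Agent.P218.H313 Vale.Agent.P218N.H Vale.Agent.P218N.B
open Vale.Agent.P218N.C0
open Vale.Agent.P218GA (cH cH_pos')

variable {Λ : ℝ} {κ : Measure E3} {w : E3 → ℝ}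

lemma velM_zs (h : Shr w) {x : E3} (hx : x ∈ zs w) : velM (zs w) x = 0 := by
  have h1 : LocDef (zs w) _ w := locDef_level h.smooth
  rw [velM_eq (surf_zs h) hx, h1.Hv_eq (h.ne x hx) hx, h1.PT_eq (h.ne x hx) hx, h.eq x hx, PW,
    perp_apply, sub_sub_cancel, smul_smul, ← add_smul, real_inner_comm]
  convert zero_smul ℝ _
  ring

lemma sub_PT_sq (h : Shr w) {x : E3} (hx : x ∈ zs w) (v : E3) :
    ‖v - PT (zs w) x v‖ ^ 2 = ⟪v, nuW w x⟫ ^ 2 := by
  have h1 : LocDef (zs w) _ w := locDef_level h.smooth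
  rw [h1.PT_eq (h.ne x hx) hx, PW, perp_apply, sub_sub_cancel, norm_smul, norm_nuW (h.ne x hx),
    mul_one, Real.norm_eq_abs, sq_abs, real_inner_comm]

lemma np_sq (h : Shr w) {x : E3} (hx : x ∈ zs w) (v : E3) :
    ‖np (tanP (zs w) x) v‖ ^ 2 = ⟪v, nuW w x⟫ ^ 2 := by
  rw [np_apply, (surf_zs h).proj_tanP hx, sub_PT_sq h hx]

lemma ae_zs (h : Shr w) : ∀ᵐ x ∂(mu (zs w)), x ∈ zs w := ae_restrict_mem (surf_zs h).measurableSet

lemma Shk.shrM (h : Shk Λ w) : ShrM 2 (mu (zs w)) (tanP (zs w)) (Hv (zs w)) (4 * Λ) :=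
  ⟨(surf_zs h.shr).mc finrank_E3 (isClosed_zs h.shr),
    (ae_zs h.shr).mono fun _ hx => velM_zs h.shr hx, h.ratio.bb⟩

lemma Dis_eq (h : Shr w) (y : E3) (a σ : ℝ) : Dis w y a σ =
    (4 * π * (1 + a * σ ^ 2) * cH 2)⁻¹ * DG (mu (zs w)) (tanP (zs w)) y a σ := by
  rw [Dis, DG]
  congr 1
  refine integral_congr_ae ((ae_zs h).mono fun x hx => ?_)
  simp only
  rw [np_sq h hx, mul_comm, gk]

lemma Dis_zero (h : Shr w) (y : E3) (σ : ℝ) :
    Dis w y 0 σ = (4 * π * cH 2)⁻¹ * DR (mu (zs w)) (tanP (zs w)) y σ := by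
  rw [Dis_eq h]
  simp [DG, DR]

lemma Dis_nonneg (h : Shr w) (y : E3) {a σ : ℝ} (ht : 0 < 1 + a * σ ^ 2) : 0 ≤ Dis w y a σ := by
  have := cH_pos' 2
  rw [Dis_eq h]
  exact mul_nonneg (by positivity) (DG_nonneg _ _ _ _ _)

lemma ARm.tendsto_Gm (h : ARm Λ κ) {ι : Type*} {l : Filter ι} {c' : ι → E3} {s' : ι → ℝ} {c : E3}
    {s : ℝ} (hs : 0 < s) (h1 : Tendsto c' l (𝓝 c)) (h2 : Tendsto s' l (𝓝 s)) :
    Tendsto (fun i => Gm κ (c' i) (s' i)) l (𝓝 (Gm κ c s)) := by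
  rw [Gm_eq _ _ hs]
  refine (((h.bb.continuousAt_GG 2 c hs).tendsto.comp (h1.prodMk_nhds h2)).const_mul _).congr' ?_
  filter_upwards [h2.eventually (lt_mem_nhds hs)] with i hi
  rw [Gm_eq _ _ hi]
  rfl

theorem hui : HuiStmt := by
  intro Λ w h y a σ ht
  have hc := cH_pos' 2
  refine (((h.shrM.hasDerivAt_GG y a ht).const_mul (4 * π * cH 2)⁻¹).congr_of_eventuallyEq
    ?_).congr_deriv ?_
  · have : ContinuousAt (fun σ : ℝ => 1 + a * σ ^ 2) σ := by fun_prop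
    filter_upwards [this.eventually (lt_mem_nhds ht)] with s hs
    rw [Gm_eq _ _ hs]
  · rw [Dis_eq h.shr, sq_sqrt ht.le]
    field_simp

lemma Shk.Gm_le (h : Shk Λ w) (c : E3) {t σ : ℝ} (ht : 0 < t) (h0 : 0 ≤ σ) (h1 : σ ≤ 1) :
    Gm (mu (zs w)) c t ≤ Gm (mu (zs w)) (σ • c) (1 + (t - 1) * σ ^ 2) := by
  have hc := cH_pos' 2
  have h2 : 0 < 1 + (t - 1) * σ ^ 2 := by
    have h3 : σ ^ 2 ≤ 1 := pow_le_one₀ h0 h1
    rcases h3.eq_or_lt with h4 | h4
    · rw [h4]; linarith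
    · nlinarith [mul_nonneg ht.le (sq_nonneg σ)]
  rw [Gm_eq _ _ ht, Gm_eq _ _ h2]
  exact mul_le_mul_of_nonneg_left (h.shrM.GG_le c ht h0 h1) (by positivity)

theorem mono : MonoStmt := by
  intro Λ w h
  have hc := cH_pos' 2
  refine ⟨fun y a σ σ' h0 h1 ht => ?_, fun p σ hp h0 h1 => ?_⟩
  · have h2 : 0 < 1 + a * σ ^ 2 := by
      have h3 : σ ^ 2 ≤ σ' ^ 2 := pow_le_pow_left₀ h0 h1 2
      rcases le_total 0 a with h4 | h4
      · positivity
      · nlinarith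
    rw [Gm_eq _ _ ht, Gm_eq _ _ h2]
    exact mul_le_mul_of_nonneg_left (h.shrM.GG_anti y a h0 h1 ht) (by positivity)
  · refine le_of_forall_pos_le_add fun ε hε => ?_
    obtain ⟨δ, hδ, h2⟩ := gDens.2 _ Λ (surf_zs h.shr) h.pos (isClosed_zs h.shr) h.ratio p ε hε
    have h3 : 0 < 1 - σ ^ 2 := by nlinarith
    have h4 : Tendsto (fun t : ℝ => 1 + (t - 1) * σ ^ 2) (𝓝[>] 0) (𝓝 (1 - σ ^ 2)) :=
      ((by fun_prop : Continuous fun t : ℝ => 1 + (t - 1) * σ ^ 2).tendsto' 0 _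
        (by ring)).mono_left nhdsWithin_le_nhds
    rw [← sub_le_iff_le_add]
    refine ge_of_tendsto (h.ratio.tendsto_Gm h3 tendsto_const_nhds h4) ?_
    filter_upwards [Ioo_mem_nhdsGT hδ] with t ht
    exact ((h2 p t ht.1 ht.2).2 hp (by simp [mul_nonneg hδ.le ht.1.le])).trans
      (h.Gm_le p ht.1 h0 h1.le)

theorem good : GoodStmt := by
  intro Λ w h y α β hα hβ
  obtain ⟨σ, h1, h2⟩ := h.shrM.exists_good y (η := log β - log α)
    (sub_pos.2 (log_lt_log hα hβ))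
  refine ⟨fun R => exp (σ (log (α * R))), fun R hR => ⟨?_, ?_⟩, ?_⟩
  · exact (exp_log (by positivity)).symm.trans_le (exp_le_exp.2 (h1 _).1.le)
  · refine (exp_le_exp.2 (h1 _).2.le).trans (le_of_eq ?_)
    rw [log_mul hα.ne' hR.ne', ← exp_log (mul_pos (hα.trans hβ) hR),
      log_mul (hα.trans hβ).ne' hR.ne']
    congr 1; ring
  · have h3 := (h2.comp (tendsto_log_atTop.comp (tendsto_id.const_mul_atTop hα))).const_mul
      (4 * π * cH 2)⁻¹
    rw [mul_zero] at h3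
    refine h3.congr fun R => ?_
    simp only [Function.comp_apply, id, Dis_zero h.shr]
    ring

theorem slow : SlowStmt := by
  intro Λ w h y _ φ h1 h2 N ε hε
  obtain ⟨T, -, hT⟩ := (h.shrM.slow y).slow' φ h1 h2 (h := log (max N 2))
    (log_pos (one_lt_two.trans_le (le_max_right _ _))) hε
  refine ⟨exp T, fun ρ ρ' h3 h4 h5 => ?_⟩
  have h6 : 0 < ρ := (exp_pos T).trans_le h3
  have h7 := hT (log ρ) (log ρ') ((le_log_iff_exp_le h6).2 h3) (log_le_log h6 h4) (by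
    rw [← log_mul h6.ne' (by positivity)]
    exact log_le_log (h6.trans_le h4) (h5.trans (by rw [mul_comm]; gcongr; exact le_max_left _ _)))
  rwa [NT, NT, exp_log h6, exp_log (h6.trans_le h4), ← tm_eq, ← tm_eq, abs_sub_comm] at h7

lemma surf_shf {S : Set E3} (h : Surf S) (c : E3) : Surf (shf S c) := by
  rw [shf_eq]; exact h.sim one_pos

lemma isClosed_shf {S : Set E3} (h : IsClosed S) (c : E3) : IsClosed (shf S c) :=
  h.preimage (continuous_const.add continuous_id)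

lemma ARm.good {S : Set E3} (h : ARm Λ (mu S)) (h1 : Surf S) (h2 : IsClosed S) : Good (4 * Λ) S :=
  ⟨h1, h2, fun x r hr _ => ((measure_mono (closedBall_subset_ball (by linarith))).trans
    (h x (2 * r) (by positivity))).trans (le_of_eq (by congr 1; ring))⟩

lemma velM_shf (h : Shr w) {c x : E3} (hx : x ∈ shf (zs w) c) :
    ‖velM (shf (zs w) c) x‖ ^ 2 = ⟪c, nuW w (c + x)⟫ ^ 2 / 4 := by
  have e : sim c 1 (LinearIsometryEquiv.refl ℝ E3) x = c + x := by simp [sim]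
  have hx' : sim c 1 (LinearIsometryEquiv.refl ℝ E3) x ∈ zs w := e ▸ hx
  have h1 := velM_zs h (x := c + x) hx
  rw [velM_eq (surf_zs h) hx] at h1
  have h2 : velM (shf (zs w) c) x = -(1 / 2 : ℝ) • (c - PT (zs w) (c + x) c) := by
    rw [velM_eq (surf_shf (surf_zs h) c) hx, shf_eq, (surf_zs h).Hv_sim one_pos hx',
      (surf_zs h).PT_sim one_pos hx', cj_refl, e, one_smul, eq_neg_of_add_eq_zero_left h1, map_add]
    rw [show ∀ v, (LinearIsometryEquiv.refl ℝ E3).symm v = v from fun _ => rfl]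
    module
  rw [h2, norm_smul, mul_pow, sub_PT_sq h hx, norm_neg, Real.norm_of_nonneg (by norm_num)]
  ring

lemma Shk.Vn_le (h : Shk Λ w) (y : E3) (ρ R : ℝ) : Vn (shf (zs w) (ρ • y)) (ball 0 R)
    ≤ ENNReal.ofReal (exp (R ^ 2 / 4) * (π * cH 2) * (ρ ^ 2 * Dis w y 0 ρ)) := by
  have hc := cH_pos' 2
  have e : exp (R ^ 2 / 4) * (π * cH 2) * (ρ ^ 2 * Dis w y 0 ρ) = ∫ x, exp (R ^ 2 / 4) * ρ ^ 2 / 4 *
      (gk (ρ • y) 1 x * ‖np (tanP (zs w) x) y‖ ^ 2) ∂(mu (zs w)) := by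
    rw [integral_const_mul, Dis_zero h.shr, DR]; field_simp
  rw [e, ofReal_integral_eq_lintegral_ofReal ((h.shrM.int_DR _ _).const_mul _)
    (Eventually.of_forall fun x => mul_nonneg (by positivity)
      (mul_nonneg (gk_pos _ _ _).le (sq_nonneg _))), Vn, ← lintegral_indicator measurableSet_ball,
    mu_shf, tl, (emb_sub _).lintegral_map]
  refine lintegral_mono_ae ((ae_zs h.shr).mono fun x hx => ?_)
  by_cases h1 : x - ρ • y ∈ ball (0 : E3) R
  · have h2 : x - ρ • y ∈ shf (zs w) (ρ • y) := by simpa [shf] using hx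
    rw [indicator_of_mem h1, velM_shf h.shr h2, add_sub_cancel, np_sq h.shr hx,
      real_inner_smul_left]
    refine ENNReal.ofReal_le_ofReal ?_
    have h3 : 1 ≤ exp (R ^ 2 / 4) * gk (ρ • y) 1 x := by
      rw [gk, ← exp_add, one_le_exp_iff]
      have := pow_le_pow_left₀ (norm_nonneg _) (mem_ball_zero_iff.1 h1).le 2
      linarith
    calc _ = 1 * ((ρ * ⟪y, nuW w x⟫) ^ 2 / 4) := (one_mul _).symm
      _ ≤ exp (R ^ 2 / 4) * gk (ρ • y) 1 x * ((ρ * ⟪y, nuW w x⟫) ^ 2 / 4) := by gcongr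
      _ = _ := by ring
  · rw [indicator_of_notMem h1]; exact zero_le

theorem seq : SeqStmt := by
  intro Λ b w h y ι U ρ κ hκ h1 h2
  have hΛ := h.shk.pos
  have hS := fun i => surf_shf (surf_zs h.shk.shr) (ρ i • y)
  have hC := fun i => isClosed_shf (isClosed_zs h.shk.shr) (ρ i • y)
  have hA : ∀ i, ARm Λ (mu (shf (zs w) (ρ i • y))) := fun i => h.shk.ratio.tm y (ρ i)
  have hV : ∀ R ε : ℝ, 0 < ε → ∀ᶠ i in (U : Filter ι),
      Vn (shf (zs w) (ρ i • y)) (ball 0 R) ≤ ENNReal.ofReal ε := fun R ε hε => by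
    have h3 := h1.const_mul (exp (R ^ 2 / 4) * (π * cH 2))
    rw [mul_zero] at h3
    filter_upwards [h3.eventually (gt_mem_nhds hε)] with i hi
    exact (h.shk.Vn_le y _ R).trans (ENNReal.ofReal_le_ofReal hi.le)
  refine ⟨by positivity, Eventually.of_forall fun i => (hA i).good (hS i) (hC i), fun R => ?_, hV,
    hκ, h2⟩
  obtain ⟨C, hC0, hE⟩ := exists_EB
  obtain ⟨r, hr, hR⟩ : ∃ r : ℝ, 0 < r ∧ R ≤ r := ⟨max R 1, by positivity, le_max_left _ _⟩
  refine ⟨C * (1 + b) * (2 * 1 + (2 * r) ^ 2 / 2 * (Λ * (2 * r) ^ 2)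
    + (r ^ 2)⁻¹ * (Λ * (2 * r) ^ 2) + 1), ?_⟩
  filter_upwards [hV (2 * r) 1 one_pos] with i hi
  have h3 := hA i 0 (2 * r) (by positivity)
  refine (En_mono (ball_subset_ball hR)).trans ((hE _ b (hS i) (hC i)
    (h.rank.homeo ((Homeomorph.addLeft (ρ i • y)).sets rfl)) 0 r hr).trans ?_)
  rw [ENNReal.ofReal_mul (p := C * (1 + b)) (by positivity),
    ENNReal.ofReal_add (by positivity) zero_le_one,
    ENNReal.ofReal_add (by positivity) (by positivity), ENNReal.ofReal_one,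
    ENNReal.ofReal_mul (p := (r ^ 2)⁻¹) (by positivity)]
  gcongr
  exact Hn_le (hS i) measurableSet_ball subset_rfl zero_le_one (by positivity) hi h3

end Vale.Agent.P218N.C
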