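import Vale.Agent.P218N.GB.Geo
import Mathlib.Geometry.Manifold.PartitionOfUnity

/-! Curves in space cut out by two equations: oriented charts, arcs, tangent vectors and the
curvature vector. -/

open Filter Topology Set Metric
open scoped RealInnerProductSpace ContDiff Manifold

noncomputable section

namespace Vale.Agent.P218N.C.OM

open Vale.Agent.P218N.GB

/-- `Z` is cut out by `F` in `U`, and the unit field `V` spans the kernel of `dF` -/
structure OC (Z U : Set V3) (F : V3 → ℝ × ℝ) (V : V3 → V3) : Prop where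
  opn : IsOpen U
  smF : ContDiffOn ℝ ∞ F U
  smV : ContDiffOn ℝ ∞ V U
  unit : ∀ z ∈ U, ‖V z‖ = 1
  ker : ∀ z ∈ U, fderiv ℝ F z (V z) = 0
  span : ∀ z ∈ U, ∀ T, fderiv ℝ F z T = 0 → T = ⟪V z, T⟫ • V z
  cut : ∀ z ∈ U, z ∈ Z ↔ F z = 0

variable {Z U U' : Set V3} {F F' : V3 → ℝ × ℝ} {V V' : V3 → V3} {x T : V3}

theorem OC.neg (h : OC Z U F V) : OC Z U F fun z => -V z where
  opn := h.opn
  smF := h.smF
  smV := h.smV.neg
  unit z hz := by rw [norm_neg, h.unit z hz]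
  ker z hz := by rw [map_neg, h.ker z hz, neg_zero]
  span z hz T hT := by rw [inner_neg_left, neg_smul, smul_neg, neg_neg]; exact h.span z hz T hT
  cut := h.cut

theorem OC.atF (h : OC Z U F V) (hx : x ∈ U) : ContDiffAt ℝ ∞ F x :=
  h.smF.contDiffAt (h.opn.mem_nhds hx)

theorem OC.atV (h : OC Z U F V) (hx : x ∈ U) : ContDiffAt ℝ ∞ V x :=
  h.smV.contDiffAt (h.opn.mem_nhds hx)

theorem cr_cyc (a b n : V3 →L[ℝ] ℝ) : a (cr b n) = n (cr a b) := by
  rw [clm_eq a, clm_eq n]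
  simp [cr]
  ring

theorem cr_span {a b : V3 →L[ℝ] ℝ} (ha : a T = 0) (hb : b T = 0) :
    ⟪cr a b, cr a b⟫ • T = ⟪cr a b, T⟫ • cr a b := by
  ext i
  have := cramer a b (innerSL ℝ (cr a b)) (EuclideanSpace.proj i) T
  rw [cr_cyc, ha, hb] at this
  simpa using this

theorem cr_ne {a b : V3 →L[ℝ] ℝ} {x y : V3} (a1 : a x = 1) (a2 : a y = 0) (b2 : b y = 1) :
    cr a b ≠ 0 := by
  intro h
  have e0 : cr a b 0 = 0 := by rw [h]; rfl
  have e1 : cr a b 1 = 0 := by rw [h]; rfl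
  have e2 : cr a b 2 = 0 := by rw [h]; rfl
  simp only [cr, Matrix.cons_val_zero, Matrix.cons_val_one, Matrix.cons_val] at e0 e1 e2
  rw [clm_eq] at a1 a2 b2
  have : (1 : ℝ) = 0 := by
    linear_combination (-(y 0 * b (bs 0) + y 1 * b (bs 1) + y 2 * b (bs 2))) * a1 - b2 +
      (x 0 * b (bs 0) + x 1 * b (bs 1) + x 2 * b (bs 2)) * a2 + (x 1 * y 2 - x 2 * y 1) * e0 +
      (x 2 * y 0 - x 0 * y 2) * e1 + (x 0 * y 1 - x 1 * y 0) * e2
  exact one_ne_zero this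

theorem exists_OC (hU : IsOpen U) (hF : ContDiffOn ℝ ∞ F U)
    (hs : ∀ z ∈ U, Function.Surjective (fderiv ℝ F z)) (hZ : ∀ z ∈ U, z ∈ Z ↔ F z = 0) :
    ∃ V, OC Z U F V := by
  let a : V3 → V3 →L[ℝ] ℝ := fun z => (ContinuousLinearMap.fst ℝ ℝ ℝ).comp (fderiv ℝ F z)
  let b : V3 → V3 →L[ℝ] ℝ := fun z => (ContinuousLinearMap.snd ℝ ℝ ℝ).comp (fderiv ℝ F z)
  have hD : ContDiffOn ℝ ∞ (fderiv ℝ F) U := hF.fderiv_of_isOpen hU le_rfl
  have h1 : ∀ i, ContDiffOn ℝ ∞ (fun z => a z (bs i)) U := fun i =>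
    (hD.clm_apply contDiffOn_const).fst
  have h2 : ∀ i, ContDiffOn ℝ ∞ (fun z => b z (bs i)) U := fun i =>
    (hD.clm_apply contDiffOn_const).snd
  have hW : ContDiffOn ℝ ∞ (fun z => cr (a z) (b z)) U := by
    refine contDiffOn_euclidean.2 fun i => ?_
    fin_cases i <;> exact ((h1 _).mul (h2 _)).sub ((h1 _).mul (h2 _))
  have ne : ∀ z ∈ U, cr (a z) (b z) ≠ 0 := fun z hz => by
    obtain ⟨e₁, k1⟩ := hs z hz (1, 0)
    obtain ⟨e₂, k2⟩ := hs z hz (0, 1)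
    exact cr_ne (x := e₁) (y := e₂) (congrArg Prod.fst k1) (congrArg Prod.fst k2)
      (congrArg Prod.snd k2)
  refine ⟨fun z => ‖cr (a z) (b z)‖⁻¹ • cr (a z) (b z), hU, hF, ?_, fun z hz => ?_,
    fun z hz => ?_, fun z hz T hT => ?_, hZ⟩
  · exact ((hW.norm ℝ ne).inv fun z hz => norm_ne_zero_iff.2 (ne z hz)).smul hW
  · rw [norm_smul, norm_inv, norm_norm, inv_mul_cancel₀ (norm_ne_zero_iff.2 (ne z hz))]
  · rw [map_smul, show fderiv ℝ F z (cr (a z) (b z)) = 0 from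
      Prod.ext (cr_left (a z) (b z)) (cr_right (a z) (b z)), smul_zero]
  · have k := cr_span (a := a z) (b := b z) (T := T) (congrArg Prod.fst hT) (congrArg Prod.snd hT)
    have n0 := norm_ne_zero_iff.2 (ne z hz)
    rw [real_inner_smul_left, smul_smul, mul_right_comm, mul_smul, ← k, smul_smul,
      real_inner_self_eq_norm_sq]
    rw [show ‖cr (a z) (b z)‖⁻¹ * ‖cr (a z) (b z)‖⁻¹ * ‖cr (a z) (b z)‖ ^ 2 = 1 by field_simp,
      one_smul]

/-- the integral curve of `V` through a point of `Z` stays in `Z` -/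
theorem OC.arc (h : OC Z U F V) (hx : x ∈ U) (hZ : x ∈ Z) :
    ∃ c : ℝ → V3, c 0 = x ∧ ∀ᶠ s in 𝓝 (0 : ℝ), HasDerivAt c (V (c s)) s ∧ c s ∈ U ∧ c s ∈ Z := by
  obtain ⟨c, c0, ε, ε0, hc⟩ :=
    ((h.atV hx).of_le (by simp)).exists_forall_mem_closedBall_exists_eq_forall_mem_Ioo_hasDerivAt₀ 0
  have m0 : Ioo (0 - ε) (0 + ε) ∈ 𝓝 (0 : ℝ) := Ioo_mem_nhds (by linarith) (by linarith)
  have e1 : ∀ᶠ s in 𝓝 (0 : ℝ), HasDerivAt c (V (c s)) s ∧ c s ∈ U :=
    Eventually.and (mem_of_superset m0 hc)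
      ((hc 0 (mem_of_mem_nhds m0)).continuousAt.eventually (h.opn.mem_nhds (c0 ▸ hx)))
  obtain ⟨δ, δ0, hδ⟩ := Metric.eventually_nhds_iff_ball.1 e1
  have d : ∀ s ∈ ball (0 : ℝ) δ, HasDerivAt (fun s => F (c s)) 0 s := fun s hs =>
    ((((h.atF (hδ s hs).2).differentiableAt (by simp)).hasFDerivAt.comp_hasDerivAt s
      (hδ s hs).1)).congr_deriv (h.ker _ (hδ s hs).2)
  refine ⟨c, c0, mem_of_superset (ball_mem_nhds 0 δ0) fun s hs => ⟨(hδ s hs).1, (hδ s hs).2, ?_⟩⟩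
  rw [h.cut _ (hδ s hs).2, isOpen_ball.is_const_of_deriv_eq_zero (f := fun s => F (c s))
    (convex_ball _ _).isPreconnected (fun s hs => (d s hs).differentiableAt.differentiableWithinAt)
    (fun s hs => (d s hs).deriv) hs (mem_ball_self δ0), c0, ← h.cut _ hx]
  exact hZ

/-- tangent vectors -/
def Tg (Z : Set V3) (x T : V3) : Prop := ∀ U F V, OC Z U F V → x ∈ U → fderiv ℝ F x T = 0

theorem Tg.neg (h : Tg Z x T) : Tg Z x (-T) := fun U F V k hx => by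
  rw [map_neg, h U F V k hx, neg_zero]

theorem tg_of_curve {c : ℝ → V3} {t : ℝ} (hc : HasDerivAt c T t) (hZ : ∀ᶠ s in 𝓝 t, c s ∈ Z) :
    Tg Z (c t) T := fun U F V k hx => by
  have d := ((k.atF hx).differentiableAt (by simp)).hasFDerivAt.comp_hasDerivAt t hc
  refine d.unique ((hasDerivAt_const t (0 : ℝ × ℝ)).congr_of_eventuallyEq ?_)
  filter_upwards [hZ, hc.continuousAt.eventually (k.opn.mem_nhds hx)] with s h1 h2
  exact (k.cut _ h2).1 h1

theorem OC.tg (h : OC Z U F V) (hx : x ∈ U) (hZ : x ∈ Z) : Tg Z x (V x) := by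
  obtain ⟨c, c0, hc⟩ := h.arc hx hZ
  have := tg_of_curve hc.self_of_nhds.1 (hc.mono fun s hs => hs.2.2)
  rwa [c0] at this

theorem OC.sign (h : OC Z U F V) (hx : x ∈ U) (hT : Tg Z x T) (h1 : ‖T‖ = 1) :
    V x = T ∨ -V x = T := by
  have k := h.span x hx T (hT U F V h hx)
  have n := congrArg norm k
  rw [norm_smul, h.unit x hx, h1, mul_one, Real.norm_eq_abs] at n
  rcases (abs_eq zero_le_one).1 n.symm with e | e <;> rw [e] at k
  · exact .inl (by rw [k, one_smul])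
  · exact .inr (by rw [k, neg_smul, one_smul])

/-- the unit tangent vectors -/
def UT (Z : Set V3) : Set (V3 × V3) := {q | q.1 ∈ Z ∧ ‖q.2‖ = 1 ∧ Tg Z q.1 q.2}

theorem OC.ut (h : OC Z U F V) (hx : x ∈ U) (hZ : x ∈ Z) : (x, V x) ∈ UT Z :=
  ⟨hZ, h.unit x hx, h.tg hx hZ⟩

theorem ut_neg {q : V3 × V3} (hq : q ∈ UT Z) : (q.1, -q.2) ∈ UT Z :=
  ⟨hq.1, by simpa using hq.2.1, hq.2.2.neg⟩

theorem isCompact_ut (hZ : IsCompact Z) : IsCompact (UT Z) := by
  refine (hZ.prod (isCompact_sphere (0 : V3) 1)).of_isClosed_subset ?_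
    fun q hq => ⟨hq.1, by simpa using hq.2.1⟩
  refine (hZ.isClosed.preimage continuous_fst).inter
    ((isClosed_eq continuous_snd.norm continuous_const).inter ?_)
  refine isClosed_iff_frequently.2 fun q hq U F V k hx => ?_
  have c : ContinuousAt (fun p : V3 × V3 => fderiv ℝ F p.1 p.2) q :=
    ((((k.atF hx).fderiv_right (m := 0) (by simp)).continuousAt.comp
      continuousAt_fst).clm_apply continuousAt_snd)
  have f : ∃ᶠ p : V3 × V3 in 𝓝 q, fderiv ℝ F p.1 p.2 ∈ ({0} : Set (ℝ × ℝ)) :=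
    (hq.and_eventually (continuousAt_fst.eventually (k.opn.mem_nhds hx))).mono
      fun p hp => hp.1 U F V k hp.2
  exact isClosed_singleton.mem_of_frequently_of_tendsto f c

theorem OC.near (h : OC Z U F V) {q : V3 × V3} (hx : q.1 ∈ U) (e : V q.1 = q.2) :
    ∀ᶠ p in 𝓝 q, p ∈ UT Z → p.1 ∈ U ∧ V p.1 = p.2 := by
  have c : ContinuousAt (fun p : V3 × V3 => ‖V p.1 - p.2‖) q :=
    (((h.atV hx).continuousAt.comp continuousAt_fst).sub continuousAt_snd).norm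
  filter_upwards [c.eventually_lt_const (show ‖V q.1 - q.2‖ < 2 by simp [e]),
    continuousAt_fst.eventually (h.opn.mem_nhds hx)] with p h1 h2 hp
  refine ⟨h2, (h.sign h2 hp.2.2 hp.2.1).resolve_right fun k => ?_⟩
  rw [← k, sub_neg_eq_add, ← two_smul ℝ, norm_smul, h.unit _ h2] at h1
  norm_num at h1

theorem OC.curv_aux (h : OC Z U F V) (h' : OC Z U' F' V') (hx : x ∈ U) (hx' : x ∈ U') (hZ : x ∈ Z)
    (e : V' x = V x) : fderiv ℝ V x (V x) = fderiv ℝ V' x (V' x) := by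
  obtain ⟨c, c0, hc⟩ := h.arc hx hZ
  have d := hc.self_of_nhds.1
  subst c0
  have dV := ((h.atV hx).differentiableAt (by simp)).hasFDerivAt.comp_hasDerivAt 0 d
  have dV' := ((h'.atV hx').differentiableAt (by simp)).hasFDerivAt.comp_hasDerivAt 0 d
  rw [e]
  refine dV.unique (dV'.congr_of_eventuallyEq ?_)
  filter_upwards [hc, (d.continuousAt.prodMk dV.continuousAt).eventually
    (h'.near (q := (c 0, V (c 0))) hx' e)] with s h1 h2
  exact (h2 (h.ut h1.2.1 h1.2.2)).2.symm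

theorem OC.curv_eq (h : OC Z U F V) (h' : OC Z U' F' V') (hx : x ∈ U) (hx' : x ∈ U') (hZ : x ∈ Z) :
    fderiv ℝ V x (V x) = fderiv ℝ V' x (V' x) := by
  rcases h'.sign hx' (h.tg hx hZ) (h.unit x hx) with e | e
  · exact h.curv_aux h' hx hx' hZ e
  · rw [h.curv_aux h'.neg hx hx' hZ e, fderiv_fun_neg]
    simp

/-- a smooth extension of the curvature vector -/
theorem exists_curv (hZ : IsClosed Z) (hc : ∀ x ∈ Z, ∃ U F V, OC Z U F V ∧ x ∈ U) :
    ∃ k : V3 → V3, ContDiff ℝ ∞ k ∧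
      ∀ U F V, OC Z U F V → ∀ x ∈ U, x ∈ Z → k x = fderiv ℝ V x (V x) := by
  obtain ⟨g, hg⟩ := exists_contMDiffMap_forall_mem_convex_of_local (n := ⊤) 𝓘(ℝ, V3)
    (t := fun x => {v : V3 | ∀ U F V, OC Z U F V → x ∈ U → x ∈ Z → v = fderiv ℝ V x (V x)})
    (fun x u hu v hv a b _ _ hab U F V k h1 h2 => by
      rw [hu U F V k h1 h2, hv U F V k h1 h2, ← add_smul, hab, one_smul])
    (fun x => by
      by_cases hx : x ∈ Z
      · obtain ⟨U, F, V, k, h1⟩ := hc x hx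
        refine ⟨U, k.opn.mem_nhds h1, fun y => fderiv ℝ V y (V y), ?_,
          fun y hy U' F' V' k' h2 h3 => k.curv_eq k' hy h2 h3⟩
        exact ((k.smV.fderiv_of_isOpen k.opn le_rfl).clm_apply k.smV).contMDiffOn
      · exact ⟨Zᶜ, hZ.isOpen_compl.mem_nhds hx, fun _ => 0, contMDiffOn_const,
          fun y hy U' F' V' k' h2 h3 => (hy h3).elim⟩)
  exact ⟨g, g.contMDiff.contDiff, fun U F V k x h1 h2 => hg x U F V k h1 h2⟩

/-- a curve in `Z` with unit speed covers a neighbourhood in `Z` -/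
theorem OC.cover (h : OC Z U F V) {c : ℝ → V3} (hx : c 0 ∈ U) (cc : Continuous c)
    (hZ : ∀ s, c s ∈ Z) (hd : HasDerivAt c (V (c 0)) 0) {δ : ℝ} (hδ : 0 < δ) :
    c '' Ioo (-δ) δ ∈ 𝓝[Z] c 0 := by
  set ℓ : V3 →L[ℝ] ℝ := innerSL ℝ (V (c 0)) with hℓ
  have l1 : ℓ (V (c 0)) = 1 := by
    rw [hℓ, innerSL_apply_apply, real_inner_self_eq_norm_sq, h.unit _ hx, one_pow]
  have inj : Function.Injective (ℓ.prod (fderiv ℝ F (c 0))).toLinearMap :=
    (injective_iff_map_eq_zero _).2 fun v hv => by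
      simp only [ContinuousLinearMap.coe_coe, ContinuousLinearMap.prod_apply, Prod.mk_eq_zero] at hv
      rw [h.span _ hx v hv.2, show ⟪V (c 0), v⟫ = 0 from hv.1, zero_smul]
  obtain ⟨L, hL⟩ : ∃ L : V3 ≃L[ℝ] ℝ × ℝ × ℝ,
      (L : V3 →L[ℝ] ℝ × ℝ × ℝ) = ℓ.prod (fderiv ℝ F (c 0)) :=
    ⟨(LinearEquiv.ofInjectiveOfFinrankEq _ inj (by simp)).toContinuousLinearEquiv,
      ContinuousLinearMap.ext fun v => rfl⟩
  have sd : HasStrictFDerivAt (fun x => (ℓ x, F x)) (L : V3 →L[ℝ] ℝ × ℝ × ℝ) (c 0) := by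
    rw [hL]
    exact ℓ.hasStrictFDerivAt.prodMk ((h.atF hx).hasStrictFDerivAt (by simp))
  obtain ⟨S, S1, S2⟩ : ∃ S ∈ 𝓝 (c 0), InjOn (fun x => (ℓ x, F x)) S :=
    ⟨_, sd.eventually_left_inverse, fun x hx y hy e => by
      rw [← show _ = x from hx, ← show _ = y from hy]
      exact congrArg _ e⟩
  have d : HasDerivAt (fun u => ℓ (c u)) 1 0 := (ℓ.hasFDerivAt.comp_hasDerivAt 0 hd).congr_deriv l1
  have ev : ∀ᶠ u in 𝓝 (0 : ℝ), (c u ∈ S ∧ c u ∈ U) ∧ |u| < δ :=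
    (cc.continuousAt.eventually (inter_mem S1 (h.opn.mem_nhds hx))).and
      (continuous_abs.continuousAt.eventually_lt_const (by simpa using hδ))
  obtain ⟨ε, ε0, hε⟩ := Metric.eventually_nhds_iff.1 ev
  obtain ⟨η, η0, hη⟩ := Metric.eventually_nhds_iff.1 (eventually_nhdsWithin_iff.1
    ((hasDerivAt_iff_tendsto_slope_zero.1 d).eventually_const_lt one_pos))
  set s := min ε η / 2 with hs
  have s0 : 0 < s := half_pos (lt_min ε0 η0)
  have s1 : s < ε := (half_lt_self (lt_min ε0 η0)).trans_le (min_le_left _ _)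
  have s2 : s < η := (half_lt_self (lt_min ε0 η0)).trans_le (min_le_right _ _)
  have k1 := hη (y := s) (by simpa [abs_of_pos s0] using s2) s0.ne'
  have k2 := hη (y := -s) (by simpa [abs_of_pos s0] using s2) (neg_ne_zero.2 s0.ne')
  simp only [zero_add, smul_eq_mul] at k1 k2
  have m1 : ℓ (c 0) < ℓ (c s) := sub_pos.1 ((pos_iff_pos_of_mul_pos k1).1 (inv_pos.2 s0))
  have m2 : ℓ (c (-s)) < ℓ (c 0) := sub_neg.1 ((neg_iff_neg_of_mul_pos k2).1
    (inv_lt_zero.2 (neg_neg_of_pos s0)))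
  filter_upwards [self_mem_nhdsWithin, nhdsWithin_le_nhds S1,
    nhdsWithin_le_nhds (h.opn.mem_nhds hx),
    nhdsWithin_le_nhds (ℓ.continuous.continuousAt.eventually (Icc_mem_nhds m2 m1))]
    with z z1 z2 z3 z4
  obtain ⟨u, hu, e⟩ := intermediate_value_Icc (f := fun u => ℓ (c u)) (by linarith : -s ≤ s)
    (ℓ.continuous.comp cc).continuousOn z4
  have k := hε (y := u) (by
    rw [dist_zero_right, Real.norm_eq_abs]
    exact (abs_le.2 hu).trans_lt s1)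
  refine ⟨u, abs_lt.1 k.2, S2 k.1.1 z2 ?_⟩
  simp only [e, (h.cut _ k.1.2).1 (hZ u), (h.cut _ z3).1 z1]

end Vale.Agent.P218N.C.OM
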