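import Vale.Agent.P218N.C.Stmt
import Vale.Agent.P218N.B.Limit2
import Vale.Agent.P218N.H.Param

/-! Counting the sheets over a multiple of a smooth surface. -/

open MeasureTheory Set Filter Topology Metric Real
open scoped ENNReal NNReal RealInnerProductSpace ContDiff

namespace Vale.Agent.P218N.C.Sec

open Vale.Agent.P218.H313 Vale.Agent.P218N.H Vale.Agent.P218N.B Vale.Agent.P218N.B.Lim
open Vale.Agent.P218GA (cH cH_pos')

/-- a test function between a compact and an open set -/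
lemma sandwich {K O : Set E3} (hK : IsCompact K) (hO : IsOpen O) (h : K ⊆ O) :
    ∃ φ : E3 → ℝ, Continuous φ ∧ HasCompactSupport φ ∧ ∀ μ : Measure E3,
      IsFiniteMeasureOnCompacts μ → (∀ x, ENNReal.ofReal x ≤ μ K → x ≤ ∫ v, φ v ∂μ) ∧
        ∀ y, 0 ≤ y → μ O ≤ ENNReal.ofReal y → ∫ v, φ v ∂μ ≤ y := by
  obtain ⟨φ, h1, h2, h3, h4⟩ := exists_continuous_one_zero_of_isCompact hK hO.isClosed_compl
    (disjoint_compl_right_iff_subset.2 h)
  refine ⟨φ, φ.continuous, h3, fun μ _ => ?_⟩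
  have h0 : 0 ≤ ∫ v, φ v ∂μ := integral_nonneg fun v => (h4 v).1
  have e := ofReal_integral_eq_lintegral_ofReal (μ := μ)
    (φ.continuous.integrable_of_hasCompactSupport h3) (Eventually.of_forall fun v => (h4 v).1)
  refine ⟨fun x hx => (ENNReal.ofReal_le_ofReal_iff h0).1 (hx.trans ?_),
    fun y hy hμ => (ENNReal.ofReal_le_ofReal_iff hy).1 (le_trans ?_ hμ)⟩
  · rw [e, ← lintegral_indicator_one hK.measurableSet]
    refine lintegral_mono fun v => ?_
    by_cases hv : v ∈ K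
    · simp [hv, h1 hv]
    · simp [hv]
  · rw [e, ← lintegral_indicator_one hO.measurableSet]
    refine lintegral_mono fun v => ?_
    by_cases hv : v ∈ O
    · simpa [hv] using (h4 v).2
    · simp [hv, h2 hv]

/-- the length of finitely many intervals -/
lemma vol_int {α : Type*} (s : Finset α) (c r : α → ℝ) (hr : ∀ a ∈ s, 0 ≤ r a) {e : ℝ}
    (he : ∑ a ∈ s, r a ≤ e) :
    volume (⋃ a ∈ s, closedBall (c a) (r a)) ≤ ENNReal.ofReal (2 * e) := by
  refine (measure_biUnion_finset_le _ _).trans ?_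
  simp only [Real.volume_closedBall]
  rw [← ENNReal.ofReal_sum_of_nonneg fun a ha => by have := hr a ha; positivity, ← Finset.mul_sum]
  exact ENNReal.ofReal_le_ofReal (by gcongr)

lemma avoid {α β : Type*} (s : Finset α) (c r : α → ℝ) (s' : Finset β) (c' r' : β → ℝ)
    (hr : ∀ a ∈ s, 0 ≤ r a) (hr' : ∀ a ∈ s', 0 ≤ r' a) {e e' τ : ℝ} (he : ∑ a ∈ s, r a ≤ e)
    (he' : ∑ a ∈ s', r' a ≤ e') (h : 2 * e + 2 * e' < τ) :
    ∃ t ∈ Icc 0 τ, (∀ a ∈ s, r a < |t - c a|) ∧ ∀ a ∈ s', r' a < |t - c' a| := by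
  have h0 : 0 ≤ e := (Finset.sum_nonneg hr).trans he
  have h0' : 0 ≤ e' := (Finset.sum_nonneg hr').trans he'
  by_contra hn
  have h1 : Icc 0 τ ⊆ (⋃ a ∈ s, closedBall (c a) (r a)) ∪ ⋃ a ∈ s', closedBall (c' a) (r' a) := by
    intro t ht
    by_contra h2
    refine hn ⟨t, ht, fun a ha => not_le.1 fun h3 => h2 (Or.inl (mem_iUnion₂.2 ⟨a, ha, h3⟩)),
      fun a ha => not_le.1 fun h3 => h2 (Or.inr (mem_iUnion₂.2 ⟨a, ha, h3⟩))⟩
  have h2 := (measure_mono (μ := volume) h1).trans ((measure_union_le _ _).trans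
    (add_le_add (vol_int s c r hr he) (vol_int s' c' r' hr' he')))
  rw [Real.volume_Icc, sub_zero, ← ENNReal.ofReal_add (by positivity) (by positivity),
    ENNReal.ofReal_le_ofReal_iff (by positivity)] at h2
  linarith

variable {f : Frame 2 E3} {p : E3} {M K : Set E3} {ρ h' h L : ℝ} {s : Finset (E2 × ℝ)} {k : ℕ}
  {τ : ℕ → E2 → ℝ}

lemma sh_ncard (S : Sheets ⊤ M K (Ph f p) ρ h' h L s k τ) (hh : h' < h) {z : E2}
    (hz : z ∈ GG ρ s) : {t | |t| ≤ h ∧ Ph f p (z, t) ∈ M}.ncard = k := by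
  have e : {t | |t| ≤ h ∧ Ph f p (z, t) ∈ M} = (fun l => τ l z) '' (Finset.range k : Set ℕ) := by
    ext t
    constructor
    · rintro ⟨h1, h2⟩
      obtain ⟨l, hl, rfl⟩ := (S.fib z hz t h1).1 h2
      exact ⟨l, by simpa using hl, rfl⟩
    · rintro ⟨l, hl, rfl⟩
      have h1 := (S.bd l z).trans hh.le
      exact ⟨h1, (S.fib z hz _ h1).2 ⟨l, by simpa using hl, rfl⟩⟩
  rw [e, InjOn.ncard_image, ncard_coe_finset, Finset.card_range]
  intro l hl l' hl' hne
  by_contra h1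
  exact sh_ne S hz (by simpa using hl) (by simpa using hl') h1 hne

lemma mass_eq (S : Sheets ⊤ M K (Ph f p) ρ h' h L s k τ) (hh : h' < h) {A : Set E2}
    (hA : MeasurableSet A) : mu M (tube f p (GG ρ s ∩ A) h) =
      ∑ l ∈ Finset.range k, ∫⁻ y in GG ρ s ∩ A, ENNReal.ofReal (gJ (τ l) y) := by
  have c1 : Continuous fun x : E3 => f.π (x - p) := by fun_prop
  have hB : MeasurableSet ((fun x : E3 => f.π (x - p)) ⁻¹' A) := c1.measurable hA
  have e : tube f p (GG ρ s ∩ A) h = (fun x : E3 => f.π (x - p)) ⁻¹' A ∩ tube f p (GG ρ s) h := by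
    ext x
    simp only [tube, mem_inter_iff, mem_preimage, mem_ofPred_eq]
    tauto
  rw [e, ← Measure.restrict_apply hB, sh_restrict S hh, Measure.finsetSum_apply]
  refine Finset.sum_congr rfl fun l hl => ?_
  have h1 := lintegral_gr' (f := f) (p := p) (isOpen_GG ρ s) (sh_c1 S (Finset.mem_range.1 hl))
    ((isOpen_GG ρ s).measurableSet.inter hA) inter_subset_left fun _ => 1
  simp only [lintegral_one, mul_one, Measure.restrict_apply_univ] at h1
  rw [← h1, Measure.restrict_apply hB]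
  congr 1
  ext x
  simp only [mem_inter_iff, mem_preimage, mem_gr]
  tauto

/-- lower bound for the mass -/
lemma mass_ge (hM : Surf M) (S : Sheets ⊤ M K (Ph f p) ρ h' h L s k τ) (hh : h' < h) {r e : ℝ}
    (hr : 0 ≤ r) (hrρ : r < ρ) (he : ∑ c ∈ s, c.2 ≤ e) (he1 : e ≤ 1) :
    ENNReal.ofReal (k * (cH 2 * (r ^ 2 * π - 9 * π * e))) ≤ mu M (tube f p (closedBall 0 r) h') := by
  have hc := cH_pos' 2
  have h0 : 0 ≤ e := (Finset.sum_nonneg fun c hc => (S.pos c hc).le).trans he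
  have h1 : ENNReal.ofReal (r ^ 2 * π - 9 * π * e) ≤ volume (GG ρ s ∩ closedBall 0 r) := by
    rw [ENNReal.ofReal_sub _ (by positivity), tsub_le_iff_right,
      ENNReal.ofReal_mul (by positivity), ENNReal.ofReal_pow hr,
      ← EuclideanSpace.volume_closedBall_fin_two (0 : E2) r, inter_comm]
    refine (measure_le_inter_add_sdiff _ _ (GG ρ s)).trans (add_le_add le_rfl
      ((measure_mono ?_).trans (vol_holes S.pos he he1)))
    exact (sdiff_subset_sdiff_left (closedBall_subset_ball hrρ)).trans (sdiff_GG S.pos ρ)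
  have h2 : mu M (tube f p (GG ρ s ∩ closedBall 0 r) h) ≤ mu M (tube f p (closedBall 0 r) h') := by
    rw [Measure.restrict_apply' hM.measurableSet, Measure.restrict_apply' hM.measurableSet]
    refine measure_mono fun x hx => ⟨⟨hx.1.1.2, ?_⟩, hx.2⟩
    have h3 := S.fib _ hx.1.1.1 _ hx.1.2
    rw [Ph_coord] at h3
    obtain ⟨l, -, h4⟩ := h3.1 hx.2
    rw [h4]
    exact S.bd l _
  refine le_trans ?_ h2
  rw [mass_eq S hh measurableSet_closedBall, ENNReal.ofReal_mul (Nat.cast_nonneg _),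
    ENNReal.ofReal_natCast, ENNReal.ofReal_mul hc.le]
  refine le_trans (le_of_eq (by simp)) (Finset.sum_le_sum (f := fun _ =>
    ENNReal.ofReal (cH 2) * ENNReal.ofReal (r ^ 2 * π - 9 * π * e)) fun l _ => ?_)
  refine (mul_le_mul_right h1 _).trans ?_
  rw [← setLIntegral_const]
  exact lintegral_mono fun y => ENNReal.ofReal_le_ofReal (cH_le_gJ _ y)

/-- the slope of a graph in `M` -/
lemma slope (hM : Surf M) {u : E2 → ℝ} {z : E2} (hu : DifferentiableAt ℝ u z)
    (h1 : ∀ᶠ y in 𝓝 z, f.gr p u y ∈ M) {b : ℝ} (hb : 0 < b)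
    (h2 : b ≤ |⟪nu M (f.gr p u z), f.n⟫|) : gJ u z ≤ cH 2 / b := by
  have hd := f.hasFDerivAt_gr p hu
  have h3 := hM.inner_nu_fderiv hd.differentiableAt h1 (grad u z)
  rw [hd.fderiv, f.dgr_apply, inner_add_right, real_inner_smul_right,
    real_inner_self_eq_norm_sq] at h3
  have h4 := abs_real_inner_le_norm (nu M (f.gr p u z)) (f.n - f.ι (grad u z))
  rw [hM.norm_nu h1.self_of_nhds, one_mul, f.norm_N, inner_sub_right] at h4
  have h5 : ⟪nu M (f.gr p u z), f.n⟫ - ⟪nu M (f.gr p u z), f.ι (grad u z)⟫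
      = (1 + ‖grad u z‖ ^ 2) * ⟪nu M (f.gr p u z), f.n⟫ := by linarith
  have h6 : 0 < √(1 + ‖grad u z‖ ^ 2) := by positivity
  rw [h5, abs_mul, abs_of_pos (by positivity : 0 < 1 + ‖grad u z‖ ^ 2)] at h4
  have h7 : √(1 + ‖grad u z‖ ^ 2) * b ≤ 1 := by
    refine le_of_mul_le_mul_left ?_ h6
    rw [← mul_assoc, Real.mul_self_sqrt (by positivity), mul_one]
    exact le_trans (by gcongr) h4
  rw [gJ, le_div_iff₀ hb, mul_assoc]
  exact mul_le_of_le_one_right (cH_pos' 2).le h7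

/-- upper bound for the mass -/
lemma mass_le (hM : Surf M) (S : Sheets ⊤ M K (Ph f p) ρ h' h L s k τ) (hh : h' < h) (hρ : 0 ≤ ρ)
    {b m : ℝ} (hb : 0 < b) (hm : 0 ≤ m)
    (h1 : ∀ z ∈ ball (0 : E2) ρ, ∀ t, |t| ≤ h → Ph f p (z, t) ∈ M → Ph f p (z, t) ∉ K →
      b ≤ |⟪nu M (Ph f p (z, t)), f.n⟫|)
    (h2 : mu M (f.cyl p ρ h \ tube f p (GG ρ s) h) ≤ ENNReal.ofReal m) :
    mu M (f.cyl p ρ h) ≤ ENNReal.ofReal (k * (cH 2 / b * (ρ ^ 2 * π)) + m) := by
  have hc := cH_pos' 2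
  rw [ENNReal.ofReal_add (by positivity) hm]
  refine (measure_le_inter_add_sdiff _ _ (tube f p (GG ρ s) h)).trans
    (add_le_add ((measure_mono inter_subset_right).trans ?_) h2)
  have h3 := mass_eq S hh MeasurableSet.univ
  rw [inter_univ] at h3
  rw [h3, ENNReal.ofReal_mul (Nat.cast_nonneg _), ENNReal.ofReal_natCast,
    ENNReal.ofReal_mul (by positivity)]
  refine (Finset.sum_le_sum (g := fun _ =>
    ENNReal.ofReal (cH 2 / b) * ENNReal.ofReal (ρ ^ 2 * π)) fun l hl => ?_).trans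
    (le_of_eq (by simp))
  have hl' := Finset.mem_range.1 hl
  refine (setLIntegral_mono' (g := fun _ => ENNReal.ofReal (cH 2 / b))
    (isOpen_GG ρ s).measurableSet fun z hz => ENNReal.ofReal_le_ofReal ?_).trans ?_
  · have hn := (isOpen_GG ρ s).mem_nhds hz
    have h4 := (S.bd l z).trans hh.le
    refine slope (f := f) (p := p) hM
      (((sh_c1 S hl').differentiableOn one_ne_zero).differentiableAt hn) ?_ hb
      (h1 z hz.1 _ h4 (sh_gr_mem S hh hl' ⟨z, hz, rfl⟩).2 (S.good z hz _ h4))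
    filter_upwards [hn] with y hy using (sh_gr_mem S hh hl' ⟨y, hy, rfl⟩).2
  · rw [setLIntegral_const, ENNReal.ofReal_mul (by positivity), ENNReal.ofReal_pow hρ,
      ← EuclideanSpace.volume_ball_fin_two (0 : E2) ρ]
    exact mul_le_mul_right (measure_mono (GG_subset ρ s)) _

lemma isCompact_tube (r t : ℝ) : IsCompact (tube f p (closedBall 0 r) t) := by
  have h1 : Continuous fun x : E3 => f.π (x - p) := by fun_prop
  have h2 : Continuous fun x : E3 => |⟪f.n, x - p⟫| := by fun_prop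
  exact isCompact_of_isClosed_isBounded
    ((isClosed_closedBall.preimage h1).inter (isClosed_le h2 continuous_const))
    (isBounded_ball.subset (tube_subset (closedBall_subset_ball (lt_add_one r))))

/-- the geometry of a level set near a point -/
lemma geom {W : E3 → ℝ} (hW : ContDiff ℝ ∞ W) (hp : grad W p ≠ 0) (hf : f.n = nuW W p)
    (h1 : ∀ t : ℝ, |t| ≤ 1 → W (p + t • f.n) = 0 → t = 0) {β : ℝ} (hβ : β < 1) :
    ∃ ρ h δ : ℝ, 0 < ρ ∧ ρ ≤ 1 ∧ 0 < h ∧ h ≤ 1 ∧ 0 < δ ∧ ∀ z ∈ ball (0 : E2) (2 * ρ), ∀ t, |t| ≤ h →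
      ∀ ν : E3, ‖ν‖ = 1 → |W (Ph f p (z, t))| < δ →
        (1 - δ) * ‖grad W (Ph f p (z, t))‖ ≤ |⟪ν, grad W (Ph f p (z, t))⟫| →
          |t| ≤ h / 2 ∧ β ≤ |⟪ν, f.n⟫| := by
  have hc : Continuous (Ph f p) := (contDiff_Ph (n := 0)).continuous
  have h0 : ∀ t, Ph f p (0, t) = p + t • f.n := fun t => by simp [Ph]
  have hη : 0 < (1 - β) / 2 := by linarith
  have h2 : ∀ᶠ x in 𝓝 p, grad W x ≠ 0 ∧ dist (nuW W x) (nuW W p) < (1 - β) / 2 :=
    ((contDiff_grad_top hW).continuous.continuousAt.eventually_ne hp).and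
      (Metric.tendsto_nhds.1 (contDiffAt_nuW hW hp).continuousAt _ hη)
  obtain ⟨r, hr, h3⟩ := Metric.eventually_nhds_iff.1 h2
  obtain ⟨h, hh, hh1, hhr⟩ : ∃ h : ℝ, 0 < h ∧ h ≤ 1 ∧ h ≤ r / 2 :=
    ⟨min 1 (r / 2), by positivity, min_le_left _ _, min_le_right _ _⟩
  have hT : IsCompact (Icc (-h) h ∩ {t | h / 2 ≤ |t|}) :=
    isCompact_Icc.inter_right (isClosed_le continuous_const continuous_abs)
  have hF : Continuous fun q : E2 × ℝ => |W (Ph f p q)| := (hW.continuous.comp hc).abs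
  obtain ⟨m, hm, h4⟩ := hT.exists_forall_le' (f := fun t => |W (Ph f p (0, t))|) (a := 0)
    (hF.comp (by fun_prop)).continuousOn fun t ht => abs_pos.2 fun h5 => by
      rw [h0] at h5
      have h6 := h1 t ((abs_le.2 ht.1).trans hh1) h5
      have h7 : h / 2 ≤ |t| := ht.2
      rw [h6, abs_zero] at h7
      linarith
  have h5 : ∀ᶠ z in 𝓝 (0 : E2), ∀ t ∈ Icc (-h) h ∩ {t | h / 2 ≤ |t|},
      m / 2 < |W (Ph f p (z, t))| :=
    hT.eventually_forall_of_forall_eventually fun t ht => hF.continuousAt.eventually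
      (lt_mem_nhds ((half_lt_self hm).trans_le (h4 t ht)))
  obtain ⟨r', hr', h6⟩ := Metric.eventually_nhds_iff.1 h5
  refine ⟨min 1 (min (r / 4) (r' / 2)), h, min (m / 2) ((1 - β) / 2), by positivity,
    min_le_left _ _, hh, hh1, by positivity, fun z hz t ht ν hν k1 k2 => ⟨?_, ?_⟩⟩
  · by_contra hn
    have k3 := (min_le_right 1 _).trans (min_le_right (r / 4) (r' / 2))
    exact (h6 (hz.trans_le (by linarith)) t ⟨abs_le.1 ht, (not_le.1 hn).le⟩).not_gt
      (k1.trans_le (min_le_left _ _))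
  · have k3 := (min_le_right 1 _).trans (min_le_left (r / 4) (r' / 2))
    have k4 := Ph_lip (f := f) (p := p) z 0 t 0
    rw [h0, zero_smul, add_zero, sub_zero, sub_zero] at k4
    obtain ⟨k5, k6⟩ := h3 (y := Ph f p (z, t)) (by
      rw [dist_eq_norm]
      linarith [mem_ball_zero_iff.1 hz])
    have k7 := norm_pos_iff.2 k5
    rw [grad_eq_smul_nuW W, real_inner_smul_right, abs_mul, abs_of_pos k7, ← grad_eq_smul_nuW W,
      mul_comm, mul_le_mul_iff_right₀ k7] at k2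
    have k8 := abs_real_inner_le_norm ν (nuW W (Ph f p (z, t)) - f.n)
    rw [hν, one_mul, inner_sub_right, hf, ← dist_eq_norm, ← hf] at k8
    have k9 := abs_sub_abs_le_abs_sub ⟪ν, nuW W (Ph f p (z, t))⟫ ⟪ν, f.n⟫
    rw [← hf] at k6
    linarith [min_le_right (m / 2) ((1 - β) / 2)]

end Vale.Agent.P218N.C.Sec
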